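import Vale.Agent.P228.HS.Cocycle

/-!
# P228: the invariant `(n+1)`-cochain built from an invariant map and an angle

For an invariant map `Φ` into `ℝⁿ` and an angle `v` near `Φ = 0` which every group element changes
by a multiple of `1/p`, the cochain `Ω = e ∪ μ` (`μ` the pulled back degree cocycle, `e` the integer
winding of `p • v`) is an invariant integer cocycle on fine tuples.
-/

namespace Vale.Agent.P228.HS

open Set Filter
open scoped Topology

noncomputable section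

variable {M : Type*} {n : ℕ}

/-- The representative in `[0,1)`. -/
def rep (v : M → AddCircle (1 : ℝ)) (y : M) : ℝ := (AddCircle.equivIco (1 : ℝ) 0 (v y) : ℝ)

/-- The fractional part of the shifted multiple angle. -/
def fAng (v : M → AddCircle (1 : ℝ)) (p : ℕ) (c₀ : ℝ) (y : M) : ℝ :=
  Int.fract ((p : ℝ) * rep v y + c₀)

/-- The sector of the angle. -/
def sAng (v : M → AddCircle (1 : ℝ)) (p : ℕ) (c₀ : ℝ) (y : M) : ℤ := ⌊(p : ℝ) * rep v y + c₀⌋

/-- The winding cochain. -/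
def eAng (v : M → AddCircle (1 : ℝ)) (p : ℕ) (c₀ : ℝ) (x y : M) : ℤ :=
  round (fAng v p c₀ x - fAng v p c₀ y)

/-- The pulled back degree cocycle. -/
def muC (Φ : M → Fin n → ℝ) (θ : Fin n → ℝ) (l : List M) : ℤ := tau n θ (l.map Φ)

/-- The cochain `e ∪ μ`. -/
def omegaC (Φ : M → Fin n → ℝ) (v : M → AddCircle (1 : ℝ)) (θ : Fin n → ℝ) (p : ℕ) (c₀ : ℝ) :
    List M → ℤ :=
  cup (eAng v p c₀) (muC Φ θ)

/-- A tuple fine enough for `Φ` and for `v`. -/
structure Good (X : Set M) (Φ : M → Fin n → ℝ) (v : M → AddCircle (1 : ℝ)) (p : ℕ) (η : ℝ)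
    (l : List M) : Prop where
  mem : ∀ x ∈ l, x ∈ X
  phi : ∀ x ∈ l, ∀ y ∈ l, dist (Φ x) (Φ y) < η / 8
  ang : ∀ x ∈ l, ∀ y ∈ l, ‖Φ x‖ ≤ η → ‖Φ y‖ ≤ η → dist (v x) (v y) < 1 / (8 * p)

variable {X : Set M} {Φ : M → Fin n → ℝ} {v : M → AddCircle (1 : ℝ)} {θ : Fin n → ℝ} {p : ℕ}
  {η c₀ : ℝ}

theorem Good.subset {l l' : List M} (h : Good X Φ v p η l) (hs : ∀ x ∈ l', x ∈ l) :
    Good X Φ v p η l' :=
  ⟨fun x hx => h.mem x (hs x hx), fun x hx y hy => h.phi x (hs x hx) y (hs y hy),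
    fun x hx y hy => h.ang x (hs x hx) y (hs y hy)⟩

theorem Good.tail {x : M} {l : List M} (h : Good X Φ v p η (x :: l)) : Good X Φ v p η l :=
  h.subset fun _ hy => List.mem_cons_of_mem _ hy

theorem int_eq_zero_of_abs_lt {z : ℤ} (h : |(z : ℝ)| < 1) : z = 0 :=
  Int.abs_lt_one_iff.1 (by exact_mod_cast h)

theorem circle_norm (x : ℝ) : ‖(x : AddCircle (1 : ℝ))‖ = |x - round x| := by
  simp [AddCircle.norm_eq]

/-- Where the degree cocycle of a short chain is nonzero, all points are close to the origin. -/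
theorem norm_le_of_tau {a ε : ℝ} (ha : 0 ≤ a) (hε : 0 ≤ ε) (hθ : ∀ i, |θ i| ≤ a)
    {l : List (Fin n → ℝ)} (hl : ∀ x ∈ l, ∀ y ∈ l, dist x y ≤ ε) (h : tau n θ l ≠ 0) :
    ∀ x ∈ l, ‖x‖ ≤ a + ε + ε := by
  intro z hz
  rw [pi_norm_le_iff_of_nonneg (by linarith)]
  intro i
  obtain ⟨x, hx, y, hy, hxy⟩ := tau_ne_zero h i
  have h1 := abs_le.1 ((Real.dist_eq _ _).symm.trans_le
    ((dist_le_pi_dist x y i).trans (hl x hx y hy)))
  have h2 := abs_le.1 ((Real.dist_eq _ _).symm.trans_le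
    ((dist_le_pi_dist z x i).trans (hl z hz x hx)))
  have h3 := abs_le.1 (hθ i)
  rw [Real.norm_eq_abs, abs_le]
  simp only [stepAt] at hxy
  split_ifs at hxy <;> first | exact absurd rfl hxy | (constructor <;> linarith)

variable (hη : 0 < η) (hθ : ∀ i, |θ i| < η / 8)
include hη hθ

theorem Good.small {l : List M} (hl : Good X Φ v p η l) (h : muC Φ θ l ≠ 0) :
    ∀ x ∈ l, ‖Φ x‖ ≤ η / 2 := by
  intro x hx
  have hd : ∀ a ∈ l.map Φ, ∀ b ∈ l.map Φ, dist a b ≤ η / 8 := by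
    simp only [List.mem_map]
    rintro _ ⟨a, ha, rfl⟩ _ ⟨b, hb, rfl⟩
    exact (hl.phi a ha b hb).le
  linarith [norm_le_of_tau (by positivity) (by positivity) (fun i => (hθ i).le) hd h (Φ x)
    (List.mem_map_of_mem hx)]

omit hθ in
theorem Good.near {l : List M} (hl : Good X Φ v p η l) {x y : M} (hx : x ∈ l) (hy : y ∈ l)
    (h : ‖Φ y‖ ≤ η / 2) : ‖Φ x‖ ≤ η ∧ ‖Φ x‖ ≤ 3 * η / 4 := by
  have h1 := norm_le_norm_add_norm_sub' (Φ x) (Φ y)
  have h2 := hl.phi x hx y hy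
  rw [dist_eq_norm] at h2
  constructor <;> linarith

omit hη hθ

theorem coe_rep (y : M) : ((rep v y : ℝ) : AddCircle (1 : ℝ)) = v y :=
  (AddCircle.equivIco (1 : ℝ) 0).symm_apply_apply (v y)

theorem coe_int (z : ℤ) : ((z : ℝ) : AddCircle (1 : ℝ)) = 0 :=
  (QuotientAddGroup.eq_zero_iff _).2 (AddSubgroup.mem_zmultiples_iff.2 ⟨z, by simp⟩)

theorem exists_int_of_coe_eq {a b : ℝ} (h : (a : AddCircle (1 : ℝ)) = (b : AddCircle (1 : ℝ))) :
    ∃ k : ℤ, a = b + k := by
  obtain ⟨k, hk⟩ := AddSubgroup.mem_zmultiples_iff.1 ((QuotientAddGroup.eq_iff_sub_mem).1 h)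
  exact ⟨k, by simp at hk; linarith⟩

theorem coe_fAng (y : M) :
    ((fAng v p c₀ y : ℝ) : AddCircle (1 : ℝ)) = p • v y + (c₀ : AddCircle (1 : ℝ)) := by
  rw [← coe_rep (v := v) y, ← AddCircle.coe_nsmul, nsmul_eq_mul, ← AddCircle.coe_add]
  conv_rhs => rw [← Int.fract_add_floor ((p : ℝ) * rep v y + c₀), AddCircle.coe_add, coe_int,
    add_zero]
  rfl

theorem dist_nsmul_lt {x y : M} {b : ℝ} (hp : 0 < p) (h : dist (v x) (v y) < b / p) :
    |fAng v p c₀ x - fAng v p c₀ y - round (fAng v p c₀ x - fAng v p c₀ y)| < b := by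
  rw [← circle_norm, AddCircle.coe_sub, coe_fAng, coe_fAng, add_sub_add_right_eq_sub, ← nsmul_sub]
  refine (norm_nsmul_le (n := p) (a := v x - v y)).trans_lt ?_
  rw [← dist_eq_norm]
  rwa [lt_div_iff₀ (by exact_mod_cast hp), mul_comm] at h

theorem eAng_small (hp : 0 < p) {x y : M} (h : dist (v x) (v y) < 1 / (8 * p)) :
    |fAng v p c₀ x - fAng v p c₀ y - eAng v p c₀ x y| < 1 / 8 :=
  dist_nsmul_lt hp (h.trans_eq (by field_simp))

theorem fAng_eq_of_nsmul {x y : M} (h : p • v x = p • v y) : fAng v p c₀ x = fAng v p c₀ y := by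
  obtain ⟨k, hk⟩ := exists_int_of_coe_eq
    (show ((fAng v p c₀ x : ℝ) : AddCircle (1 : ℝ)) = (fAng v p c₀ y : AddCircle (1 : ℝ)) by
      rw [coe_fAng, coe_fAng, h])
  have h1 : ∀ z, fAng v p c₀ z ∈ Ico (0 : ℝ) 1 := fun z => ⟨Int.fract_nonneg _, Int.fract_lt_one _⟩
  obtain ⟨hx0, hx1⟩ := h1 x
  obtain ⟨hy0, hy1⟩ := h1 y
  have : k = 0 := int_eq_zero_of_abs_lt (abs_lt.2 ⟨by linarith, by linarith⟩)
  simp [this] at hk
  exact hk

theorem sAng_shift (hp : 0 < p) {x y : M} (h : v x = v y + ((1 / p : ℝ) : AddCircle (1 : ℝ))) :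
    ∃ k : ℤ, sAng v p c₀ x = sAng v p c₀ y + (1 + p * k) := by
  obtain ⟨k, hk⟩ := exists_int_of_coe_eq
    (show ((rep v x : ℝ) : AddCircle (1 : ℝ)) = ((rep v y + 1 / p : ℝ) : AddCircle (1 : ℝ)) by
      rw [AddCircle.coe_add, coe_rep, coe_rep, h])
  refine ⟨k, ?_⟩
  rw [sAng, sAng, hk, ← Int.floor_add_intCast]
  congr 1
  have : (p : ℝ) ≠ 0 := by exact_mod_cast hp.ne'
  push_cast
  field_simp
  ring

/-- The winding is congruent to the change of sector. -/
theorem eAng_dvd (hp : 0 < p) {x y : M} (hd : dist (v x) (v y) < 1 / (8 * p)) :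
    (p : ℤ) ∣ eAng v p c₀ x y - (sAng v p c₀ y - sAng v p c₀ x) := by
  have h1 := eAng_small (c₀ := c₀) hp hd
  have hp0 : (0 : ℝ) < p := by exact_mod_cast hp
  have h2 : |rep v x - rep v y - round (rep v x - rep v y)| < 1 / (8 * p) := by
    rw [← circle_norm, AddCircle.coe_sub, coe_rep, coe_rep, ← dist_eq_norm]
    exact hd
  refine ⟨round (rep v x - rep v y), sub_eq_zero.1 (int_eq_zero_of_abs_lt ?_)⟩
  have h3 : |(p : ℝ) * (rep v x - rep v y - round (rep v x - rep v y))| < 1 / 8 := by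
    rw [abs_mul, abs_of_pos hp0]
    calc (p : ℝ) * |rep v x - rep v y - round (rep v x - rep v y)| < p * (1 / (8 * p)) := by gcongr
      _ = 1 / 8 := by field_simp
  have hx := Int.fract_add_floor ((p : ℝ) * rep v x + c₀)
  have hy := Int.fract_add_floor ((p : ℝ) * rep v y + c₀)
  push_cast
  rw [abs_lt] at h1 h3 ⊢
  simp only [fAng] at h1
  simp only [sAng]
  constructor <;> linarith

include hη hθ

theorem Good.cbd_omegaC (hp : 0 < p) : ∀ {l : List M}, Good X Φ v p η l →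
    cbd (omegaC Φ v θ p c₀) l = 0
  | [], _ => rfl
  | [_], _ => cbd_cup_short _ _ (by simp)
  | [_, _], _ => cbd_cup_short _ _ (by simp)
  | x :: y :: z :: l, hl => by
    have hμ : cbd (muC Φ θ) (y :: z :: l) = 0 := by
      have := cbd_comp_map Φ (tau n θ) (y :: z :: l)
      rw [cbd_tau] at this
      exact this
    rw [omegaC, cbd_cup, hμ, mul_zero, sub_zero]
    by_cases hz : muC Φ θ (z :: l) = 0
    · rw [hz, mul_zero]
    have hzs := hl.tail.tail.small hη hθ hz z List.mem_cons_self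
    have hx : x ∈ x :: y :: z :: l := List.mem_cons_self
    have hy : y ∈ x :: y :: z :: l := List.mem_cons_of_mem _ List.mem_cons_self
    have hz' : z ∈ x :: y :: z :: l := List.mem_cons_of_mem _ (List.mem_cons_of_mem _ List.mem_cons_self)
    have hxn := (hl.near hη hx hz' hzs).1
    have hyn := (hl.near hη hy hz' hzs).1
    have a1 := eAng_small (c₀ := c₀) hp (hl.ang y hy z hz' hyn (by linarith))
    have a2 := eAng_small (c₀ := c₀) hp (hl.ang x hx z hz' hxn (by linarith))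
    have a3 := eAng_small (c₀ := c₀) hp (hl.ang x hx y hy hxn hyn)
    have : eAng v p c₀ y z - eAng v p c₀ x z + eAng v p c₀ x y = 0 := int_eq_zero_of_abs_lt (by
      push_cast
      rw [abs_lt] at a1 a2 a3 ⊢
      constructor <;> linarith)
    rw [this, zero_mul]

theorem Good.omegaC_smul {G : Type*} [Group G] [MulAction G M]
    (hΦi : ∀ a : G, ∀ y ∈ X, Φ (a • y) = Φ y)
    (hvi : ∀ a : G, ∀ y ∈ X, ‖Φ y‖ ≤ η → p • v (a • y) = p • v y) (a : G) :
    ∀ {l : List M}, Good X Φ v p η l →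
      omegaC Φ v θ p c₀ (l.map (a • ·)) = omegaC Φ v θ p c₀ l
  | [], _ => rfl
  | [_], _ => rfl
  | x :: y :: l, hl => by
    have hμi : muC Φ θ ((y :: l).map (a • ·)) = muC Φ θ (y :: l) := by
      simp only [muC, List.map_map]
      congr 1
      exact List.map_congr_left fun w hw => hΦi a w (hl.mem w (List.mem_cons_of_mem _ hw))
    rw [List.map_cons, List.map_cons, omegaC, cup_cons_cons, cup_cons_cons,
      ← List.map_cons (f := (a • ·)), hμi]
    by_cases hz : muC Φ θ (y :: l) = 0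
    · rw [hz, mul_zero, mul_zero]
    have hys := hl.tail.small hη hθ hz y List.mem_cons_self
    have hy : y ∈ x :: y :: l := List.mem_cons_of_mem _ List.mem_cons_self
    congr 1
    rw [eAng, eAng,
      fAng_eq_of_nsmul (hvi a x (hl.mem x List.mem_cons_self)
        (hl.near hη List.mem_cons_self hy hys).1),
      fAng_eq_of_nsmul (hvi a y (hl.mem y hy) (by linarith))]

theorem Good.muC_big {l : List M} (hl : Good X Φ v p η l) {x : M} (hx : x ∈ l)
    (hb : η ≤ ‖Φ x‖) : muC Φ θ l = 0 := by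
  by_contra h
  linarith [hl.small hη hθ h x hx]

theorem Good.omegaC_big {l : List M} (hl : Good X Φ v p η l) (hall : ∀ x ∈ l, η ≤ ‖Φ x‖) :
    omegaC Φ v θ p c₀ l = 0 := by
  by_contra h
  obtain ⟨x, y, l', rfl, -, hμ'⟩ := cup_ne_zero h
  exact hμ' (hl.tail.muC_big hη hθ (x := y) List.mem_cons_self
    (hall y (List.mem_cons_of_mem _ List.mem_cons_self)))

omit hη hθ in
theorem omegaC_repeat (x : M) (l₁ l₂ : List M) :
    omegaC Φ v θ p c₀ (l₁ ++ x :: x :: l₂) = 0 := by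
  refine cup_append_eq_zero (by simp [eAng]) (fun l l' => ?_) _ _
  simp only [muC, List.map_append, List.map_cons]
  exact tau_append_eq_zero (fun i => rfl) _ _

end

end Vale.Agent.P228.HS
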