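import Mathlib

/-!
# P228: cochains on lists of points, prisms, and sums over cubical grids

Cochains are functions on lists of points. `cbd` is the alternating coboundary, `prism b t` the
prism operator between two maps. Integration of a cochain over the standard grid of a cube is
defined by iterating prisms, and Stokes' formula is then formal.
-/

namespace Vale.Agent.P228.HS

variable {X Y : Type*}

/-- The alternating coboundary. -/
def cbd : (List X → ℤ) → List X → ℤ
  | _, [] => 0
  | c, x :: l => c l - cbd (fun l' => c (x :: l')) l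

/-- The prism operator between the maps `b` and `t`. -/
def prism (b t : Y → X) : (List X → ℤ) → List Y → ℤ
  | _, [] => 0
  | c, x :: l => c (b x :: t x :: l.map t) - prism b t (fun l' => c (b x :: l')) l

@[simp] theorem cbd_nil (c : List X → ℤ) : cbd c [] = 0 := rfl

theorem cbd_cons (c : List X → ℤ) (x : X) (l : List X) :
    cbd c (x :: l) = c l - cbd (fun l' => c (x :: l')) l := rfl

@[simp] theorem prism_nil (b t : Y → X) (c : List X → ℤ) : prism b t c [] = 0 := rfl

theorem prism_cons (b t : Y → X) (c : List X → ℤ) (x : Y) (l : List Y) :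
    prism b t c (x :: l) = c (b x :: t x :: l.map t) - prism b t (fun l' => c (b x :: l')) l := rfl

theorem cbd_comp_map (f : Y → X) (c : List X → ℤ) (l : List Y) :
    cbd (fun l' => c (l'.map f)) l = cbd c (l.map f) := by
  induction l generalizing c with
  | nil => rfl
  | cons x l ih => simp [cbd_cons, ← ih]

theorem cbd_sub (c d : List X → ℤ) (l : List X) :
    cbd (fun l' => c l' - d l') l = cbd c l - cbd d l := by
  induction l generalizing c d with
  | nil => simp
  | cons x l ih => simp [cbd_cons, ih]; ring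

theorem prism_sub (b t : Y → X) (c d : List X → ℤ) (l : List Y) :
    prism b t (fun l' => c l' - d l') l = prism b t c l - prism b t d l := by
  induction l generalizing c d with
  | nil => simp
  | cons x l ih => simp [prism_cons, ih]; ring

theorem cbd_const_mul (a : ℤ) (c : List X → ℤ) (l : List X) :
    cbd (fun l' => a * c l') l = a * cbd c l := by
  induction l generalizing c with
  | nil => simp
  | cons x l ih => simp [cbd_cons, ih]; ring

theorem cbd_prism_add_prism_cbd (b t : Y → X) (c : List X → ℤ) (l : List Y) :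
    cbd (prism b t c) l + prism b t (cbd c) l = c (l.map t) - c (l.map b) := by
  induction l generalizing c with
  | nil => simp
  | cons x l ih =>
    have h := ih (fun l' => c (b x :: l'))
    simp only [cbd_cons, prism_cons, List.map_cons, cbd_sub, prism_sub]
    rw [cbd_comp_map t (fun l' => c (b x :: t x :: l'))]
    linarith

theorem prism_comp_map {Y' X' : Type*} {b t : Y → X} {b' t' : Y' → X'} (f : Y' → Y) (f' : X' → X)
    (hb : ∀ y, b (f y) = f' (b' y)) (ht : ∀ y, t (f y) = f' (t' y))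
    (c : List X → ℤ) (l : List Y') :
    prism b' t' (fun l' => c (l'.map f')) l = prism b t c (l.map f) := by
  induction l generalizing c with
  | nil => rfl
  | cons x l ih =>
    simp [prism_cons, ← ih, hb, ht, List.map_map, Function.comp_def]

/-- Grid points of `{0,…,N}^m` that are pairwise adjacent. -/
def Adj (N : ℕ) {m : ℕ} (l : List (Fin m → ℕ)) : Prop :=
  (∀ x ∈ l, ∀ i, x i ≤ N) ∧ ∀ x ∈ l, ∀ y ∈ l, ∀ i, x i ≤ y i + 1

theorem Adj.of_subset {N m : ℕ} {l l' : List (Fin m → ℕ)} (h : Adj N l) (hs : ∀ x ∈ l', x ∈ l) :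
    Adj N l' :=
  ⟨fun x hx => h.1 x (hs x hx), fun x hx y hy => h.2 x (hs x hx) y (hs y hy)⟩

theorem Adj.tail {N m : ℕ} {x : Fin m → ℕ} {l : List (Fin m → ℕ)} (h : Adj N (x :: l)) :
    Adj N l :=
  h.of_subset fun _ hy => List.mem_cons_of_mem _ hy

/-- `x` lifted to height `a`. -/
abbrev lvl (a : ℕ) {m : ℕ} (x : Fin m → ℕ) : Fin (m + 1) → ℕ := Fin.cons a x

theorem lvl_le {a N m : ℕ} (ha : a ≤ N) {x : Fin m → ℕ} (hx : ∀ i, x i ≤ N) :
    ∀ i, lvl a x i ≤ N := Fin.cases (by simpa [lvl] using ha) (by simpa [lvl] using hx)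

theorem Adj.prism_mem {N m a : ℕ} (ha : a < N) {l : List (Fin m → ℕ)} (h : Adj N l)
    {l' : List (Fin (m + 1) → ℕ)}
    (hl' : ∀ z ∈ l', ∃ y ∈ l, z = lvl a y ∨ z = lvl (a + 1) y) : Adj N l' := by
  refine ⟨fun z hz => ?_, fun z hz z' hz' i => ?_⟩
  · obtain ⟨y, hy, rfl | rfl⟩ := hl' z hz
    · exact lvl_le ha.le (h.1 y hy)
    · exact lvl_le ha (h.1 y hy)
  · obtain ⟨y, hy, hzy⟩ := hl' z hz
    obtain ⟨y', hy', hzy'⟩ := hl' z' hz'
    induction i using Fin.cases with
    | zero => rcases hzy with rfl | rfl <;> rcases hzy' with rfl | rfl <;> simp [lvl] <;> omega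
    | succ i => rcases hzy with rfl | rfl <;> rcases hzy' with rfl | rfl <;>
        simpa [lvl] using h.2 y hy y' hy' i

/-- A prism only looks at adjacent lists that contain a vertical edge, one longer than the input. -/
theorem prism_eq_zero {N m a : ℕ} (ha : a < N) (c : List (Fin (m + 1) → ℕ) → ℤ)
    (l : List (Fin m → ℕ)) (hl : Adj N l)
    (h : ∀ l₁ y l₂, (l₁ ++ lvl a y :: lvl (a + 1) y :: l₂).length = l.length + 1 →
      (∀ z ∈ l₁ ++ lvl a y :: lvl (a + 1) y :: l₂, ∃ w ∈ l, z = lvl a w ∨ z = lvl (a + 1) w) →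
      Adj N (l₁ ++ lvl a y :: lvl (a + 1) y :: l₂) →
      c (l₁ ++ lvl a y :: lvl (a + 1) y :: l₂) = 0) :
    prism (lvl a) (lvl (a + 1)) c l = 0 := by
  induction l generalizing c with
  | nil => rfl
  | cons x l ih =>
    have h1 : c (lvl a x :: lvl (a + 1) x :: l.map (lvl (a + 1))) = 0 := by
      have hmem : ∀ z ∈ ([] : List (Fin (m + 1) → ℕ)) ++ lvl a x :: lvl (a + 1) x ::
          l.map (lvl (a + 1)), ∃ w ∈ x :: l, z = lvl a w ∨ z = lvl (a + 1) w := by
        intro z hz
        simp only [List.nil_append, List.mem_cons, List.mem_map] at hz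
        rcases hz with rfl | rfl | ⟨w, hw, rfl⟩
        · exact ⟨x, by simp, Or.inl rfl⟩
        · exact ⟨x, by simp, Or.inr rfl⟩
        · exact ⟨w, by simp [hw], Or.inr rfl⟩
      simpa using h [] x (l.map (lvl (a + 1))) (by simp) hmem (hl.prism_mem ha hmem)
    have h2 : prism (lvl a) (lvl (a + 1)) (fun l' => c (lvl a x :: l')) l = 0 := by
      refine ih _ hl.tail fun l₁ y l₂ hlen hmem _ => ?_
      have hmem' : ∀ z ∈ (lvl a x :: l₁) ++ lvl a y :: lvl (a + 1) y :: l₂,
          ∃ w ∈ x :: l, z = lvl a w ∨ z = lvl (a + 1) w := by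
        intro z hz
        rw [List.cons_append, List.mem_cons] at hz
        rcases hz with rfl | hz
        · exact ⟨x, by simp, Or.inl rfl⟩
        · obtain ⟨w, hw, hz⟩ := hmem z hz
          exact ⟨w, List.mem_cons_of_mem _ hw, hz⟩
      simpa using h (lvl a x :: l₁) y l₂ (by simp at hlen ⊢; omega) hmem' (hl.prism_mem ha hmem')
    rw [prism_cons, h1, h2, sub_zero]

theorem prism_congr {N m a : ℕ} (ha : a < N) {c d : List (Fin (m + 1) → ℕ) → ℤ}
    (l : List (Fin m → ℕ)) (hl : Adj N l)
    (h : ∀ l', Adj N l' → l'.length = l.length + 1 → c l' = d l') :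
    prism (lvl a) (lvl (a + 1)) c l = prism (lvl a) (lvl (a + 1)) d l := by
  rw [← sub_eq_zero, ← prism_sub]
  exact prism_eq_zero ha _ l hl fun l₁ y l₂ hlen _ hadj => sub_eq_zero.2 (h _ hadj hlen)

/-- Sum of an `m`-cochain over the grid triangulation of `{0,…,N}^m`. -/
def integ (N : ℕ) : (m : ℕ) → (List (Fin m → ℕ) → ℤ) → ℤ
  | 0, c => c [Fin.elim0]
  | m + 1, c => ∑ a ∈ Finset.range N, integ N m (prism (lvl a) (lvl (a + 1)) c)

/-- Sum of an `(m-1)`-cochain over the boundary of the grid. -/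
def bd (N : ℕ) : (m : ℕ) → (List (Fin m → ℕ) → ℤ) → ℤ
  | 0, c => c []
  | m + 1, c => integ N m (fun l => c (l.map (lvl N))) - integ N m (fun l => c (l.map (lvl 0)))
      - ∑ a ∈ Finset.range N, bd N m (prism (lvl a) (lvl (a + 1)) c)

theorem integ_congr {N : ℕ} : ∀ {m : ℕ} {c d : List (Fin m → ℕ) → ℤ},
    (∀ l, Adj N l → l.length = m + 1 → c l = d l) → integ N m c = integ N m d
  | 0, _, _, h => h _ ⟨fun _ _ i => i.elim0, fun _ _ _ _ i => i.elim0⟩ rfl
  | m + 1, _, _, h => Finset.sum_congr rfl fun a ha => integ_congr fun l hl hlen =>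
      prism_congr (Finset.mem_range.1 ha) l hl fun l' hl' hlen' => h l' hl' (by omega)

theorem integ_sub (N : ℕ) : ∀ {m : ℕ} (c d : List (Fin m → ℕ) → ℤ),
    integ N m (fun l => c l - d l) = integ N m c - integ N m d
  | 0, _, _ => rfl
  | m + 1, c, d => by
    have : ∀ a, prism (lvl a) (lvl (a + 1)) (fun l => c l - d l) =
        fun l => prism (lvl (m := m) a) (lvl (a + 1)) c l - prism (lvl a) (lvl (a + 1)) d l :=
      fun a => funext fun l => prism_sub _ _ c d l
    simp only [integ, this, integ_sub N, Finset.sum_sub_distrib]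

theorem integ_zero (N m : ℕ) : integ N m (fun _ => 0) = 0 := by
  simpa using integ_sub N (m := m) (fun _ => 0) (fun _ => 0)

theorem integ_eq_zero {N m : ℕ} {c : List (Fin m → ℕ) → ℤ}
    (h : ∀ l, Adj N l → l.length = m + 1 → c l = 0) : integ N m c = 0 := by
  rw [integ_congr h, integ_zero]

/-- Stokes' formula. -/
theorem integ_cbd (N : ℕ) : ∀ (m : ℕ) (c : List (Fin m → ℕ) → ℤ),
    integ N m (cbd c) = bd N m c
  | 0, c => by simp [integ, bd, cbd_cons]
  | m + 1, c => by
    have key : ∀ a, integ N m (prism (lvl a) (lvl (a + 1)) (cbd c)) =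
        integ N m (fun l => c (l.map (lvl (a + 1)))) - integ N m (fun l => c (l.map (lvl a))) -
          bd N m (prism (lvl a) (lvl (a + 1)) c) := fun a => by
      rw [← integ_cbd N m (prism (lvl a) (lvl (a + 1)) c), ← integ_sub, ← integ_sub]
      congr 1
      funext l
      linarith [cbd_prism_add_prism_cbd (lvl (m := m) a) (lvl (a + 1)) c l]
    simp only [integ, key, bd, Finset.sum_sub_distrib,
      Finset.sum_range_sub (fun a => integ N m (fun l => c (l.map (lvl a))))]

/-- The boundary sum vanishes when the cochain vanishes on the faces. -/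
theorem bd_eq_zero {N : ℕ} : ∀ {m : ℕ} {c : List (Fin m → ℕ) → ℤ}, c [] = 0 →
    (∀ l, Adj N l → l.length = m → ∀ i, ((∀ x ∈ l, x i = 0) ∨ ∀ x ∈ l, x i = N) → c l = 0) →
    bd N m c = 0
  | 0, _, h0, _ => h0
  | m + 1, c, h0, h => by
    have h1 : ∀ v, v = 0 ∨ v = N → integ N m (fun l => c (l.map (lvl v))) = 0 := fun v hv =>
      integ_eq_zero fun l hl hlen => by
        refine h _ ?_ (by simpa using hlen) 0 ?_
        · refine ⟨?_, ?_⟩
          · simp only [List.mem_map]
            rintro _ ⟨x, hx, rfl⟩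
            exact lvl_le (by omega) (hl.1 x hx)
          · simp only [List.mem_map]
            rintro _ ⟨x, hx, rfl⟩ _ ⟨y, hy, rfl⟩ i
            induction i using Fin.cases with
            | zero => simp [lvl]
            | succ i => simpa [lvl] using hl.2 x hx y hy i
        · rcases hv with rfl | rfl
          · left; simp [lvl]
          · right; simp [lvl]
    simp only [bd, h1 N (Or.inr rfl), h1 0 (Or.inl rfl), sub_zero, zero_sub, neg_eq_zero]
    refine Finset.sum_eq_zero fun a ha => bd_eq_zero (by simp) fun l hl hlen i hi => ?_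
    refine prism_eq_zero (Finset.mem_range.1 ha) c l hl fun l₁ y l₂ hlen' hmem hadj => ?_
    refine h _ hadj (by omega) i.succ ?_
    rcases hi with hi | hi
    · refine Or.inl fun z hz => ?_
      obtain ⟨w, hw, rfl | rfl⟩ := hmem z hz <;> simpa [lvl] using hi w hw
    · refine Or.inr fun z hz => ?_
      obtain ⟨w, hw, rfl | rfl⟩ := hmem z hz <;> simpa [lvl] using hi w hw

/-- Inserting the second coordinate. -/
abbrev lvl₁ (v : ℕ) {m : ℕ} (x : Fin (m + 1) → ℕ) : Fin (m + 2) → ℕ :=
  Fin.cons (x 0) (Fin.cons v (Fin.tail x))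

/-- Boundary sum of a square times a cube whose lateral faces contribute nothing. -/
theorem bd_square {N m : ℕ} (c : List (Fin (m + 2) → ℕ) → ℤ)
    (h : ∀ l, Adj N l → l.length = m + 2 → ∀ i : Fin m,
      ((∀ x ∈ l, x i.succ.succ = 0) ∨ ∀ x ∈ l, x i.succ.succ = N) → c l = 0) :
    bd N (m + 2) c =
      integ N (m + 1) (fun l => c (l.map (lvl N))) - integ N (m + 1) (fun l => c (l.map (lvl 0)))
      - (integ N (m + 1) (fun l => c (l.map (lvl₁ N)))
        - integ N (m + 1) (fun l => c (l.map (lvl₁ 0)))) := by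
  have comm : ∀ v a, (fun l => prism (lvl (m := m + 1) a) (lvl (a + 1)) c (l.map (lvl v))) =
      prism (lvl (m := m) a) (lvl (a + 1)) (fun l => c (l.map (lvl₁ v))) := fun v a => by
    funext l
    exact (prism_comp_map (lvl v) (lvl₁ v) (fun y => by simp [lvl, lvl₁])
      (fun y => by simp [lvl, lvl₁]) c l).symm
  have hz : ∀ a ∈ Finset.range N, ∀ b ∈ Finset.range N,
      bd N m (prism (lvl b) (lvl (b + 1)) (prism (lvl a) (lvl (a + 1)) c)) = 0 := by
    intro a ha b hb
    refine bd_eq_zero (by simp) fun l hl hlen i hi => ?_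
    refine prism_eq_zero (Finset.mem_range.1 hb) _ l hl fun l₁ y l₂ hlen₁ hmem₁ hadj₁ => ?_
    refine prism_eq_zero (Finset.mem_range.1 ha) _ _ hadj₁ fun l₃ y' l₄ hlen₂ hmem₂ hadj₂ => ?_
    refine h _ hadj₂ (by omega) i ?_
    rcases hi with hi | hi
    · refine Or.inl fun z hz => ?_
      obtain ⟨w, hw, rfl | rfl⟩ := hmem₂ z hz <;>
        obtain ⟨w', hw', rfl | rfl⟩ := hmem₁ w hw <;> simpa [lvl] using hi w' hw'
    · refine Or.inr fun z hz => ?_
      obtain ⟨w, hw, rfl | rfl⟩ := hmem₂ z hz <;>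
        obtain ⟨w', hw', rfl | rfl⟩ := hmem₁ w hw <;> simpa [lvl] using hi w' hw'
  rw [bd]
  congr 1
  simp only [integ, ← Finset.sum_sub_distrib]
  refine Finset.sum_congr rfl fun a ha => ?_
  rw [bd, Finset.sum_eq_zero (hz a ha), sub_zero, comm, comm]

/-- Boundary sum of an interval times a cube whose lateral faces contribute nothing. -/
theorem bd_cylinder {N m : ℕ} (c : List (Fin (m + 1) → ℕ) → ℤ)
    (h : ∀ l, Adj N l → l.length = m + 1 → ∀ i : Fin m,
      ((∀ x ∈ l, x i.succ = 0) ∨ ∀ x ∈ l, x i.succ = N) → c l = 0) :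
    bd N (m + 1) c =
      integ N m (fun l => c (l.map (lvl N))) - integ N m (fun l => c (l.map (lvl 0))) := by
  simp only [bd, sub_eq_self]
  refine Finset.sum_eq_zero fun a ha => bd_eq_zero (by simp) fun l hl hlen i hi => ?_
  refine prism_eq_zero (Finset.mem_range.1 ha) c l hl fun l₁ y l₂ hlen' hmem hadj => ?_
  refine h _ hadj (by omega) i ?_
  rcases hi with hi | hi
  · refine Or.inl fun z hz => ?_
    obtain ⟨w, hw, rfl | rfl⟩ := hmem z hz <;> simpa [lvl] using hi w hw
  · refine Or.inr fun z hz => ?_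
    obtain ⟨w, hw, rfl | rfl⟩ := hmem z hz <;> simpa [lvl] using hi w hw

end Vale.Agent.P228.HS
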