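import Vale.Agent.P228.HS.Chain

/-!
# P228: cup products with a `1`-cochain and the degree cocycle of `ℝⁿ`
-/

namespace Vale.Agent.P228.HS

variable {X : Type*}

/-- Cup product of a `1`-cochain with a cochain. -/
def cup (e : X → X → ℤ) (c : List X → ℤ) : List X → ℤ
  | x :: y :: l => e x y * c (y :: l)
  | _ => 0

/-- Product of a `0`-cochain with a cochain. -/
def smul0 (S : X → ℤ) (c : List X → ℤ) : List X → ℤ
  | x :: l => S x * c (x :: l)
  | [] => 0

@[simp] theorem cup_nil (e : X → X → ℤ) (c : List X → ℤ) : cup e c [] = 0 := rfl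

@[simp] theorem cup_singleton (e : X → X → ℤ) (c : List X → ℤ) (x : X) : cup e c [x] = 0 := rfl

theorem cup_cons_cons (e : X → X → ℤ) (c : List X → ℤ) (x y : X) (l : List X) :
    cup e c (x :: y :: l) = e x y * c (y :: l) := rfl

theorem cup_cons (e : X → X → ℤ) (c : List X → ℤ) (x : X) :
    (fun l => cup e c (x :: l)) = smul0 (e x) c := by
  funext l; cases l <;> rfl

theorem cbd_smul0 (S : X → ℤ) (c : List X → ℤ) (x y : X) (l : List X) :
    cbd (smul0 S c) (x :: y :: l) = (S y - S x) * c (y :: l) + S x * cbd c (x :: y :: l) := by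
  rw [cbd_cons (smul0 S c), cbd_cons c]
  simp only [smul0, cbd_const_mul]
  ring

theorem cbd_cup (e : X → X → ℤ) (c : List X → ℤ) (x y z : X) (l : List X) :
    cbd (cup e c) (x :: y :: z :: l) =
      (e y z - e x z + e x y) * c (z :: l) - e x y * cbd c (y :: z :: l) := by
  rw [cbd_cons, cup_cons, cup_cons_cons, cbd_smul0]
  ring

theorem cbd_cup_short (e : X → X → ℤ) (c : List X → ℤ) {l : List X} (h : l.length ≤ 2) :
    cbd (cup e c) l = 0 := by
  match l with
  | [] => rfl
  | [x] => simp [cbd_cons]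
  | [x, y] => simp [cbd_cons]
  | _ :: _ :: _ :: _ => simp at h

theorem cup_append_eq_zero {e : X → X → ℤ} {c : List X → ℤ} {x y : X} (he : e x y = 0)
    (hc : ∀ l₁ l₂, c (l₁ ++ x :: y :: l₂) = 0) (l₁ l₂ : List X) :
    cup e c (l₁ ++ x :: y :: l₂) = 0 := by
  match l₁ with
  | [] => simp [cup_cons_cons, he]
  | [w] => simpa [cup_cons_cons] using Or.inr (hc [] l₂)
  | w :: w' :: l => simpa [cup_cons_cons] using Or.inr (hc (w' :: l) l₂)

theorem cup_ne_zero {e : X → X → ℤ} {c : List X → ℤ} {l : List X} (h : cup e c l ≠ 0) :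
    ∃ x y l', l = x :: y :: l' ∧ e x y ≠ 0 ∧ c (y :: l') ≠ 0 := by
  match l with
  | [] => simp at h
  | [x] => simp at h
  | x :: y :: l' =>
    exact ⟨x, y, l', rfl, fun h' => h (by simp [cup_cons_cons, h']),
      fun h' => h (by simp [cup_cons_cons, h'])⟩

/-- The cochain that is `1` on single points. -/
def one (l : List X) : ℤ := if l.length = 1 then 1 else 0

theorem cbd_eq_zero_of_length {c : List X → ℤ} {l : List X}
    (h : ∀ l', l'.length + 1 = l.length → c l' = 0) : cbd c l = 0 := by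
  induction l generalizing c with
  | nil => rfl
  | cons x l ih =>
    rw [cbd_cons, h l rfl, ih fun l' hl' => h _ (by simp; omega), sub_zero]

theorem cbd_one (l : List X) : cbd one l = 0 := by
  match l with
  | [] => rfl
  | [x] => simp [cbd_cons, one]
  | [x, y] => simp [cbd_cons, one]
  | x :: y :: z :: l =>
    exact cbd_eq_zero_of_length fun l' hl' => if_neg (by simp at hl'; omega)

/-- The Heaviside step at `θ`. -/
noncomputable def stepAt (θ t : ℝ) : ℤ := if θ < t then 1 else 0

/-- The degree cocycle of `ℝⁿ` at the point `θ`. -/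
noncomputable def tau : (n : ℕ) → (Fin n → ℝ) → List (Fin n → ℝ) → ℤ
  | 0, _ => one
  | n + 1, θ => cup (fun x y => stepAt (θ 0) (y 0) - stepAt (θ 0) (x 0))
      (fun l => tau n (Fin.tail θ) (l.map Fin.tail))

theorem cbd_tau : ∀ (n : ℕ) (θ : Fin n → ℝ) (l : List (Fin n → ℝ)), cbd (tau n θ) l = 0
  | 0, _, l => cbd_one l
  | n + 1, θ, l => by
    match l with
    | [] => rfl
    | [x] => exact cbd_cup_short _ _ (by simp)
    | [x, y] => exact cbd_cup_short _ _ (by simp)
    | x :: y :: z :: l =>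
      rw [tau, cbd_cup, cbd_comp_map, cbd_tau n]
      ring

theorem tau_ne_zero : ∀ {n : ℕ} {θ : Fin n → ℝ} {l : List (Fin n → ℝ)}, tau n θ l ≠ 0 →
    ∀ i, ∃ x ∈ l, ∃ y ∈ l, stepAt (θ i) (x i) ≠ stepAt (θ i) (y i)
  | 0, _, _, _, i => i.elim0
  | n + 1, θ, l, h, i => by
    obtain ⟨x, y, l', rfl, hxy, hc⟩ := cup_ne_zero h
    induction i using Fin.cases with
    | zero => exact ⟨y, by simp, x, by simp, fun h' => hxy (by rw [h', sub_self])⟩
    | succ i =>
      obtain ⟨a, ha, b, hb, hab⟩ := tau_ne_zero hc i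
      obtain ⟨a', ha', rfl⟩ := List.mem_map.1 ha
      obtain ⟨b', hb', rfl⟩ := List.mem_map.1 hb
      exact ⟨a', List.mem_cons_of_mem _ ha', b', List.mem_cons_of_mem _ hb', hab⟩

theorem tau_append_eq_zero : ∀ {n : ℕ} {θ : Fin n → ℝ} {x y : Fin n → ℝ},
    (∀ i, stepAt (θ i) (x i) = stepAt (θ i) (y i)) → ∀ l₁ l₂, tau n θ (l₁ ++ x :: y :: l₂) = 0
  | 0, _, _, _, _, _, _ => if_neg (by simp; omega)
  | n + 1, θ, x, y, h, l₁, l₂ => by
    refine cup_append_eq_zero (by rw [h 0, sub_self]) (fun l l' => ?_) l₁ l₂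
    rw [List.map_append, List.map_cons, List.map_cons]
    exact tau_append_eq_zero (fun i => h i.succ) _ _

theorem prism_eq_zero_of_bottom {X Y : Type*} (b t : Y → X) {c : List X → ℤ}
    (h : ∀ y m, c (b y :: m) = 0) (l : List Y) : prism b t c l = 0 := by
  induction l generalizing c with
  | nil => rfl
  | cons x l ih =>
    rw [prism_cons, h, ih (fun y m => h x _), sub_zero]

theorem integ_const_mul (N : ℕ) : ∀ {m : ℕ} (a : ℤ) (c : List (Fin m → ℕ) → ℤ),
    integ N m (fun l => a * c l) = a * integ N m c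
  | 0, _, _ => rfl
  | m + 1, a, c => by
    have : ∀ b, prism (lvl (m := m) b) (lvl (b + 1)) (fun l => a * c l) =
        fun l => a * prism (lvl b) (lvl (b + 1)) c l := fun b => funext fun l => by
      induction l generalizing c with
      | nil => simp
      | cons x l ih => simp [prism_cons, ih]; ring
    simp only [integ, this, integ_const_mul N, Finset.mul_sum]

/-- The grid vertex `v` in the cube of radius `r`. -/
noncomputable def vert (N : ℕ) (r : ℝ) {n : ℕ} (v : Fin n → ℕ) : Fin n → ℝ :=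
  fun i => r * (2 * (v i : ℝ) / N - 1)

/-- The degree cocycle has integral one over the cube around `θ`. -/
theorem integ_tau {N : ℕ} (hN : 0 < N) {r : ℝ} : ∀ (n : ℕ) (θ : Fin n → ℝ),
    (∀ i, |θ i| < r) → integ N n (fun l => tau n θ (l.map (vert N r))) = 1
  | 0, _, _ => rfl
  | n + 1, θ, hθ => by
    set h : ℕ → ℤ := fun a => stepAt (θ 0) (r * (2 * (a : ℝ) / N - 1)) with hh
    set c : List (Fin n → ℕ) → ℤ := fun l => tau n (Fin.tail θ) (l.map (vert N r)) with hcd
    have hc : integ N n c = 1 := integ_tau hN n _ fun i => hθ i.succ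
    have key : ∀ a, ∀ l, Adj N l → l.length = n + 1 → prism (lvl (m := n) a) (lvl (a + 1))
        (fun l => tau (n + 1) θ (l.map (vert N r))) l = (h (a + 1) - h a) * c l := by
      rintro a (_ | ⟨x, l⟩) - hlen
      · simp at hlen
      rw [prism_cons, prism_eq_zero_of_bottom, sub_zero]
      · simp only [tau, List.map_cons, cup_cons_cons, List.map_map, hh, hcd]
        congr 1
      · intro y m
        simp [tau, cup_cons_cons, vert, lvl]
    rw [integ, Finset.sum_congr rfl fun a _ => (integ_congr (key a)).trans (integ_const_mul N _ c),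
      ← Finset.sum_mul, Finset.sum_range_sub, hc, mul_one, hh]
    have h0 := abs_lt.1 (hθ 0)
    simp [stepAt, hN.ne', (show r * (2 - 1) = r by ring), h0.2, h0.1.not_gt]

end Vale.Agent.P228.HS
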