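import Mathlib

/-!
# P228: equivariant nonvanishing functions on compact spaces with thin invariant boundaries

A compact group `G` acts on a compact space, `χ` is a character trivial on every stabiliser, and
every orbit has small closed invariant neighbourhoods with totally disconnected frontier. Then some
nonvanishing continuous function `u` satisfies `u (a • y) = χ a * u y`.
-/

namespace Vale.Agent.P228.HS

open Set MeasureTheory Filter
open scoped Topology
open Topology (IsQuotientMap)

noncomputable section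

variable {G : Type*} [CommGroup G] [TopologicalSpace G] [IsTopologicalGroup G] [CompactSpace G]
  [SecondCountableTopology G] [MeasurableSpace G] [BorelSpace G]
  {K : Type*} [TopologicalSpace K] [CompactSpace K] [T2Space K] [SecondCountableTopology K]
  [MulAction G K] [ContinuousSMul G K]

/-- The average of `f` against a character. -/
def avgC (μ : Measure G) (χ : G → ℂ) (f : K → ℂ) (y : K) : ℂ := ∫ a, (χ a)⁻¹ * f (a • y) ∂μ

variable {μ : Measure G} [IsProbabilityMeasure μ] [μ.IsMulLeftInvariant] {χ : G →* ℂ}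

theorem char_ne_zero (a : G) : χ a ≠ 0 := fun h => by
  have := map_mul χ a a⁻¹
  rw [mul_inv_cancel, map_one, h, zero_mul] at this
  exact one_ne_zero this

theorem avgC_continuous (hχ : Continuous χ) {f : K → ℂ} (hf : Continuous f) :
    Continuous (avgC μ χ f) := by
  have h : Continuous (Function.uncurry fun (y : K) (a : G) => (χ a)⁻¹ * f (a • y)) :=
    ((hχ.comp continuous_snd).inv₀ fun q => char_ne_zero q.2).mul
      (hf.comp (continuous_snd.smul continuous_fst))
  have h2 := continuous_parametric_integral_of_continuous (μ := μ) h isCompact_univ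
  simp only [Measure.restrict_univ] at h2
  exact h2

theorem avgC_smul (f : K → ℂ) (b : G) (y : K) : avgC μ χ f (b • y) = χ b * avgC μ χ f y := by
  simp only [avgC]
  rw [← integral_mul_left_eq_self (μ := μ) (fun a => (χ a)⁻¹ * f (a • y)) b, ← integral_const_mul]
  refine integral_congr_ae (Eventually.of_forall fun a => ?_)
  simp only [map_mul, mul_inv, ← mul_assoc, mul_inv_cancel₀ (char_ne_zero b), one_mul]
  rw [mul_smul, smul_comm a b]

theorem avgC_eq {f : K → ℂ} {y : K} (h : ∀ a : G, f (a • y) = χ a * f y) :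
    avgC μ χ f y = f y := by
  simp [avgC, h, ← mul_assoc, inv_mul_cancel₀ (char_ne_zero _)]

/-- An equivariant extension from a closed invariant set. -/
theorem exists_equivariant_ext (μ : Measure G) [IsProbabilityMeasure μ] [μ.IsMulLeftInvariant]
    (hχ : Continuous χ) {S : Set K} (hS : IsClosed S) (hSi : ∀ a : G, ∀ y ∈ S, a • y ∈ S)
    {f : K → ℂ} (hf : ContinuousOn f S) (hfe : ∀ a : G, ∀ y ∈ S, f (a • y) = χ a * f y) :
    ∃ u : K → ℂ, Continuous u ∧ (∀ (a : G) y, u (a • y) = χ a * u y) ∧ EqOn u f S := by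
  obtain ⟨g, hg⟩ := ContinuousMap.exists_restrict_eq hS
    (⟨S.restrict f, hf.restrict⟩ : C(S, ℂ))
  have hgf : EqOn g f S := fun y hy => congrArg (fun F : C(S, ℂ) => F ⟨y, hy⟩) hg
  refine ⟨avgC μ χ g, avgC_continuous hχ g.continuous, avgC_smul _, fun y hy => ?_⟩
  rw [avgC_eq fun a => by rw [hgf (hSi a y hy), hgf hy, hfe a y hy], hgf hy]

omit [IsTopologicalGroup G] [SecondCountableTopology G] [MeasurableSpace G] [BorelSpace G] in
/-- A nonvanishing function equivariant on one orbit. -/
theorem exists_local (hχ : Continuous χ) (hfree : ∀ (y : K) (a : G), a • y = y → χ a = 1) (y : K) :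
    ∃ f : K → ℂ, ContinuousOn f (range fun a : G => a • y) ∧
      ∀ a : G, f (a • y) = χ a := by
  classical
  have hc : Continuous fun a : G => a • y := continuous_id.smul continuous_const
  set q : G → range (fun a : G => a • y) := rangeFactorization _ with hq
  have hqm : IsQuotientMap q := (hc.rangeFactorization).isClosedMap.isQuotientMap
    hc.rangeFactorization rangeFactorization_surjective
  set f : K → ℂ := fun z => if h : z ∈ range (fun a : G => a • y) then χ (Classical.choose h) else 0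
  have hfa : ∀ a : G, f (a • y) = χ a := by
    intro a
    have hm : a • y ∈ range fun a : G => a • y := ⟨a, rfl⟩
    simp only [f, dif_pos hm]
    have hb : Classical.choose hm • y = a • y := Classical.choose_spec hm
    have := hfree y (a⁻¹ * Classical.choose hm) (by rw [mul_smul, hb, inv_smul_smul])
    rw [map_mul] at this
    calc χ (Classical.choose hm) = χ a * χ a⁻¹ * χ (Classical.choose hm) := by
          rw [← map_mul, mul_inv_cancel, map_one, one_mul]
      _ = χ a := by rw [mul_assoc, this, mul_one]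
  refine ⟨f, ?_, hfa⟩
  rw [continuousOn_iff_continuous_restrict, hqm.continuous_iff]
  exact hχ.congr fun a => (hfa a).symm

/-- A union of two closed totally disconnected sets is totally disconnected. -/
theorem isTotallyDisconnected_union {D₁ D₂ : Set K} (h₁ : IsClosed D₁) (h₂ : IsClosed D₂)
    (t₁ : IsTotallyDisconnected D₁) (t₂ : IsTotallyDisconnected D₂) :
    IsTotallyDisconnected (D₁ ∪ D₂) := by
  intro C hCD hC
  by_cases hsub : C ⊆ D₂
  · exact t₂ C hsub hC
  obtain ⟨x, hx, hx2⟩ := not_subset.1 hsub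
  have hx1 : x ∈ D₁ := (hCD hx).resolve_right hx2
  haveI : CompactSpace D₁ := isCompact_iff_compactSpace.1 h₁.isCompact
  haveI : TotallyDisconnectedSpace D₁ := totallyDisconnectedSpace_subtype_iff.2 t₁
  obtain ⟨V, hV, hxV, hVs⟩ := compact_exists_isClopen_in_isOpen
    (x := (⟨x, hx1⟩ : D₁)) (U := Subtype.val ⁻¹' D₂ᶜ) (h₂.isOpen_compl.preimage continuous_subtype_val) hx2
  obtain ⟨O, hO, hOV⟩ := isOpen_induced_iff.1 hV.2
  set V' : Set K := Subtype.val '' V with hV'
  have hV'c : IsClosed V' := (hV.1.isCompact.image continuous_subtype_val).isClosed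
  have hsubV : C ⊆ V' := by
    by_contra hns
    obtain ⟨z, hz, hzV⟩ := not_subset.1 hns
    have hO' : IsOpen (O ∩ D₂ᶜ) := hO.inter h₂.isOpen_compl
    have key : ∀ w ∈ D₁ ∪ D₂, w ∈ O ∩ D₂ᶜ ↔ w ∈ V' := by
      intro w hw
      constructor
      · rintro ⟨hwO, hw2⟩
        have hw1 : w ∈ D₁ := hw.resolve_right hw2
        exact ⟨⟨w, hw1⟩, by rw [← hOV]; exact hwO, rfl⟩
      · rintro ⟨v, hv, rfl⟩
        exact ⟨by rw [← hOV] at hv; exact hv, hVs hv⟩
    obtain ⟨w, hw, ⟨hw1, hw2⟩⟩ := hC (O ∩ D₂ᶜ) V'ᶜ hO' hV'c.isOpen_compl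
      (fun w hw => (em (w ∈ V')).imp (key w (hCD hw)).2 id)
      ⟨x, hx, (key x (hCD hx)).2 ⟨_, hxV, rfl⟩⟩ ⟨z, hz, hzV⟩
    exact hw2 ((key w (hCD hw)).1 hw1)
  exact t₁ C (hsubV.trans (by rintro _ ⟨v, -, rfl⟩; exact v.2)) hC

omit [SecondCountableTopology G] [MeasurableSpace G] [BorelSpace G] [IsTopologicalGroup G]
  [SecondCountableTopology K] in
/-- An invariant nonvanishing function on a totally disconnected set has an invariant logarithm. -/
theorem exists_log {B : Set K} (hB : IsClosed B) (hBt : IsTotallyDisconnected B)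
    (hBi : ∀ a : G, ∀ y ∈ B, a • y ∈ B) {r : K → ℂ} (hr : ContinuousOn r B)
    (hr0 : ∀ y ∈ B, r y ≠ 0) (hri : ∀ a : G, ∀ y ∈ B, r (a • y) = r y) :
    ∃ θ : K → ℂ, ContinuousOn θ B ∧ (∀ a : G, ∀ y ∈ B, θ (a • y) = θ y) ∧
      ∀ y ∈ B, Complex.exp (θ y) = r y := by
  classical
  haveI : CompactSpace B := isCompact_iff_compactSpace.1 hB.isCompact
  haveI : TotallyDisconnectedSpace B := totallyDisconnectedSpace_subtype_iff.2 hBt
  set rB : B → ℂ := fun z => r z.1
  have hrB : Continuous rB := hr.restrict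
  set act : G → B → B := fun a z => ⟨a • z.1, hBi a z.1 z.2⟩ with hact
  have hactc : ∀ a, Continuous (act a) := fun a =>
    (continuous_subtype_val.const_smul a).subtype_mk _
  set O : B → Set B := fun z₀ => {z | rB z / rB z₀ ∈ Complex.slitPlane} with hO
  have hcl : ∀ z₀ : B, ∃ V : Set B, IsClopen V ∧ z₀ ∈ V ∧ V ⊆ O z₀ ∧
      ∀ a z, z ∈ V → act a z ∈ V := by
    intro z₀
    obtain ⟨A, hA, hzA, hAO⟩ := compact_exists_isClopen_in_isOpen (x := z₀) (U := O z₀)
      (Complex.isOpen_slitPlane.preimage (hrB.div_const _))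
      (by simp [hO, rB, div_self (hr0 z₀.1 z₀.2), Complex.one_mem_slitPlane])
    refine ⟨(fun q : G × B => act q.1 q.2) '' (univ ×ˢ A), ⟨?_, ?_⟩, ⟨(1, z₀), ⟨trivial, hzA⟩,
      Subtype.ext (one_smul _ _)⟩, ?_, ?_⟩
    · have hc : Continuous fun q : G × B => act q.1 q.2 :=
        (continuous_fst.smul (continuous_subtype_val.comp continuous_snd)).subtype_mk _
      exact ((isCompact_univ.prod hA.1.isCompact).image hc).isClosed
    · have : (fun q : G × B => act q.1 q.2) '' (univ ×ˢ A) = ⋃ a : G, act a⁻¹ ⁻¹' A := by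
        ext z
        simp only [mem_image, mem_iUnion, mem_preimage, Prod.exists, mem_prod, mem_univ, true_and]
        constructor
        · rintro ⟨a, w, hw, rfl⟩
          exact ⟨a, by convert hw using 1; exact Subtype.ext (inv_smul_smul a w.1)⟩
        · rintro ⟨a, ha⟩
          exact ⟨a, _, ha, Subtype.ext (smul_inv_smul a z.1)⟩
      rw [this]
      exact isOpen_iUnion fun a => hA.2.preimage (hactc _)
    · rintro _ ⟨⟨a, w⟩, ⟨-, hw⟩, rfl⟩
      simp only [hO, rB, hact, mem_setOf_eq, hri a w.1 w.2]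
      exact hAO hw
    · rintro b _ ⟨⟨a, w⟩, ⟨-, hw⟩, rfl⟩
      exact ⟨(b * a, w), ⟨trivial, hw⟩, Subtype.ext (mul_smul b a w.1)⟩
  choose V hV hVz hVO hVi using hcl
  have key : ∀ s : Finset B, ∃ θ : B → ℂ, Continuous θ ∧ (∀ a z, θ (act a z) = θ z) ∧
      ∀ z₀ ∈ s, ∀ z ∈ V z₀, Complex.exp (θ z) = rB z := by
    intro s
    induction s using Finset.induction with
    | empty => exact ⟨fun _ => 0, continuous_const, fun _ _ => rfl, fun _ h => absurd h (by simp)⟩
    | @insert z₁ s _ ih =>
      obtain ⟨θ, hθ, hθi, hθe⟩ := ih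
      set θ₁ : B → ℂ := fun z => Complex.log (rB z / rB z₁) + Complex.log (rB z₁) with hθ₁
      have hθ₁e : ∀ z ∈ V z₁, Complex.exp (θ₁ z) = rB z := fun z _ => by
        rw [hθ₁, Complex.exp_add, Complex.exp_log (div_ne_zero (hr0 z.1 z.2) (hr0 z₁.1 z₁.2)),
          Complex.exp_log (hr0 z₁.1 z₁.2), div_mul_cancel₀ _ (hr0 z₁.1 z₁.2)]
      refine ⟨(V z₁).piecewise θ₁ θ, ?_, fun a z => ?_, fun z₀ hz₀ z hz => ?_⟩
      · refine continuous_piecewise (by simp [(hV z₁).frontier_eq]) ?_ hθ.continuousOn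
        rw [(hV z₁).1.closure_eq]
        exact ((hrB.div_const _).continuousOn.clog fun z hz => hVO z₁ hz).add continuousOn_const
      · by_cases hz : z ∈ V z₁
        · rw [piecewise_eq_of_mem _ _ _ hz, piecewise_eq_of_mem _ _ _ (hVi z₁ a z hz)]
          simp [hθ₁, rB, hact, hri a z.1 z.2]
        · have hz' : act a z ∉ V z₁ := fun h => hz (by
            have := hVi z₁ a⁻¹ _ h
            rwa [show act a⁻¹ (act a z) = z from Subtype.ext (inv_smul_smul a z.1)] at this)
          rw [piecewise_eq_of_notMem _ _ _ hz, piecewise_eq_of_notMem _ _ _ hz', hθi]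
      · by_cases hz1 : z ∈ V z₁
        · rw [piecewise_eq_of_mem _ _ _ hz1]; exact hθ₁e z hz1
        · rw [piecewise_eq_of_notMem _ _ _ hz1]
          rcases Finset.mem_insert.1 hz₀ with rfl | h
          · exact absurd hz hz1
          · exact hθe z₀ h z hz
  obtain ⟨s, hs⟩ := isCompact_univ.elim_finite_subcover V (fun z => (hV z).2)
    fun z _ => mem_iUnion.2 ⟨z, hVz z⟩
  obtain ⟨θ, hθ, hθi, hθe⟩ := key s
  refine ⟨fun y => if h : y ∈ B then θ ⟨y, h⟩ else 0, ?_, fun a y hy => ?_, fun y hy => ?_⟩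
  · rw [continuousOn_iff_continuous_restrict]
    exact hθ.congr fun z => by simp [restrict, z.2]
  · simp only [dif_pos hy, dif_pos (hBi a y hy)]
    exact hθi a ⟨y, hy⟩
  · simp only [dif_pos hy]
    obtain ⟨z₀, hz₀, hz⟩ := mem_iUnion₂.1 (hs (mem_univ (⟨y, hy⟩ : B)))
    exact hθe z₀ hz₀ _ hz

/-- **Equivariant nonvanishing function.** -/
theorem exists_equivariant_ne_zero (μ : Measure G) [IsProbabilityMeasure μ] [μ.IsMulLeftInvariant]
    (hχ : Continuous χ) (hfree : ∀ (y : K) (a : G), a • y = y → χ a = 1)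
    (hbasis : ∀ (y : K) (O : Set K), IsOpen O → (∀ a : G, ∀ z ∈ O, a • z ∈ O) → y ∈ O →
      ∃ W : Set K, IsClosed W ∧ (∀ a : G, ∀ z ∈ W, a • z ∈ W) ∧ W ∈ 𝓝 y ∧ W ⊆ O ∧
        IsTotallyDisconnected (frontier W)) :
    ∃ u : K → ℂ, Continuous u ∧ (∀ (a : G) y, u (a • y) = χ a * u y) ∧ ∀ y, u y ≠ 0 := by
  classical
  have hloc : ∀ y : K, ∃ w : K → ℂ, Continuous w ∧ (∀ (a : G) z, w (a • z) = χ a * w z) ∧
      w y ≠ 0 := by
    intro y
    obtain ⟨f, hf, hfa⟩ := exists_local hχ hfree y
    obtain ⟨w, hw, hwe, hwf⟩ := exists_equivariant_ext μ hχ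
      (isCompact_range (continuous_id.smul continuous_const)).isClosed
      (by rintro a _ ⟨b, rfl⟩; exact ⟨a * b, mul_smul a b y⟩) hf
      (by rintro a _ ⟨b, rfl⟩; show f (a • b • y) = χ a * f (b • y); rw [← mul_smul, hfa, hfa, map_mul])
    refine ⟨w, hw, hwe, ?_⟩
    rw [hwf ⟨1, one_smul G y⟩]
    have := hfa 1
    rw [one_smul, map_one] at this
    simp [this]
  choose w hw hwe hw0 using hloc
  have hbas : ∀ y, ∃ W : Set K, IsClosed W ∧ (∀ a : G, ∀ z ∈ W, a • z ∈ W) ∧ W ∈ 𝓝 y ∧
      W ⊆ {z | w y z ≠ 0} ∧ IsTotallyDisconnected (frontier W) :=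
    fun y => hbasis y _ (isOpen_ne_fun (hw y) continuous_const)
      (fun a z hz => by simp only [mem_setOf_eq, hwe y a z]; exact mul_ne_zero (char_ne_zero a) hz)
      (hw0 y)
  choose W hWc hWi hWn hWs hWt using hbas
  have key : ∀ s : Finset K, ∃ A : Set K, IsClosed A ∧ (∀ a : G, ∀ z ∈ A, a • z ∈ A) ∧
      IsTotallyDisconnected (frontier A) ∧ (∀ y ∈ s, W y ⊆ A) ∧ ∃ u : K → ℂ,
        ContinuousOn u A ∧ (∀ a : G, ∀ z ∈ A, u (a • z) = χ a * u z) ∧ ∀ z ∈ A, u z ≠ 0 := by
    intro s
    induction s using Finset.induction with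
    | empty =>
      exact ⟨∅, isClosed_empty, by simp, by simpa using isTotallyDisconnected_empty, by simp,
        fun _ => 0, continuousOn_empty _, by simp, by simp⟩
    | @insert y₁ s _ ih =>
      obtain ⟨A, hA, hAi, hAt, hAs, u, hu, hue, hu0⟩ := ih
      have hinti : ∀ a : G, ∀ z ∈ interior A, a • z ∈ interior A := by
        intro a z hz
        refine interior_maximal ?_ (isOpen_interior.preimage (continuous_const_smul a⁻¹))
          (show a⁻¹ • (a • z) ∈ interior A by rwa [inv_smul_smul])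
        intro z' hz'
        simpa using hAi a _ (interior_subset hz')
      set C := W y₁ \ interior A with hC
      have hCc : IsClosed C := (hWc y₁).sdiff isOpen_interior
      have hCi : ∀ a : G, ∀ z ∈ C, a • z ∈ C := fun a z hz =>
        ⟨hWi y₁ a z hz.1, fun h => hz.2 (by simpa using hinti a⁻¹ _ h)⟩
      set B := A ∩ C with hB
      have hBt : IsTotallyDisconnected B := fun S hS => hAt S fun z hz =>
        ⟨subset_closure (hS hz).1, (hS hz).2.2⟩
      obtain ⟨θ, hθ, hθi, hθe⟩ := exists_log (G := G) (r := fun z => u z / w y₁ z)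
        (hA.inter hCc) hBt (fun a z hz => ⟨hAi a z hz.1, hCi a z hz.2⟩)
        ((hu.mono inter_subset_left).div (hw y₁).continuousOn fun z hz => hWs y₁ hz.2.1)
        (fun z hz => div_ne_zero (hu0 z hz.1) (hWs y₁ hz.2.1))
        (fun a z hz => by
          simp only [hue a z hz.1, hwe y₁ a z, mul_div_mul_left _ _ (char_ne_zero a)])
      obtain ⟨Θ, hΘ, hΘi, hΘB⟩ := exists_equivariant_ext (χ := (1 : G →* ℂ)) μ continuous_const
        (hA.inter hCc) (fun a z hz => ⟨hAi a z hz.1, hCi a z hz.2⟩) hθ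
        (fun a z hz => by rw [hθi a z hz, MonoidHom.one_apply, one_mul])
      set u' : K → ℂ := A.piecewise u fun z => w y₁ z * Complex.exp (Θ z) with hu'
      have hC' : ∀ z ∈ C, u' z = w y₁ z * Complex.exp (Θ z) := by
        intro z hz
        by_cases hzA : z ∈ A
        · rw [hu', piecewise_eq_of_mem _ _ _ hzA, hΘB ⟨hzA, hz⟩, hθe z ⟨hzA, hz⟩]
          have := hWs y₁ hz.1
          simp only [mem_setOf_eq] at this
          field_simp
        · rw [hu', piecewise_eq_of_notMem _ _ _ hzA]
      have hA' : ∀ z ∈ A, u' z = u z := fun z hz => piecewise_eq_of_mem _ _ _ hz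
      refine ⟨A ∪ W y₁, hA.union (hWc y₁), ?_, ?_, ?_, u', ?_, ?_, ?_⟩
      · rintro a z (hz | hz)
        exacts [Or.inl (hAi a z hz), Or.inr (hWi y₁ a z hz)]
      · intro S hS
        exact isTotallyDisconnected_union isClosed_frontier isClosed_frontier hAt (hWt y₁) S
          (hS.trans ((frontier_union_subset A (W y₁)).trans (union_subset_union inter_subset_left inter_subset_right)))
      · intro y hy
        rcases Finset.mem_insert.1 hy with rfl | h
        exacts [subset_union_right, (hAs y h).trans subset_union_left]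
      · have : A ∪ W y₁ = A ∪ C := by
          rw [hC]
          ext z
          simp only [mem_union, mem_diff]
          constructor
          · rintro (h | h)
            exacts [Or.inl h, (em (z ∈ interior A)).imp (fun h' => interior_subset h') fun h' => ⟨h, h'⟩]
          · rintro (h | h)
            exacts [Or.inl h, Or.inr h.1]
        rw [this]
        exact (hu.congr hA').union_of_isClosed
          ((((hw y₁).mul (Complex.continuous_exp.comp hΘ)).continuousOn).congr hC') hA hCc
      · intro a z hz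
        by_cases hzA : z ∈ A
        · rw [hA' _ (hAi a z hzA), hA' z hzA, hue a z hzA]
        · have hzC : z ∈ C := ⟨hz.resolve_left hzA, fun h => hzA (interior_subset h)⟩
          rw [hC' _ (hCi a z hzC), hC' z hzC, hwe y₁, hΘi]
          simp
          ring
      · intro z hz
        by_cases hzA : z ∈ A
        · rw [hA' z hzA]; exact hu0 z hzA
        · have hzC : z ∈ C := ⟨hz.resolve_left hzA, fun h => hzA (interior_subset h)⟩
          rw [hC' z hzC]
          exact mul_ne_zero (hWs y₁ hzC.1) (Complex.exp_ne_zero _)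
  obtain ⟨s, -, hs⟩ := isCompact_univ.elim_nhds_subcover W (fun y _ => hWn y)
  obtain ⟨A, -, -, -, hAs, u, hu, hue, hu0⟩ := key s
  have hA : ∀ z, z ∈ A := fun z => by
    obtain ⟨y, hy, hz⟩ := mem_iUnion₂.1 (hs (mem_univ z))
    exact hAs y hy hz
  exact ⟨u, continuousOn_univ.1 (hu.mono fun z _ => hA z), fun a z => hue a z (hA z),
    fun z => hu0 z (hA z)⟩

/-- The angle of a nonzero complex number as a point of `ℝ ⧸ ℤ`. -/
def circAngle (z : ℂ) : AddCircle (1 : ℝ) :=
  AddCircle.equivAddCircle (2 * Real.pi) 1 (mul_ne_zero two_ne_zero Real.pi_ne_zero) one_ne_zero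
    (Complex.arg z : Real.Angle)

theorem circAngle_mul {x y : ℂ} (hx : x ≠ 0) (hy : y ≠ 0) :
    circAngle (x * y) = circAngle x + circAngle y := by
  rw [circAngle, Complex.arg_mul_coe_angle hx hy]
  exact map_add _ _ _

theorem circAngle_one : circAngle 1 = 0 := by
  rw [circAngle, Complex.arg_one]
  exact map_zero _

theorem nsmul_circAngle {x : ℂ} (k : ℕ) : k • circAngle x = circAngle (x ^ k) := by
  rw [circAngle, circAngle, Complex.arg_pow_coe_angle]
  exact (map_nsmul _ _ _).symm

theorem circAngle_exp (t : ℝ) :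
    circAngle (Complex.exp ((2 * Real.pi * t : ℝ) * Complex.I)) = (t : AddCircle (1 : ℝ)) := by
  have h : ((Complex.arg (Complex.exp ((2 * Real.pi * t : ℝ) * Complex.I)) : ℝ) : Real.Angle) =
      ((2 * Real.pi * t : ℝ) : Real.Angle) := by
    rw [Complex.arg_exp]
    simp [Real.Angle.coe_toIocMod]
  rw [circAngle, h]
  change AddCircle.equivAddCircle _ _ _ _ ((2 * Real.pi * t : ℝ) : AddCircle (2 * Real.pi)) = _
  rw [AddCircle.equivAddCircle_apply_mk]
  congr 1
  have := Real.pi_ne_zero
  field_simp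

theorem continuousAt_circAngle {z : ℂ} (hz : z ≠ 0) : ContinuousAt circAngle z :=
  (AddCircle.homeomorphAddCircle (2 * Real.pi) 1 (mul_ne_zero two_ne_zero Real.pi_ne_zero)
    one_ne_zero).continuous.continuousAt.comp (Complex.continuousAt_arg_coe_angle hz)

end

end Vale.Agent.P228.HS
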