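import Vale.Agent.P228.HS.Slices

/-!
# P228: generic fibres of averaged charts have thin invariant boundaries

In a chart where all group elements obey a Nikolskii bound with exponent above `n - 1`, almost every
value `z` of the averaged chart has the property: in the fibre over `z` every point has small closed
invariant neighbourhoods with totally disconnected frontier.
-/

namespace Vale.Agent.P228.HS

open Set MeasureTheory Filter
open scoped Topology ENNReal NNReal

noncomputable section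

variable {n : ℕ} {G M : Type*} [CommGroup G] [TopologicalSpace G] [IsTopologicalGroup G]
  [CompactSpace G] [SecondCountableTopology G] [MeasurableSpace G] [BorelSpace G]
  [TopologicalSpace M] [MulAction G M] [ContinuousSMul G M]

/-- The standing analytic hypotheses in a chart. -/
structure ChartBound (φ : OpenPartialHomeomorph M (Fin n → ℝ)) (G : Type*) [SMul G M]
    (c₀ : Fin n → ℝ) (R a q : ℝ) (C : ℝ≥0∞) : Prop where
  rPos : 0 < R
  cFin : C ≠ ⊤
  qGe : 1 ≤ q
  qLe : q ≤ (n : ℝ) + 1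
  aGt : (n : ℝ) - 1 < a
  tgt : Metric.closedBall c₀ (10 * R) ⊆ φ.target
  maps : ∀ g : G, ∀ v ∈ Metric.closedBall c₀ (10 * R), g • φ.symm v ∈ φ.source
  bound : ∀ g : G, ∀ l, ∀ h ∈ Icc (0 : ℝ) (4 * R), ∫⁻ x in Metric.closedBall c₀ (6 * R),
    edist (φ (g • φ.symm (x + Pi.single l h))) (φ (g • φ.symm x)) ^ q ≤ C * ENNReal.ofReal (h ^ a)

/-- Coordinatewise retraction onto the closed ball. -/
def retr (c₀ : Fin n → ℝ) (R : ℝ) (v : Fin n → ℝ) : Fin n → ℝ :=
  fun l => max (c₀ l - R) (min (c₀ l + R) (v l))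

theorem retr_mem {c₀ : Fin n → ℝ} {R : ℝ} (hR : 0 ≤ R) (v : Fin n → ℝ) :
    retr c₀ R v ∈ Metric.closedBall c₀ R := by
  rw [Metric.mem_closedBall, dist_pi_le_iff hR]
  intro l
  rw [Real.dist_eq, abs_le, retr]
  constructor
  · linarith [le_max_left (c₀ l - R) (min (c₀ l + R) (v l))]
  · have := max_le (a := c₀ l - R) (b := min (c₀ l + R) (v l)) (c := c₀ l + R) (by linarith)
      (min_le_left _ _)
    linarith

theorem retr_eq {c₀ : Fin n → ℝ} {R : ℝ} {v : Fin n → ℝ} (hv : v ∈ Metric.closedBall c₀ R) :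
    retr c₀ R v = v := by
  funext l
  have h := abs_le.1 ((Real.dist_eq _ _).symm.trans_le
    ((dist_le_pi_dist v c₀ l).trans (Metric.mem_closedBall.1 hv)))
  rw [retr, min_eq_right (by linarith), max_eq_right (by linarith)]

/-- The average over the group of `f` of the chart, extended from the ball. -/
def avgMap (φ : OpenPartialHomeomorph M (Fin n → ℝ)) (μ : Measure G) (c₀ : Fin n → ℝ) (R : ℝ)
    {m : ℕ} (f : (Fin n → ℝ) → Fin m → ℝ) (v : Fin n → ℝ) : Fin m → ℝ :=
  ∫ g, f (φ (g • φ.symm (retr c₀ R v))) ∂μ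

variable {φ : OpenPartialHomeomorph M (Fin n → ℝ)} {c₀ : Fin n → ℝ} {R a q : ℝ} {C : ℝ≥0∞}
  {μ : Measure G} [IsProbabilityMeasure μ]

omit [IsTopologicalGroup G] [CompactSpace G] [SecondCountableTopology G] [MeasurableSpace G]
  [BorelSpace G] in
theorem ChartBound.cont_orbit (hb : ChartBound φ G c₀ R a q C) :
    Continuous fun p : (Fin n → ℝ) × G => φ (p.2 • φ.symm (retr c₀ (10 * R) p.1)) := by
  have hr : Continuous (retr c₀ (10 * R)) := by unfold retr; fun_prop
  have hmem : ∀ v, retr c₀ (10 * R) v ∈ Metric.closedBall c₀ (10 * R) :=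
    retr_mem (by linarith [hb.rPos])
  exact φ.continuousOn.comp_continuous (continuous_snd.smul
    ((φ.continuousOn_symm.comp_continuous hr fun v => hb.tgt (hmem v)).comp continuous_fst))
    fun p => hb.maps _ _ (hmem _)

omit [IsTopologicalGroup G] in
theorem ChartBound.avgMap_continuous (hb : ChartBound φ G c₀ R a q C) {m : ℕ}
    {f : (Fin n → ℝ) → Fin m → ℝ} (hf : Continuous f) :
    Continuous (avgMap φ μ c₀ (10 * R) f) := by
  have h : Continuous (Function.uncurry fun v (g : G) =>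
      f (φ (g • φ.symm (retr c₀ (10 * R) v)))) := hf.comp hb.cont_orbit
  have h2 := continuous_parametric_integral_of_continuous (μ := μ) h isCompact_univ
  simp only [Measure.restrict_univ] at h2
  exact h2

omit [IsTopologicalGroup G] [CompactSpace G] [SecondCountableTopology G] [TopologicalSpace M]
  [ContinuousSMul G M] [MulAction G M] [BorelSpace G] [TopologicalSpace G] in
/-- Jensen's inequality for powers of lower integrals. -/
theorem lintegral_rpow_le {f : G → ℝ≥0∞} (hf : Measurable f) (hq : 1 ≤ q) :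
    (∫⁻ g, f g ∂μ) ^ q ≤ ∫⁻ g, f g ^ q ∂μ := by
  have h := eLpNorm'_le_eLpNorm'_of_exponent_le (μ := μ) one_pos hq
    (hf.aestronglyMeasurable)
  simp only [eLpNorm', enorm_eq_self, ENNReal.rpow_one, div_one, ne_eq] at h
  refine (ENNReal.rpow_le_rpow h (by linarith)).trans_eq ?_
  rw [← ENNReal.rpow_mul, one_div_mul_cancel (by linarith), ENNReal.rpow_one]

omit [IsTopologicalGroup G] in
theorem ChartBound.avgMap_bound (hb : ChartBound φ G c₀ R a q C) {m : ℕ}
    {f : (Fin n → ℝ) → Fin m → ℝ} {K : ℝ≥0} (hf : LipschitzWith K f) (l : Fin n) {h : ℝ}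
    (hh : h ∈ Icc (0 : ℝ) (4 * R)) :
    ∫⁻ x in Metric.closedBall c₀ (6 * R),
      edist (avgMap φ μ c₀ (10 * R) f (x + Pi.single l h)) (avgMap φ μ c₀ (10 * R) f x) ^ q ≤
      (K : ℝ≥0∞) ^ q * C * ENNReal.ofReal (h ^ a) := by
  have hq0 : 0 ≤ q := by linarith [hb.qGe]
  set P : (Fin n → ℝ) → G → (Fin n → ℝ) := fun v g => φ (g • φ.symm (retr c₀ (10 * R) v))
  have hP : Continuous fun p : (Fin n → ℝ) × G => P p.1 p.2 := hb.cont_orbit
  have hPv : ∀ v, Continuous (P v) := fun v => hP.comp (continuous_const.prodMk continuous_id)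
  have hpt : ∀ x, edist (avgMap φ μ c₀ (10 * R) f (x + Pi.single l h))
      (avgMap φ μ c₀ (10 * R) f x) ^ q ≤
      (K : ℝ≥0∞) ^ q * ∫⁻ g, edist (P (x + Pi.single l h) g) (P x g) ^ q ∂μ := by
    intro x
    have hi : ∀ v, Integrable (fun g => f (P v g)) μ := fun v =>
      (hf.continuous.comp (hPv v)).integrable_of_hasCompactSupport (HasCompactSupport.of_compactSpace _)
    have h1 : edist (avgMap φ μ c₀ (10 * R) f (x + Pi.single l h)) (avgMap φ μ c₀ (10 * R) f x) ≤
        (K : ℝ≥0∞) * ∫⁻ g, edist (P (x + Pi.single l h) g) (P x g) ∂μ := by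
      rw [edist_eq_enorm_sub, avgMap, avgMap, ← integral_sub (hi _) (hi _),
        ← lintegral_const_mul _ ((hPv _).edist (hPv _)).measurable]
      refine (enorm_integral_le_lintegral_enorm _).trans (lintegral_mono fun g => ?_)
      rw [← edist_eq_enorm_sub]
      exact hf _ _
    refine (ENNReal.rpow_le_rpow h1 hq0).trans ?_
    rw [ENNReal.mul_rpow_of_nonneg _ _ hq0]
    exact mul_le_mul' le_rfl (lintegral_rpow_le ((hPv _).edist (hPv _)).measurable hb.qGe)
  have hmeas : Measurable fun p : (Fin n → ℝ) × G =>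
      edist (P (p.1 + Pi.single l h) p.2) (P p.1 p.2) ^ q := by
    refine (Continuous.measurable ?_).pow_const q
    exact (hP.comp ((continuous_fst.add continuous_const).prodMk continuous_snd)).edist hP
  refine (lintegral_mono hpt).trans ?_
  rw [lintegral_const_mul _ hmeas.lintegral_prod_right', mul_assoc,
    lintegral_lintegral_swap (μ := volume.restrict _) hmeas.aemeasurable]
  refine mul_le_mul' le_rfl ?_
  refine le_trans (lintegral_mono fun g => ?_) (le_of_eq (by rw [lintegral_const, measure_univ, mul_one]))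
  refine le_trans (le_of_eq ?_) (hb.bound g l h hh)
  refine setLIntegral_congr_fun measurableSet_closedBall fun x hx => ?_
  have hR := hb.rPos
  have hx10 : x ∈ Metric.closedBall c₀ (10 * R) :=
    Metric.closedBall_subset_closedBall (by linarith) hx
  have hx10' : x + Pi.single l h ∈ Metric.closedBall c₀ (10 * R) := by
    rw [Metric.mem_closedBall] at hx ⊢
    refine (dist_triangle _ x _).trans ?_
    rw [dist_eq_norm, add_sub_cancel_left, Pi.norm_single, Real.norm_eq_abs, abs_of_nonneg hh.1]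
    linarith [hh.2]
  simp only [P, retr_eq hx10, retr_eq hx10']

/-- The bump around the orbit of a dense point. -/
def bump (φ : OpenPartialHomeomorph M (Fin n → ℝ)) (G : Type*) [SMul G M]
    (j : ℕ × ℕ) (v : Fin n → ℝ) : ℝ :=
  max 0 (1 / ((j.2 : ℝ) + 1) - Metric.infDist v
    (range fun g : G => φ (g • φ.symm (TopologicalSpace.denseSeq (Fin n → ℝ) j.1))))

/-- The averaged bump and the averaged chart together. -/
def pairMap (φ : OpenPartialHomeomorph M (Fin n → ℝ)) (G : Type*) [SMul G M]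
    (ψ : (Fin n → ℝ) → Fin n → ℝ) (j : ℕ × ℕ) (v : Fin n → ℝ) : Fin (n + 1) → ℝ :=
  Fin.cons (bump φ G j v) (ψ v)

omit [TopologicalSpace G] [IsTopologicalGroup G] [CompactSpace G] [SecondCountableTopology G]
  [MeasurableSpace G] [BorelSpace G] [ContinuousSMul G M] in
theorem pairMap_lipschitz {ψ : (Fin n → ℝ) → Fin n → ℝ} {K : ℝ≥0} (hψ : LipschitzWith K ψ)
    (j : ℕ × ℕ) : LipschitzWith (max 1 K) (pairMap φ G ψ j) := by
  refine LipschitzWith.of_dist_le_mul fun x y => ?_
  rw [dist_pi_le_iff (by positivity)]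
  refine Fin.cases ?_ (fun i => ?_)
  · simp only [pairMap, Fin.cons_zero]
    have h1 : LipschitzWith 1 (bump φ G j) := by
      unfold bump
      have h2 := (LipschitzWith.const (α := Fin n → ℝ) (1 / ((j.2 : ℝ) + 1))).sub (Metric.lipschitz_infDist_pt
        (range fun g : G => φ (g • φ.symm (TopologicalSpace.denseSeq (Fin n → ℝ) j.1))))
      simpa using h2.const_max 0
    refine (h1.dist_le_mul x y).trans ?_
    gcongr
    exact le_max_left _ _
  · simp only [pairMap, Fin.cons_succ]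
    refine (dist_le_pi_dist _ _ i).trans ((hψ.dist_le_mul x y).trans ?_)
    gcongr
    exact le_max_right _ _

omit [TopologicalSpace G] [IsTopologicalGroup G] [CompactSpace G] [SecondCountableTopology G]
  [MeasurableSpace G] [BorelSpace G] [ContinuousSMul G M] in
/-- The property of a fibre: thin invariant boundaries. -/
def ThinFibre (φ : OpenPartialHomeomorph M (Fin n → ℝ)) (G : Type*) [SMul G M] [MeasurableSpace G]
    (μ : Measure G) (ψ : (Fin n → ℝ) → Fin n → ℝ) (c₀ : Fin n → ℝ) (R : ℝ) (z : Fin n → ℝ) :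
    Prop :=
  ∀ K : Set M, IsCompact K → (∀ g : G, ∀ y ∈ K, g • y ∈ K) → K ⊆ φ.source →
    MapsTo φ K (Metric.closedBall c₀ R) → (∀ y ∈ K, ∫ g, ψ (φ (g • y)) ∂μ = z) →
    ∀ y ∈ K, ∀ O : Set M, IsOpen O → y ∈ O → (∀ g : G, ∀ x ∈ K ∩ O, g • x ∈ O) →
      ∃ θ : M → ℝ, ∃ c : ℝ, ContinuousOn θ K ∧ (∀ g : G, ∀ x ∈ K, θ (g • x) = θ x) ∧
        c < θ y ∧ K ∩ {x | c ≤ θ x} ⊆ O ∧ IsTotallyDisconnected (K ∩ {x | θ x = c})

variable [μ.IsMulLeftInvariant]

/-- **Thin fibres.** -/
theorem ChartBound.ae_thin (hb : ChartBound φ G c₀ R a q C) [T2Space M]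
    {ψ : (Fin n → ℝ) → Fin n → ℝ} {Kψ : ℝ≥0} (hψ : LipschitzWith Kψ ψ) :
    ∀ᵐ z : Fin n → ℝ, ThinFibre φ G μ ψ c₀ R z := by
  classical
  have hR := hb.rPos
  set F : ℕ × ℕ → (Fin n → ℝ) → Fin (n + 1) → ℝ := fun j =>
    avgMap φ μ c₀ (10 * R) (pairMap φ G ψ j) with hF
  have hFc : ∀ j, Continuous (F j) := fun j =>
    hb.avgMap_continuous (pairMap_lipschitz hψ j).continuous
  have hslice : ∀ (j : ℕ × ℕ) (i : Fin n) (t : ℚ × ℚ), ∃ τ : ℝ,
      ((t.1 : ℝ) < t.2 → c₀ i - R ≤ t.1 → (t.2 : ℝ) ≤ c₀ i + R → τ ∈ Ioo (t.1 : ℝ) t.2) ∧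
      volume (F j '' ({x | x i = τ} ∩ Metric.closedBall c₀ R)) = 0 := by
    intro j i t
    by_cases h : (t.1 : ℝ) < t.2 ∧ c₀ i - R ≤ t.1 ∧ (t.2 : ℝ) ≤ c₀ i + R
    · obtain ⟨τ, hτ, hτ0⟩ := exists_null_slice (hFc j) (c := c₀) (R := R) (a := a) (q := q)
        (C := ((max 1 Kψ : ℝ≥0) : ℝ≥0∞) ^ q * C)
        (ENNReal.mul_ne_top (ENNReal.rpow_ne_top_of_nonneg (by linarith [hb.qGe]) ENNReal.coe_ne_top)
          hb.cFin) hR hb.aGt (by linarith [hb.qGe]) (by have := hb.qLe; push_cast; linarith)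
        (fun l h hh => hb.avgMap_bound (pairMap_lipschitz hψ j) l hh) i h.1 h.2.1 h.2.2
      exact ⟨τ, fun _ _ _ => hτ, hτ0⟩
    · refine ⟨c₀ i - 2 * R, fun h1 h2 h3 => absurd ⟨h1, h2, h3⟩ h, ?_⟩
      rw [show {x : Fin n → ℝ | x i = c₀ i - 2 * R} ∩ Metric.closedBall c₀ R = ∅ from ?_,
        image_empty, measure_empty]
      refine eq_empty_iff_forall_notMem.2 fun x ⟨hx, hx'⟩ => ?_
      have := abs_le.1 ((Real.dist_eq _ _).symm.trans_le
        ((dist_le_pi_dist x c₀ i).trans (Metric.mem_closedBall.1 hx')))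
      simp only [mem_ofPred_eq] at hx
      linarith
  choose τ hτ hτ0 using hslice
  set Bad : ℕ × ℕ → Set (Fin (n + 1) → ℝ) := fun j =>
    ⋃ (i : Fin n) (t : ℚ × ℚ), F j '' ({x | x i = τ j i t} ∩ Metric.closedBall c₀ R) with hBad
  have hnull : ∀ j, ∀ᵐ z : Fin n → ℝ, ∀ᵐ c : ℝ, (Fin.cons c z : Fin (n + 1) → ℝ) ∉ Bad j := by
    intro j
    have h0 : ∀ᵐ w : Fin (n + 1) → ℝ, w ∉ Bad j :=
      measure_eq_zero_iff_ae_notMem.1
        (measure_iUnion_null fun i => measure_iUnion_null fun t => hτ0 j i t)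
    have hp := (volume_preserving_piFinSuccAbove (fun _ : Fin (n + 1) => ℝ) 0).symm
    have h1 : ∀ᵐ p : ℝ × (Fin n → ℝ),
        (MeasurableEquiv.piFinSuccAbove (fun _ : Fin (n + 1) => ℝ) 0).symm p ∉ Bad j :=
      hp.quasiMeasurePreserving.ae h0
    have h2 : ∀ᵐ p : (Fin n → ℝ) × ℝ ∂((volume : Measure (Fin n → ℝ)).prod volume),
        (Fin.cons p.2 p.1 : Fin (n + 1) → ℝ) ∉ Bad j := by
      have h3 := (Measure.measurePreserving_swap
        (μ := (volume : Measure (Fin n → ℝ))) (ν := (volume : Measure ℝ))).quasiMeasurePreserving.ae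
        (p := fun p => (MeasurableEquiv.piFinSuccAbove (fun _ : Fin (n + 1) => ℝ) 0).symm p ∉ Bad j)
        h1
      filter_upwards [h3] with p hp'
      simpa [MeasurableEquiv.piFinSuccAbove, Fin.insertNth_zero', Fin.consEquiv] using hp'
    exact Measure.ae_ae_of_ae_prod h2
  filter_upwards [ae_all_iff.2 hnull] with z hz K hK hKi hKs hKb hKz y hy O hO hyO hOi
  -- separate the orbit from the complement of `O`
  have horb : IsCompact (range fun g : G => φ (g • y)) :=
    isCompact_range (φ.continuousOn.comp_continuous (continuous_id.smul continuous_const)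
      fun g => hKs (hKi g y hy))
  have hout : IsCompact (φ '' (K \ O)) :=
    (hK.diff hO).image_of_continuousOn (φ.continuousOn.mono (sdiff_subset.trans hKs))
  have hdisj : Disjoint (range fun g : G => φ (g • y)) (φ '' (K \ O)) := by
    rw [disjoint_left]
    rintro _ ⟨g, rfl⟩ ⟨x, hx, hxe⟩
    exact hx.2 (φ.injOn (hKs hx.1) (hKs (hKi g y hy)) hxe ▸ hOi g y ⟨hy, hyO⟩)
  obtain ⟨ρ, hρ, hρd⟩ := Metric.exists_pos_forall_lt_edist horb hout.isClosed hdisj
  obtain ⟨k, hk⟩ := exists_nat_gt (2 / (ρ : ℝ))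
  set r : ℝ := 1 / ((k : ℝ) + 1) with hr
  have hr0 : 0 < r := by positivity
  have hρ0 : (0 : ℝ) < ρ := by exact_mod_cast hρ
  have hrρ : r < ρ / 2 := by
    rw [hr, div_lt_iff₀ (by positivity)]
    rw [div_lt_iff₀ hρ0] at hk
    nlinarith
  -- a dense point whose orbit is close
  have hyR : φ y ∈ Metric.closedBall c₀ R := hKb hy
  have hclose : ∀ᶠ d in 𝓝 (φ y), ∀ g ∈ (univ : Set G),
      dist (φ (g • φ.symm (retr c₀ (10 * R) d))) (φ (g • y)) < r / 4 := by
    refine isCompact_univ.eventually_forall_of_forall_eventually fun g _ => ?_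
    have hc1 : Continuous fun p : (Fin n → ℝ) × G =>
        dist (φ (p.2 • φ.symm (retr c₀ (10 * R) p.1))) (φ (p.2 • y)) :=
      hb.cont_orbit.dist ((φ.continuousOn.comp_continuous (continuous_id.smul continuous_const)
        fun g => hKs (hKi g y hy)).comp continuous_snd)
    refine (hc1.tendsto (φ y, g)).eventually (eventually_lt_nhds ?_)
    simp only [retr_eq (Metric.closedBall_subset_closedBall (by linarith : R ≤ 10 * R) hyR),
      φ.left_inv (hKs hy), dist_self]
    linarith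
  have hball : ∀ᶠ d in 𝓝 (φ y), d ∈ Metric.closedBall c₀ (10 * R) := by
    refine mem_of_superset (Metric.ball_mem_nhds _ hR) fun d hd => ?_
    show d ∈ Metric.closedBall c₀ (10 * R)
    rw [Metric.mem_closedBall] at hyR ⊢
    linarith [dist_triangle d (φ y) c₀, Metric.mem_ball.1 hd]
  obtain ⟨V, hV, hVo, hyV⟩ := mem_nhds_iff.1 (hclose.and hball)
  obtain ⟨d, hdV⟩ := (TopologicalSpace.denseRange_denseSeq (Fin n → ℝ)).exists_mem_open hVo ⟨_, hyV⟩
  set j : ℕ × ℕ := (d, k) with hj
  set v := TopologicalSpace.denseSeq (Fin n → ℝ) d with hv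
  have hvd : ∀ g : G, dist (φ (g • φ.symm v)) (φ (g • y)) < r / 4 := fun g => by
    have := (hV hdV).1 g (mem_univ g)
    rwa [retr_eq (hV hdV).2] at this
  set θ : M → ℝ := fun x => ∫ g, bump φ G j (φ (g • x)) ∂μ with hθ
  have hbc : Continuous (bump φ G j) := by
    unfold bump
    exact continuous_const.max (continuous_const.sub (Metric.continuous_infDist_pt _))
  have hint : ∀ x ∈ K, Integrable (fun g => bump φ G j (φ (g • x))) μ := fun x hx =>
    (hbc.comp (φ.continuousOn.comp_continuous (continuous_id.smul continuous_const)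
      fun g => hKs (hKi g x hx))).integrable_of_hasCompactSupport (HasCompactSupport.of_compactSpace _)
  have hFθ : ∀ x ∈ K, F j (φ x) = Fin.cons (θ x) z := by
    intro x hx
    have hi : Integrable (fun g => pairMap φ G ψ j (φ (g • x))) μ :=
      ((pairMap_lipschitz hψ j).continuous.comp (φ.continuousOn.comp_continuous
        (continuous_id.smul continuous_const) fun g => hKs (hKi g x hx))).integrable_of_hasCompactSupport
        (HasCompactSupport.of_compactSpace _)
    have e : F j (φ x) = ∫ g, pairMap φ G ψ j (φ (g • x)) ∂μ := by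
      simp only [hF, avgMap,
        retr_eq (Metric.closedBall_subset_closedBall (by linarith : R ≤ 10 * R) (hKb hx)),
        φ.left_inv (hKs hx)]
    have hi' : Integrable (fun g => ψ (φ (g • x))) μ :=
      (hψ.continuous.comp (φ.continuousOn.comp_continuous
        (continuous_id.smul continuous_const) fun g => hKs (hKi g x hx))).integrable_of_hasCompactSupport
        (HasCompactSupport.of_compactSpace _)
    rw [e]
    funext l
    rw [eval_integral (fun l => hi.eval l)]
    induction l using Fin.cases with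
    | zero => simp [pairMap, θ]
    | succ l =>
      simp only [pairMap, Fin.cons_succ]
      rw [← eval_integral (fun l => hi'.eval l), hKz x hx]
  have hθc : ContinuousOn θ K := by
    have h1 : ContinuousOn (fun x => F j (φ x) 0) K :=
      ((continuous_apply 0).comp (hFc j)).comp_continuousOn (φ.continuousOn.mono hKs)
    exact h1.congr fun x hx => by simp only [hFθ x hx, Fin.cons_zero]
  have hθy : r - r / 4 ≤ θ y := by
    calc r - r / 4 = ∫ _ : G, (r - r / 4) ∂μ := by simp
      _ ≤ θ y := integral_mono (integrable_const _) (hint y hy) fun g => by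
          refine le_trans ?_ (le_max_right _ _)
          simp only [hj, ← hr]
          have h1 : Metric.infDist (φ (g • y)) (range fun g : G => φ (g • φ.symm v)) ≤
              dist (φ (g • y)) (φ (g • φ.symm v)) := Metric.infDist_le_dist_of_mem ⟨g, rfl⟩
          have h2 := (dist_comm _ _).trans_lt (hvd g)
          linarith
  obtain ⟨c, hc, hcB⟩ : ∃ c ∈ Ioo (r / 4) (r / 2), (Fin.cons c z : Fin (n + 1) → ℝ) ∉ Bad j := by
    haveI : NeBot (ae ((volume : Measure ℝ).restrict (Ioo (r / 4) (r / 2)))) :=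
      ae_neBot.2 fun h => by
        have := Measure.restrict_eq_zero.1 h
        rw [Real.volume_Ioo, ENNReal.ofReal_eq_zero] at this
        linarith
    obtain ⟨c, hc, hcB⟩ := ((ae_restrict_mem (μ := (volume : Measure ℝ)) (measurableSet_Ioo (a := r / 4) (b := r / 2))).and
      (ae_restrict_of_ae (hz j))).exists
    exact ⟨c, hc, hcB⟩
  refine ⟨θ, c, hθc, fun g x _ => ?_, by linarith [hc.2], fun x ⟨hx, hcx⟩ => ?_, fun S hS hSc => ?_⟩
  · simp only [hθ, ← mul_smul]
    exact integral_mul_right_eq_self (fun a => bump φ G j (φ (a • x))) g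
  · by_contra hxO
    simp only [mem_ofPred_eq] at hcx
    have : θ x ≤ 0 := by
      refine integral_nonpos fun g => max_le le_rfl ?_
      simp only [Pi.zero_apply, hj, ← hr, sub_nonpos]
      refine (Metric.le_infDist (range_nonempty _)).2 ?_
      rintro _ ⟨b, rfl⟩
      have hgx : g • x ∉ O := fun h => hxO (by
        simpa using hOi g⁻¹ (g • x) ⟨hKi g x hx, h⟩)
      have h1 := hρd (φ (b • y)) ⟨b, rfl⟩ (φ (g • x)) ⟨g • x, ⟨hKi g x hx, hgx⟩, rfl⟩
      rw [edist_dist, ← ENNReal.ofReal_coe_nnreal, ENNReal.ofReal_lt_ofReal_iff_of_nonneg ρ.coe_nonneg] at h1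
      have h2 := hvd b
      have h3 := dist_triangle (φ (b • y)) (φ (b • φ.symm v)) (φ (g • x))
      rw [dist_comm] at h2
      rw [dist_comm (φ (b • φ.symm v))] at h3
      linarith
    linarith [hc.1]
  · intro x₁ h₁ x₂ h₂
    refine φ.injOn (hKs (hS h₁).1) (hKs (hS h₂).1) (funext fun i => ?_)
    by_contra hne
    wlog hlt : φ x₁ i < φ x₂ i generalizing x₁ x₂
    · exact this h₂ h₁ (Ne.symm hne) (lt_of_le_of_ne (not_lt.1 hlt) (Ne.symm hne))
    obtain ⟨t₁, ht₁, ht₁'⟩ := exists_rat_btwn hlt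
    obtain ⟨t₂, ht₂, ht₂'⟩ := exists_rat_btwn ht₁'
    have hcoord : ∀ x ∈ K, φ x i ∈ Icc (c₀ i - R) (c₀ i + R) := fun x hx => by
      have := abs_le.1 ((Real.dist_eq _ _).symm.trans_le
        ((dist_le_pi_dist (φ x) c₀ i).trans (Metric.mem_closedBall.1 (hKb hx))))
      exact ⟨by linarith, by linarith⟩
    have hτ' := hτ j i (t₁, t₂) ht₂ (by linarith [(hcoord x₁ (hS h₁).1).1])
      (by linarith [(hcoord x₂ (hS h₂).1).2])
    simp only at hτ'
    obtain ⟨x, hx, hxi⟩ : ∃ x ∈ S, φ x i = τ j i (t₁, t₂) :=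
      hSc.intermediate_value h₁ h₂ ((continuous_apply i).comp_continuousOn
        (φ.continuousOn.mono fun x hx => hKs (hS hx).1))
        ⟨(ht₁.trans hτ'.1).le, (hτ'.2.trans ht₂').le⟩
    refine hcB ?_
    rw [hBad, mem_iUnion₂]
    refine ⟨i, (t₁, t₂), φ x, ⟨hxi, hKb (hS hx).1⟩, ?_⟩
    rw [hFθ x (hS hx).1, (hS hx).2]

end

end Vale.Agent.P228.HS
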