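import Vale.Agent.P228.HS.Degree
import Vale.Agent.P228.HS.Section
import Vale.Agent.P228.HS.Thin

/-!
# P228: a value with thin fibre of an averaged chart is a fixed point
-/

namespace Vale.Agent.P228.HS

open Set MeasureTheory Filter
open scoped Topology

noncomputable section

variable {n : ℕ} {G M : Type*} [CommGroup G] [TopologicalSpace G] [IsTopologicalGroup G]
  [CompactSpace G] [T2Space G] [SecondCountableTopology G] [MeasurableSpace G] [BorelSpace G]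
  [TopologicalSpace M] [T2Space M] [MulAction G M] [ContinuousSMul G M]

/-- An invariant set as a sub-action. -/
def invSub (G : Type*) {M : Type*} [SMul G M] (S : Set M) (h : ∀ g : G, ∀ y ∈ S, g • y ∈ S) :
    SubMulAction G M :=
  ⟨S, fun g y hy => h g y hy⟩

/-- The averaged chart. -/
def avgChart {G M : Type*} [SMul G M] [MeasurableSpace G] [TopologicalSpace M]
    (e : OpenPartialHomeomorph M (Fin n → ℝ)) (μ : Measure G) (y : M) : Fin n → ℝ :=
  ∫ g : G, e (g • y) ∂μ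

variable {μ : Measure G} [IsProbabilityMeasure μ] [μ.IsMulLeftInvariant]

omit [T2Space G] [T2Space M] in
theorem avgChart_continuousOn (e : OpenPartialHomeomorph M (Fin n → ℝ)) {X : Set M}
    (hX : IsCompact X) (hXc : ∀ g : G, ∀ y ∈ X, g • y ∈ e.source) :
    ContinuousOn (fun y => avgChart e μ y) X := by
  have : ContinuousOn (Function.uncurry fun (y : M) (g : G) => e (g • y)) (X ×ˢ univ) :=
    e.continuousOn.comp (continuous_snd.smul continuous_fst).continuousOn fun q hq => hXc _ _ hq.1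
  exact continuousOn_integral_of_compact_support isCompact_univ this (fun y g _ hg => absurd (mem_univ g) hg)

/-- Nested convex sets around the cube at `w₀`. -/
structure BallData (e : OpenPartialHomeomorph M (Fin n → ℝ)) (G : Type*) [SMul G M]
    (w₀ : Fin n → ℝ) (r : ℝ) (L₁ L₂ : Set (Fin n → ℝ)) : Prop where
  rPos : 0 < r
  convL₁ : Convex ℝ L₁
  convL₂ : Convex ℝ L₂
  compL₂ : IsCompact L₂
  tgt : L₂ ⊆ e.target
  sub₀ : Metric.closedBall w₀ r ⊆ L₁
  sub₁ : L₁ ⊆ L₂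
  maps₀ : ∀ a : G, ∀ w ∈ Metric.closedBall w₀ r, e (a • e.symm w) ∈ L₁
  maps₁ : ∀ a : G, ∀ w ∈ L₁, e (a • e.symm w) ∈ L₂
  maps₂ : ∀ a : G, ∀ w ∈ L₂, a • e.symm w ∈ e.source

theorem Convex.comb {A : Set (Fin n → ℝ)} (hA : Convex ℝ A) {x y : Fin n → ℝ} (hx : x ∈ A)
    (hy : y ∈ A) {t : ℝ} (ht : t ∈ Icc (0 : ℝ) 1) : (1 - t) • x + t • y ∈ A :=
  hA hx hy (sub_nonneg.2 ht.2) ht.1 (sub_add_cancel 1 t)

/-- The straight path from `z + x` to its translate, in the chart. -/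
def pathH (e : OpenPartialHomeomorph M (Fin n → ℝ)) (z : Fin n → ℝ) (a : G) (t : ℝ)
    (x : Fin n → ℝ) : M :=
  e.symm ((1 - t) • (z + x) + t • e (a • e.symm (z + x)))

/-- The square between paths, in the chart. -/
def pathW (e : OpenPartialHomeomorph M (Fin n → ℝ)) (z : Fin n → ℝ) (a b : G) (s t : ℝ)
    (x : Fin n → ℝ) : M :=
  e.symm ((1 - s) • (z + x) + s • e (a • pathH e z b t x))

/-- The invariant compact set spanned by `L₂`. -/
def orbitSet (e : OpenPartialHomeomorph M (Fin n → ℝ)) (G : Type*) [SMul G M]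
    (L₂ : Set (Fin n → ℝ)) : Set M :=
  (fun q : G × (Fin n → ℝ) => q.1 • e.symm q.2) '' (univ ×ˢ L₂)

section Ball

variable {e : OpenPartialHomeomorph M (Fin n → ℝ)} {w₀ : Fin n → ℝ} {r : ℝ}
  {L₁ L₂ : Set (Fin n → ℝ)}

theorem orbitSet_smul (a : G) {y : M} (hy : y ∈ orbitSet e G L₂) : a • y ∈ orbitSet e G L₂ := by
  obtain ⟨⟨b, w⟩, hw, rfl⟩ := hy
  exact ⟨(a * b, w), ⟨trivial, hw.2⟩, mul_smul a b _⟩

theorem symm_mem_orbitSet {w : Fin n → ℝ} (hw : w ∈ L₂) : e.symm w ∈ orbitSet e G L₂ :=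
  ⟨(1, w), ⟨trivial, hw⟩, one_smul G _⟩

theorem BallData.compactX (hd : BallData e G w₀ r L₁ L₂) : IsCompact (orbitSet e G L₂) :=
  (isCompact_univ.prod hd.compL₂).image_of_continuousOn
    (continuous_smul.comp_continuousOn (continuousOn_fst.prodMk
      (e.continuousOn_symm.comp continuousOn_snd fun _ hq => hd.tgt hq.2)))

theorem BallData.sourceX (hd : BallData e G w₀ r L₁ L₂) : orbitSet e G L₂ ⊆ e.source := by
  rintro _ ⟨⟨b, w⟩, hw, rfl⟩
  exact hd.maps₂ b w hw.2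

theorem BallData.smulX (hd : BallData e G w₀ r L₁ L₂) (a : G) (y : M)
    (hy : y ∈ orbitSet e G L₂) : a • y ∈ e.source := hd.sourceX (orbitSet_smul a hy)

theorem BallData.add_mem (hd : BallData e G w₀ r L₁ L₂) {x : Fin n → ℝ}
    (hx : x ∈ Metric.closedBall 0 r) : w₀ + x ∈ Metric.closedBall w₀ r ∧ w₀ + x ∈ L₂ := by
  have h : w₀ + x ∈ Metric.closedBall w₀ r := by
    simpa [Metric.mem_closedBall, dist_eq_norm] using hx
  exact ⟨h, hd.sub₁ (hd.sub₀ h)⟩

theorem BallData.segH (hd : BallData e G w₀ r L₁ L₂) (b : G) {t : ℝ} (ht : t ∈ Icc (0 : ℝ) 1)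
    {x : Fin n → ℝ} (hx : x ∈ Metric.closedBall 0 r) :
    (1 - t) • (w₀ + x) + t • e (b • e.symm (w₀ + x)) ∈ L₁ :=
  Convex.comb hd.convL₁ (hd.sub₀ (hd.add_mem hx).1) (hd.maps₀ b _ (hd.add_mem hx).1) ht

theorem BallData.segW (hd : BallData e G w₀ r L₁ L₂) (a b : G) {s t : ℝ}
    (hs : s ∈ Icc (0 : ℝ) 1) (ht : t ∈ Icc (0 : ℝ) 1) {x : Fin n → ℝ}
    (hx : x ∈ Metric.closedBall 0 r) :
    (1 - s) • (w₀ + x) + s • e (a • pathH e w₀ b t x) ∈ L₂ :=
  Convex.comb hd.convL₂ (hd.add_mem hx).2 (hd.maps₁ a _ (hd.segH b ht hx)) hs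

theorem BallData.pathH_mem (hd : BallData e G w₀ r L₁ L₂) (b : G) {t : ℝ}
    (ht : t ∈ Icc (0 : ℝ) 1) {x : Fin n → ℝ} (hx : x ∈ Metric.closedBall 0 r) :
    pathH e w₀ b t x ∈ orbitSet e G L₂ :=
  symm_mem_orbitSet (hd.sub₁ (hd.segH b ht hx))

theorem BallData.pathW_mem (hd : BallData e G w₀ r L₁ L₂) (a b : G) {s t : ℝ}
    (hs : s ∈ Icc (0 : ℝ) 1) (ht : t ∈ Icc (0 : ℝ) 1) {x : Fin n → ℝ}
    (hx : x ∈ Metric.closedBall 0 r) : pathW e w₀ a b s t x ∈ orbitSet e G L₂ :=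
  symm_mem_orbitSet (hd.segW a b hs ht hx)

theorem BallData.pathW_continuousOn (hd : BallData e G w₀ r L₁ L₂) :
    ContinuousOn (fun q : (G × G) × (ℝ × ℝ × (Fin n → ℝ)) =>
      pathW e w₀ q.1.1 q.1.2 q.2.1 q.2.2.1 q.2.2.2) (Dom G n r) := by
  have h0 : ContinuousOn (fun q : G × (ℝ × (Fin n → ℝ)) => e.symm (w₀ + q.2.2))
      (univ ×ˢ (Icc (0 : ℝ) 1 ×ˢ Metric.closedBall 0 r)) :=
    e.continuousOn_symm.comp (by fun_prop) fun q hq => hd.tgt (hd.add_mem hq.2.2).2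
  have h2 : ContinuousOn (fun q : G × (ℝ × (Fin n → ℝ)) => e (q.1 • e.symm (w₀ + q.2.2)))
      (univ ×ˢ (Icc (0 : ℝ) 1 ×ˢ Metric.closedBall 0 r)) :=
    e.continuousOn.comp (continuous_smul.comp_continuousOn (continuousOn_fst.prodMk h0))
      fun q hq => hd.smulX _ _ (symm_mem_orbitSet (hd.add_mem hq.2.2).2)
  have hHc : ContinuousOn (fun q : G × (ℝ × (Fin n → ℝ)) => pathH e w₀ q.1 q.2.1 q.2.2)
      (univ ×ˢ (Icc (0 : ℝ) 1 ×ˢ Metric.closedBall 0 r)) := by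
    refine e.continuousOn_symm.comp ?_ fun q hq => hd.tgt (hd.sub₁ (hd.segH _ hq.2.1 hq.2.2))
    exact (((continuous_const.sub (continuous_fst.comp continuous_snd)).smul
      (continuous_const.add (continuous_snd.comp continuous_snd))).continuousOn).add
      ((continuous_fst.comp continuous_snd).continuousOn.smul h2)
  have h1 : ContinuousOn (fun q : (G × G) × (ℝ × ℝ × (Fin n → ℝ)) =>
      e (q.1.1 • pathH e w₀ q.1.2 q.2.2.1 q.2.2.2)) (Dom G n r) := by
    refine e.continuousOn.comp (continuous_smul.comp_continuousOn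
      ((continuous_fst.comp continuous_fst).continuousOn.prodMk ?_))
      fun q hq => hd.smulX _ _ (hd.pathH_mem _ hq.2.2.1 hq.2.2.2)
    exact hHc.comp (f := fun q : (G × G) × (ℝ × ℝ × (Fin n → ℝ)) => (q.1.2, (q.2.2.1, q.2.2.2)))
      (by fun_prop) fun q hq => ⟨trivial, hq.2.2.1, hq.2.2.2⟩
  refine e.continuousOn_symm.comp ?_ fun q hq => hd.tgt (hd.segW _ _ hq.2.1 hq.2.2.1 hq.2.2.2)
  exact (((continuous_const.sub (continuous_fst.comp continuous_snd)).smul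
    (continuous_const.add (continuous_snd.comp (continuous_snd.comp continuous_snd)))).continuousOn).add
    ((continuous_fst.comp continuous_snd).continuousOn.smul h1)

theorem BallData.base_continuousOn (hd : BallData e G w₀ r L₁ L₂) :
    ContinuousOn (fun x => e.symm (w₀ + x)) (Metric.closedBall 0 r) :=
  e.continuousOn_symm.comp (by fun_prop) fun _ hx => hd.tgt (hd.add_mem hx).2

end Ball

/-- An equivariant function, nonzero near the fibre. -/
theorem exists_angle (χ : G →* ℂ) (hχ : Continuous χ) {φ : OpenPartialHomeomorph M (Fin n → ℝ)}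
    {ψ : (Fin n → ℝ) ≃ₜ (Fin n → ℝ)} {c₀ z : Fin n → ℝ} {R : ℝ}
    (hthin : ThinFibre φ G μ ψ c₀ R z) {X : Set M} (hXc : IsCompact X)
    (hXi : ∀ a : G, ∀ y ∈ X, a • y ∈ X) (hXs : X ⊆ (φ.transHomeomorph ψ).source)
    (hXR : MapsTo φ X (Metric.closedBall c₀ R))
    (hfix : ∀ y ∈ X, avgChart (φ.transHomeomorph ψ) μ y = z → ∀ a : G, χ a ≠ 1 → a • y ≠ y) :
    ∃ η₀ > 0, ∃ u : M → ℂ, ContinuousOn u X ∧ (∀ a : G, ∀ y ∈ X, u (a • y) = χ a * u y) ∧
      ∀ y ∈ X, ‖avgChart (φ.transHomeomorph ψ) μ y - z‖ ≤ η₀ → u y ≠ 0 := by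
  classical
  set e := φ.transHomeomorph ψ with he
  have hXsm : ∀ a : G, ∀ y ∈ X, a • y ∈ e.source := fun a y hy => hXs (hXi a y hy)
  set Φ : M → Fin n → ℝ := avgChart e μ with hΦ
  have hΦc : ContinuousOn Φ X := avgChart_continuousOn e hXc hXsm
  have hΦi : ∀ a : G, ∀ y, Φ (a • y) = Φ y := fun a y => by
    simp only [hΦ, avgChart, ← mul_smul]
    exact integral_mul_right_eq_self (fun b => e (b • y)) a
  set K : Set M := X ∩ Φ ⁻¹' {z} with hK
  have hKc : IsCompact K := hXc.of_isClosed_subset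
    (hΦc.preimage_isClosed_of_isClosed hXc.isClosed isClosed_singleton) inter_subset_left
  have hKi : ∀ a : G, ∀ y ∈ K, a • y ∈ K := fun a y hy =>
    ⟨hXi a y hy.1, by simp only [mem_preimage, hΦi]; exact hy.2⟩
  letI : MulAction G K := (invSub G K hKi).mulAction
  letI : MulAction G X := (invSub G X hXi).mulAction
  haveI : CompactSpace K := isCompact_iff_compactSpace.1 hKc
  haveI : CompactSpace X := isCompact_iff_compactSpace.1 hXc
  haveI : ContinuousSMul G K :=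
    ⟨(continuous_fst.smul (continuous_subtype_val.comp continuous_snd)).subtype_mk _⟩
  haveI : ContinuousSMul G X :=
    ⟨(continuous_fst.smul (continuous_subtype_val.comp continuous_snd)).subtype_mk _⟩
  have hemb : ∀ S : Set M, S ⊆ X → IsCompact S → SecondCountableTopology S := by
    intro S hS hSc
    haveI : CompactSpace S := isCompact_iff_compactSpace.1 hSc
    exact (Continuous.isClosedEmbedding
      (f := fun y : S => e y.1)
      (e.continuousOn.comp_continuous continuous_subtype_val fun y => hXs (hS y.2))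
      fun y y' h => Subtype.ext (e.injOn (hXs (hS y.2)) (hXs (hS y'.2)) h)).isEmbedding.secondCountableTopology
  haveI := hemb K inter_subset_left hKc
  haveI := hemb X subset_rfl hXc
  obtain ⟨u₀, hu₀, hu₀e, hu₀n⟩ := exists_equivariant_ne_zero (K := K) μ hχ
    (fun y a hya => by
      by_contra hne
      exact hfix y.1 y.2.1 y.2.2 a hne (congrArg Subtype.val hya))
    (fun y O hO hOi hyO => by
      obtain ⟨O', hO', hOO⟩ := isOpen_induced_iff.1 hO
      have hOK : ∀ x : K, x ∈ O ↔ x.1 ∈ O' := fun x => by rw [← hOO]; rfl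
      obtain ⟨θ, c, hθc, hθi, hθy, hθO, hθt⟩ := hthin K hKc hKi (inter_subset_left.trans hXs)
        (hXR.mono_left inter_subset_left) (fun x hx => hx.2) y.1 y.2 O' hO' ((hOK y).1 hyO)
        (fun a x hx => (hOK ⟨a • x, hKi a x hx.1⟩).1 (hOi a ⟨x, hx.1⟩ ((hOK ⟨x, hx.1⟩).2 hx.2)))
      have hθK : Continuous fun x : K => θ x.1 := hθc.restrict
      refine ⟨{x : K | c ≤ θ x.1}, isClosed_le continuous_const hθK,
        fun a x (hx : c ≤ θ x.1) => show c ≤ θ (a • x.1) from (hθi a x.1 x.2).symm ▸ hx, ?_,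
        fun x hx => (hOK x).2 (hθO ⟨x.2, hx⟩), ?_⟩
      · exact mem_of_superset ((isOpen_lt continuous_const hθK).mem_nhds hθy)
          (fun x (hx : c < θ x.1) => le_of_lt hx)
      · intro S hS hSc
        have h1 : Subtype.val '' S ⊆ K ∩ {x | θ x = c} := by
          rintro _ ⟨x, hx, rfl⟩
          exact ⟨x.2, (frontier_le_subset_eq continuous_const hθK (hS hx)).symm⟩
        exact fun x hx x' hx' => Subtype.ext (hθt _ h1 (hSc.image _ continuous_subtype_val.continuousOn)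
          ⟨x, hx, rfl⟩ ⟨x', hx', rfl⟩))
  -- extend to `X`
  obtain ⟨u₁, hu₁, hu₁e, hu₁K⟩ := exists_equivariant_ext (K := X) μ hχ
    (S := {y : X | Φ y.1 = z}) (isClosed_eq hΦc.restrict continuous_const)
    (fun a y hy => by show Φ (a • y.1) = z; rw [hΦi]; exact hy)
    (f := fun y => if h : y.1 ∈ K then u₀ ⟨y.1, h⟩ else 0)
    (by
      rw [continuousOn_iff_continuous_restrict]
      refine (hu₀.comp (f := fun y : {y : X | Φ y.1 = z} => (⟨y.1.1, y.1.2, y.2⟩ : K))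
        (by fun_prop)).congr fun y => ?_
      rw [Function.comp_apply, restrict_apply, dif_pos (show y.1.1 ∈ K from ⟨y.1.2, y.2⟩)])
    (fun a y hy => by
      have h1 : y.1 ∈ K := ⟨y.2, hy⟩
      have h2 : (a • y).1 ∈ K := hKi a y.1 h1
      rw [dif_pos h1, dif_pos h2]
      exact hu₀e a ⟨y.1, h1⟩)
  set u : M → ℂ := fun y => if h : y ∈ X then u₁ ⟨y, h⟩ else 0 with hu
  have huX : ∀ y : X, u y.1 = u₁ y := fun y => dif_pos y.2
  have huc : ContinuousOn u X := by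
    rw [continuousOn_iff_continuous_restrict]
    exact hu₁.congr fun y => (huX y).symm
  have hue : ∀ a : G, ∀ y ∈ X, u (a • y) = χ a * u y := fun a y hy => by
    rw [huX ⟨y, hy⟩, ← hu₁e a ⟨y, hy⟩]
    exact huX (a • (⟨y, hy⟩ : X))
  have hun : ∀ y ∈ X, Φ y = z → u y ≠ 0 := fun y hy hyz => by
    rw [huX ⟨y, hy⟩, hu₁K (show (⟨y, hy⟩ : X) ∈ {y : X | Φ y.1 = z} from hyz)]
    simp only [dif_pos (show y ∈ K from ⟨hy, hyz⟩)]
    exact hu₀n _
  obtain ⟨η₀, hη₀, hη₀u⟩ : ∃ η₀ > 0, ∀ y ∈ X, ‖Φ y - z‖ ≤ η₀ → u y ≠ 0 := by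
    set Zs := X ∩ u ⁻¹' {0}
    have hZ : IsCompact Zs := hXc.of_isClosed_subset
      (huc.preimage_isClosed_of_isClosed hXc.isClosed isClosed_singleton) inter_subset_left
    obtain ⟨b, hb, hbZ⟩ := hZ.exists_forall_le' (f := fun y => ‖Φ y - z‖) (a := 0)
      ((hΦc.mono inter_subset_left).sub continuousOn_const).norm
      (fun y hy => norm_pos_iff.2 (sub_ne_zero.2 fun h => hun y hy.1 h hy.2))
    exact ⟨b / 2, by linarith, fun y hy hle h0 => by linarith [hbZ y ⟨hy, h0⟩]⟩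
  exact ⟨η₀, hη₀, u, huc, hue, hη₀u⟩

/-- The maps for `Family.false`. -/
theorem false_of_angle {p : ℕ} (hp : 2 ≤ p) (χ : G →* ℂ) (g : G)
    (hχg : χ g = Complex.exp (((2 * Real.pi * (1 / (p : ℝ)) : ℝ) : ℂ) * Complex.I))
    (hχp : ∀ a, χ a ^ p = 1) (hg : Tendsto (fun k : ℕ => g ^ p ^ k) atTop (𝓝 1))
    {e : OpenPartialHomeomorph M (Fin n → ℝ)} {r : ℝ} {w₀ z : Fin n → ℝ}
    {L₁ L₂ : Set (Fin n → ℝ)} (hd : BallData e G w₀ r L₁ L₂)
    (hbd : ∀ a b : G, ∀ s ∈ Icc (0 : ℝ) 1, ∀ t ∈ Icc (0 : ℝ) 1, ∀ x : Fin n → ℝ, ‖x‖ = r →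
      avgChart e μ (pathW e w₀ a b s t x) ≠ z)
    (hdg : ∀ t ∈ Icc (0 : ℝ) 1, ∀ x : Fin n → ℝ, ‖x‖ = r →
      (1 - t) • (avgChart e μ (e.symm (w₀ + x)) - z) + t • x ≠ 0)
    {η₀ : ℝ} (hη₀ : 0 < η₀) {u : M → ℂ} (huc : ContinuousOn u (orbitSet e G L₂))
    (hue : ∀ a : G, ∀ y ∈ orbitSet e G L₂, u (a • y) = χ a * u y)
    (hη₀u : ∀ y ∈ orbitSet e G L₂, ‖avgChart e μ y - z‖ ≤ η₀ → u y ≠ 0) : False := by
  have hes : ∀ w, w ∈ e.target → e (e.symm w) = w := fun w hw => e.right_inv hw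
  set Φ : M → Fin n → ℝ := avgChart e μ with hΦ
  set X := orbitSet e G L₂ with hX
  have hXsm : ∀ a : G, ∀ y ∈ X, a • y ∈ e.source := hd.smulX
  have hΦc : ContinuousOn Φ X := avgChart_continuousOn e hd.compactX hXsm
  have hΦi : ∀ a : G, ∀ y, Φ (a • y) = Φ y := fun a y => by
    simp only [hΦ, avgChart, ← mul_smul]
    exact integral_mul_right_eq_self (fun b => e (b • y)) a
  set v : M → AddCircle (1 : ℝ) := fun y => circAngle (u y) with hv
  set c : (Fin n → ℝ) → M := fun x => e.symm (w₀ + x) with hc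
  set H : G → ℝ → (Fin n → ℝ) → M := pathH e w₀ with hH
  set W : G → G → ℝ → ℝ → (Fin n → ℝ) → M := pathW e w₀ with hW
  have hcx : ∀ x ∈ Metric.closedBall (0 : Fin n → ℝ) r, c x ∈ X ∧ e (c x) = w₀ + x := fun x hx =>
    ⟨symm_mem_orbitSet (hd.add_mem hx).2, hes _ (hd.tgt (hd.add_mem hx).2)⟩
  have hHX : ∀ (b : G), ∀ t ∈ Icc (0 : ℝ) 1, ∀ x ∈ Metric.closedBall (0 : Fin n → ℝ) r, H b t x ∈ X :=
    fun b t ht x hx => hd.pathH_mem b ht hx
  have hH0 : ∀ a : G, ∀ x ∈ Metric.closedBall (0 : Fin n → ℝ) r, H a 0 x = c x := fun a x _ => by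
    simp [hH, pathH, hc]
  have hH1 : ∀ a : G, ∀ x ∈ Metric.closedBall (0 : Fin n → ℝ) r, H a 1 x = a • c x := fun a x hx => by
    (simp only [hH, pathH, sub_self, zero_smul, zero_add, one_smul]; exact e.left_inv (hXsm a _ (hcx x hx).1))
  have hWc := hd.pathW_continuousOn
  set Sb : Set ((G × G) × (ℝ × ℝ × (Fin n → ℝ))) := univ ×ˢ (Icc (0 : ℝ) 1 ×ˢ (Icc (0 : ℝ) 1 ×ˢ
    Metric.sphere (0 : Fin n → ℝ) r)) with hSb
  have hSbD : Sb ⊆ Dom G n r :=
    prod_mono le_rfl (prod_mono le_rfl (prod_mono le_rfl Metric.sphere_subset_closedBall))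
  have hWX : ∀ a b : G, ∀ s ∈ Icc (0 : ℝ) 1, ∀ t ∈ Icc (0 : ℝ) 1,
      ∀ x ∈ Metric.closedBall (0 : Fin n → ℝ) r, W a b s t x ∈ X :=
    fun a b s hs t ht x hx => hd.pathW_mem a b hs ht hx
  have hcont : ContinuousOn (fun q : (G × G) × (ℝ × ℝ × (Fin n → ℝ)) =>
      ‖Φ (W q.1.1 q.1.2 q.2.1 q.2.2.1 q.2.2.2) - z‖) Sb := by
    have h1 : ∀ q ∈ Sb, W q.1.1 q.1.2 q.2.1 q.2.2.1 q.2.2.2 ∈ X := fun q hq =>
      hWX _ _ _ (hSbD hq).2.1 _ (hSbD hq).2.2.1 _ (hSbD hq).2.2.2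
    exact ((hΦc.comp (hWc.mono hSbD) h1).sub continuousOn_const).norm
  have hSbc : IsCompact Sb :=
    isCompact_univ.prod (isCompact_Icc.prod (isCompact_Icc.prod (isCompact_sphere _ _)))
  obtain ⟨η₁, hη₁, hη₁b⟩ := hSbc.exists_forall_le' (a := (0 : ℝ)) hcont
    (fun q hq => norm_pos_iff.2 (sub_ne_zero.2
      (hbd _ _ _ hq.2.1 _ hq.2.2.1 _ (by simpa using hq.2.2.2))))
  have hcont₂ : ContinuousOn (fun q : ℝ × (Fin n → ℝ) => ‖(1 - q.1) • (Φ (c q.2) - z) + q.1 • q.2‖)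
      (Icc (0 : ℝ) 1 ×ˢ Metric.sphere (0 : Fin n → ℝ) r) := by
    have h0 : ∀ q ∈ Icc (0 : ℝ) 1 ×ˢ Metric.sphere (0 : Fin n → ℝ) r, c q.2 ∈ X := fun q hq =>
      (hcx _ (Metric.sphere_subset_closedBall hq.2)).1
    have h2 : ContinuousOn (fun q : ℝ × (Fin n → ℝ) => c q.2)
        (Icc (0 : ℝ) 1 ×ˢ Metric.sphere (0 : Fin n → ℝ) r) :=
      hd.base_continuousOn.comp continuous_snd.continuousOn
        fun q hq => Metric.sphere_subset_closedBall hq.2
    have h1 : ContinuousOn (fun q : ℝ × (Fin n → ℝ) => Φ (c q.2))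
        (Icc (0 : ℝ) 1 ×ˢ Metric.sphere (0 : Fin n → ℝ) r) := hΦc.comp h2 h0
    exact (((continuous_const.sub continuous_fst).continuousOn.smul (h1.sub continuousOn_const)).add
      (continuous_fst.smul continuous_snd).continuousOn).norm
  have hS₂c : IsCompact (Icc (0 : ℝ) 1 ×ˢ Metric.sphere (0 : Fin n → ℝ) r) :=
    isCompact_Icc.prod (isCompact_sphere _ _)
  obtain ⟨η₂, hη₂, hη₂b⟩ := hS₂c.exists_forall_le' (a := (0 : ℝ)) hcont₂
    (fun q hq => norm_pos_iff.2 (hdg _ hq.1 _ (by simpa using hq.2)))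
  set η := min η₀ (min η₁ η₂) with hη
  have hp0 : 0 < p := by omega
  refine Family.false hp (Φ := fun y => Φ y - z) (v := v) (g := g) (X := X) (η := η) (r := r)
    (c := c) (H := H) (W := W)
    { pPos := hp0, gTend := hg, ηPos := by positivity, rPos := hd.rPos,
      phiCont := hΦc.sub continuousOn_const,
      phiInv := fun a y _ => by rw [hΦi],
      angCont := ?_, angInv := ?_, angGen := ?_, Wcont := hWc, Wmem := hWX,
      W0 := fun a b t x => by simp [hW, pathW, hc],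
      W1 := fun a b t ht x hx => by
        have := hXsm a _ (hHX b t ht x hx)
        rw [hH] at this
        simp [hW, hH, pathW, e.left_inv this],
      Wb := fun a b s hs x hx => by
        have := hH0 b x hx
        rw [hH] at this
        simp only [hW, hH, pathW]; rw [this]; simp only [hc, pathH],
      Wt := fun a b s hs x hx => by
        have := hH1 b x hx
        rw [hH] at this
        simp only [hW, hH, pathW]; rw [this]; simp only [hc, pathH, mul_smul],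
      H0 := hH0, H1 := hH1,
      Hone := fun t ht x hx => by
        simp only [hH, pathH, one_smul, hes _ (hd.tgt (hd.add_mem hx).2), ← add_smul, sub_add_cancel, hc],
      bdry := fun a b s hs t ht x hx => le_trans ((min_le_right _ _).trans (min_le_left _ _))
        (hη₁b ((a, b), (s, t, x)) ⟨trivial, hs, ht, by simpa using hx⟩),
      degOne := fun t ht x hx => le_trans ((min_le_right _ _).trans (min_le_right _ _))
        (hη₂b (t, x) ⟨ht, by simpa using hx⟩) }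
  · intro y hy
    exact ((continuousAt_circAngle (hη₀u y hy.1 (hy.2.trans (min_le_left _ _)))).comp_continuousWithinAt
      (huc y hy.1)).mono fun x hx => hx.1
  · intro a y hy hle
    have h0 := hη₀u y hy (hle.trans (min_le_left _ _))
    simp only [hv]
    rw [hue a y hy, nsmul_circAngle, nsmul_circAngle, mul_pow, hχp, one_mul]
  · intro y hy hle
    have h0 := hη₀u y hy (hle.trans (min_le_left _ _))
    simp only [hv]
    rw [hue g y hy, circAngle_mul (char_ne_zero g) h0, add_comm, hχg, circAngle_exp]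


/-- **Fixed point.** -/
theorem fixed_of_thin {p : ℕ} (hp : 2 ≤ p) (χ : G →* ℂ) (hχ : Continuous χ) (g : G)
    (hχg : χ g = Complex.exp (((2 * Real.pi * (1 / (p : ℝ)) : ℝ) : ℂ) * Complex.I))
    (hχp : ∀ a, χ a ^ p = 1) (hg : Tendsto (fun k : ℕ => g ^ p ^ k) atTop (𝓝 1))
    (hgen : ∀ a : G, χ a ≠ 1 → ∀ y : M, a • y = y → ∀ b : G, b • y = y)
    {φ : OpenPartialHomeomorph M (Fin n → ℝ)} {ψ : (Fin n → ℝ) ≃ₜ (Fin n → ℝ)} {c₀ : Fin n → ℝ}
    {R r : ℝ} {w₀ z : Fin n → ℝ} {L₁ L₂ : Set (Fin n → ℝ)}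
    (hd : BallData (φ.transHomeomorph ψ) G w₀ r L₁ L₂)
    (hbd : ∀ a b : G, ∀ s ∈ Icc (0 : ℝ) 1, ∀ t ∈ Icc (0 : ℝ) 1, ∀ x : Fin n → ℝ, ‖x‖ = r →
      avgChart (φ.transHomeomorph ψ) μ (pathW (φ.transHomeomorph ψ) w₀ a b s t x) ≠ z)
    (hdg : ∀ t ∈ Icc (0 : ℝ) 1, ∀ x : Fin n → ℝ, ‖x‖ = r →
      (1 - t) • (avgChart (φ.transHomeomorph ψ) μ ((φ.transHomeomorph ψ).symm (w₀ + x)) - z) +
        t • x ≠ 0)
    (hR : ∀ a : G, ∀ w ∈ L₂, φ (a • (φ.transHomeomorph ψ).symm w) ∈ Metric.closedBall c₀ R)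
    (hthin : ThinFibre φ G μ ψ c₀ R z) :
    ∀ b : G, b • (φ.transHomeomorph ψ).symm z = (φ.transHomeomorph ψ).symm z := by
  classical
  set e := φ.transHomeomorph ψ with he
  have hXR : MapsTo φ (orbitSet e G L₂) (Metric.closedBall c₀ R) := by
    rintro _ ⟨⟨b, w⟩, hw, rfl⟩
    exact hR b w hw.2
  by_cases hfix : ∃ y ∈ orbitSet e G L₂, avgChart e μ y = z ∧ ∃ a : G, χ a ≠ 1 ∧ a • y = y
  · obtain ⟨y, hy, hyz, a, ha, hay⟩ := hfix
    have hall := hgen a ha y hay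
    have : e y = z := by
      rw [← hyz]
      simp [avgChart, hall]
    intro b
    rw [← this, e.left_inv (hd.sourceX hy), hall b]
  push Not at hfix
  exfalso
  obtain ⟨η₀, hη₀, u, huc, hue, hη₀u⟩ := exists_angle χ hχ hthin hd.compactX
    (fun a y hy => orbitSet_smul a hy) hd.sourceX hXR hfix
  exact false_of_angle hp χ g hχg hχp hg hd hbd hdg hη₀ huc hue hη₀u

end

end Vale.Agent.P228.HS
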