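import Vale.Agent.P228.HS.Angle

/-!
# P228: no equivariant angle near a fibre of an invariant map of degree one

Given a family of paths `H a` from a cube to its translate by `a` and squares `W a b` between them,
`D a = ∫ Ω` over the prism `H a` is a homomorphism to `ℤ`; it kills a neighbourhood of `1` and is
congruent to the degree `1` modulo `p` at a generator shifting the angle by `1/p`. This is absurd.
-/

namespace Vale.Agent.P228.HS

open Set Filter
open scoped Topology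

noncomputable section

/-- Uniform continuity in the second variable, uniformly in a compact parameter. -/
theorem uniform_snd {K Z Y : Type*} [TopologicalSpace K] [T2Space K] [MetricSpace Z]
    [PseudoMetricSpace Y] {D : Set (K × Z)} (hD : IsCompact D) {F : K × Z → Y}
    (hF : ContinuousOn F D) {ε : ℝ} (hε : 0 < ε) :
    ∃ δ > 0, ∀ k z z', (k, z) ∈ D → (k, z') ∈ D → dist z z' < δ →
      dist (F (k, z)) (F (k, z')) < ε := by
  have hDD : IsCompact (D ×ˢ D) := hD.prod hD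
  have h1 : ContinuousOn (fun q : (K × Z) × (K × Z) => F q.1) (D ×ˢ D) :=
    hF.comp continuousOn_fst fun q hq => hq.1
  have h2 : ContinuousOn (fun q : (K × Z) × (K × Z) => F q.2) (D ×ˢ D) :=
    hF.comp continuousOn_snd fun q hq => hq.2
  have hg : ContinuousOn (fun q : (K × Z) × (K × Z) => dist (F q.1) (F q.2)) (D ×ˢ D) :=
    continuous_dist.comp_continuousOn (h1.prodMk h2)
  set P := (D ×ˢ D ∩ (fun q => dist (F q.1) (F q.2)) ⁻¹' Ici ε) ∩
    {q : (K × Z) × (K × Z) | q.1.1 = q.2.1} with hP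
  have hPc : IsCompact P := by
    refine hDD.of_isClosed_subset ?_ (inter_subset_left.trans inter_subset_left)
    exact (hg.preimage_isClosed_of_isClosed hDD.isClosed isClosed_Ici).inter
      (isClosed_eq (by fun_prop) (by fun_prop))
  rcases P.eq_empty_or_nonempty with he | hne
  · refine ⟨1, one_pos, fun k z z' hz hz' _ => ?_⟩
    by_contra hle
    exact eq_empty_iff_forall_notMem.1 he ((k, z), (k, z')) ⟨⟨⟨hz, hz'⟩, not_lt.1 hle⟩, rfl⟩
  obtain ⟨q, hq, hmin⟩ := hPc.exists_isMinOn hne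
    (by fun_prop : ContinuousOn (fun q : (K × Z) × (K × Z) => dist q.1.2 q.2.2) P)
  refine ⟨dist q.1.2 q.2.2, dist_pos.2 fun h => ?_, fun k z z' hz hz' hd => ?_⟩
  · have h12 : q.1 = q.2 := Prod.ext hq.2 h
    have := hq.1.2
    simp only [mem_preimage, mem_Ici, h12, dist_self] at this
    linarith
  · by_contra hle
    exact absurd (isMinOn_iff.1 hmin ((k, z), (k, z')) ⟨⟨⟨hz, hz'⟩, not_lt.1 hle⟩, rfl⟩)
      (not_le.2 hd)

theorem fract_eq_add {y y' : ℝ} (m : ℤ) {d : ℝ} (h : y' = y + m + d) (h0 : 0 ≤ Int.fract y + d)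
    (h1 : Int.fract y + d < 1) : Int.fract y' = Int.fract y + d := by
  rw [Int.fract_eq_iff]
  exact ⟨h0, h1, ⌊y⌋ + m, by push_cast; rw [h, Int.fract]; ring⟩

theorem vert_mem {N : ℕ} {n : ℕ} {r : ℝ} (hr : 0 ≤ r) {v : Fin n → ℕ} (hv : ∀ i, v i ≤ N) :
    vert N r v ∈ Metric.closedBall (0 : Fin n → ℝ) r := by
  rw [mem_closedBall_zero_iff, pi_norm_le_iff_of_nonneg hr]
  intro i
  have h1 : (v i : ℝ) / N ≤ 1 := div_le_one_of_le₀ (by exact_mod_cast hv i) (Nat.cast_nonneg _)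
  have h0 : (0 : ℝ) ≤ (v i : ℝ) / N := by positivity
  rw [vert, Real.norm_eq_abs, abs_mul, abs_of_nonneg hr]
  refine mul_le_of_le_one_right hr (abs_le.2 ⟨?_, ?_⟩) <;> rw [mul_div_assoc] <;> linarith

theorem norm_vert_face {N : ℕ} (hN : 0 < N) {n : ℕ} {r : ℝ} (hr : 0 ≤ r) {v : Fin n → ℕ}
    (hv : ∀ i, v i ≤ N) {i : Fin n} (hi : v i = 0 ∨ v i = N) : ‖vert N r v‖ = r := by
  refine le_antisymm (mem_closedBall_zero_iff.1 (vert_mem hr hv)) ?_
  refine le_of_eq_of_le ?_ (norm_le_pi_norm (vert N r v) i)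
  rcases hi with h | h <;>
    simp [vert, h, hN.ne', (show r * (2 - 1) = r by ring), abs_of_nonneg hr]

theorem dist_vert {N : ℕ} {n : ℕ} {r δ : ℝ} (hr : 0 ≤ r) (hδ : 2 * r / N < δ) (hδ0 : 0 < δ)
    {v w : Fin n → ℕ} (h : ∀ i, v i ≤ w i + 1) (h' : ∀ i, w i ≤ v i + 1) :
    dist (vert N r v) (vert N r w) < δ := by
  rw [dist_pi_lt_iff hδ0]
  intro i
  have e1 : ((v i : ℝ) - w i) ≤ 1 := by
    have : (v i : ℝ) ≤ w i + 1 := by exact_mod_cast h i
    linarith
  have e2 : -1 ≤ ((v i : ℝ) - w i) := by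
    have : (w i : ℝ) ≤ v i + 1 := by exact_mod_cast h' i
    linarith
  have e : vert N r v i - vert N r w i = ((v i : ℝ) - w i) * (2 * r / N) := by
    simp only [vert]; ring
  rw [Real.dist_eq, e, abs_mul, abs_of_nonneg (by positivity : 0 ≤ 2 * r / N)]
  exact (mul_le_of_le_one_left (by positivity) (abs_le.2 ⟨e2, e1⟩)).trans_lt hδ

theorem integ_dvd {N m : ℕ} {p : ℤ} {c d : List (Fin m → ℕ) → ℤ}
    (h : ∀ l, Adj N l → l.length = m + 1 → p ∣ c l - d l) : p ∣ integ N m c - integ N m d := by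
  refine ⟨integ N m fun l => (c l - d l) / p, ?_⟩
  rw [← integ_sub, ← integ_const_mul]
  exact integ_congr fun l hl hlen => (Int.mul_ediv_cancel' (h l hl hlen)).symm

theorem exists_avoid (S : Finset ℝ) {a : ℝ} (ha : 0 < a) : ∃ x, |x| < a ∧ x ∉ S := by
  obtain ⟨x, hx, hxS⟩ := (Ioo_infinite (by linarith : -a < a)).exists_notMem_finset S
  exact ⟨x, abs_lt.2 hx, hxS⟩

/-- The compact domain of the two-parameter family. -/
abbrev Dom (G : Type*) (n : ℕ) (r : ℝ) : Set ((G × G) × (ℝ × ℝ × (Fin n → ℝ))) :=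
  univ ×ˢ (Icc (0 : ℝ) 1 ×ˢ (Icc (0 : ℝ) 1 ×ˢ Metric.closedBall 0 r))

section

variable {G M : Type*} [CommGroup G] [TopologicalSpace G] [TopologicalSpace M] [MulAction G M]

/-- An invariant map of degree one on a cube, an angle near its zero set, and the paths and squares
joining the cube to its translates. -/
structure Family {n : ℕ} (X : Set M) (Φ : M → Fin n → ℝ) (v : M → AddCircle (1 : ℝ)) (p : ℕ)
    (g : G) (η r : ℝ) (c : (Fin n → ℝ) → M) (H : G → ℝ → (Fin n → ℝ) → M)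
    (W : G → G → ℝ → ℝ → (Fin n → ℝ) → M) : Prop where
  pPos : 0 < p
  gTend : Tendsto (fun k : ℕ => g ^ p ^ k) atTop (𝓝 1)
  ηPos : 0 < η
  rPos : 0 < r
  phiCont : ContinuousOn Φ X
  phiInv : ∀ a : G, ∀ y ∈ X, Φ (a • y) = Φ y
  angCont : ContinuousOn v {y | y ∈ X ∧ ‖Φ y‖ ≤ η}
  angInv : ∀ a : G, ∀ y ∈ X, ‖Φ y‖ ≤ η → p • v (a • y) = p • v y
  angGen : ∀ y ∈ X, ‖Φ y‖ ≤ η → v (g • y) = v y + ((1 / p : ℝ) : AddCircle (1 : ℝ))
  Wcont : ContinuousOn (fun q : (G × G) × (ℝ × ℝ × (Fin n → ℝ)) =>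
    W q.1.1 q.1.2 q.2.1 q.2.2.1 q.2.2.2) (Dom G n r)
  Wmem : ∀ a b : G, ∀ s ∈ Icc (0 : ℝ) 1, ∀ t ∈ Icc (0 : ℝ) 1,
    ∀ x ∈ Metric.closedBall (0 : Fin n → ℝ) r, W a b s t x ∈ X
  W0 : ∀ a b : G, ∀ t x, W a b 0 t x = c x
  W1 : ∀ a b : G, ∀ t ∈ Icc (0 : ℝ) 1, ∀ x ∈ Metric.closedBall (0 : Fin n → ℝ) r,
    W a b 1 t x = a • H b t x
  Wb : ∀ a b : G, ∀ s ∈ Icc (0 : ℝ) 1, ∀ x ∈ Metric.closedBall (0 : Fin n → ℝ) r,
    W a b s 0 x = H a s x
  Wt : ∀ a b : G, ∀ s ∈ Icc (0 : ℝ) 1, ∀ x ∈ Metric.closedBall (0 : Fin n → ℝ) r,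
    W a b s 1 x = H (a * b) s x
  H0 : ∀ a : G, ∀ x ∈ Metric.closedBall (0 : Fin n → ℝ) r, H a 0 x = c x
  H1 : ∀ a : G, ∀ x ∈ Metric.closedBall (0 : Fin n → ℝ) r, H a 1 x = a • c x
  Hone : ∀ t ∈ Icc (0 : ℝ) 1, ∀ x ∈ Metric.closedBall (0 : Fin n → ℝ) r, H 1 t x = c x
  bdry : ∀ a b : G, ∀ s ∈ Icc (0 : ℝ) 1, ∀ t ∈ Icc (0 : ℝ) 1, ∀ x : Fin n → ℝ, ‖x‖ = r →
    η ≤ ‖Φ (W a b s t x)‖
  degOne : ∀ t ∈ Icc (0 : ℝ) 1, ∀ x : Fin n → ℝ, ‖x‖ = r →
    η ≤ ‖(1 - t) • Φ (c x) + t • x‖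

/-- Grid parameter. -/
def par (N k : ℕ) : ℝ := (k : ℝ) / N

theorem par_mem {N k : ℕ} (hk : k ≤ N) : par N k ∈ Icc (0 : ℝ) 1 :=
  ⟨by unfold par; positivity, div_le_one_of_le₀ (by exact_mod_cast hk) (Nat.cast_nonneg _)⟩

theorem par_zero (N : ℕ) : par N 0 = 0 := by simp [par]

theorem par_self {N : ℕ} (hN : 0 < N) : par N N = 1 := by simp [par, hN.ne']

variable {n : ℕ} {X : Set M} {Φ : M → Fin n → ℝ} {v : M → AddCircle (1 : ℝ)} {p : ℕ} {g : G}
  {η r : ℝ} {c : (Fin n → ℝ) → M} {H : G → ℝ → (Fin n → ℝ) → M}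
  {W : G → G → ℝ → ℝ → (Fin n → ℝ) → M} {θ : Fin n → ℝ} {c₀ : ℝ} {N : ℕ}

/-- The grid of a square. -/
def Wv (W : G → G → ℝ → ℝ → (Fin n → ℝ) → M) (N : ℕ) (r : ℝ) (a b : G)
    (x : Fin (n + 2) → ℕ) : M :=
  W a b (par N (x 0)) (par N (x 1)) (vert N r (Fin.tail (Fin.tail x)))

/-- The grid of a path. -/
def Hv (H : G → ℝ → (Fin n → ℝ) → M) (N : ℕ) (r : ℝ) (a : G) (x : Fin (n + 1) → ℕ) : M :=
  H a (par N (x 0)) (vert N r (Fin.tail x))

/-- The homotopy to the identity. -/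
def homv (Φ : M → Fin n → ℝ) (c : (Fin n → ℝ) → M) (N : ℕ) (r : ℝ) (x : Fin (n + 1) → ℕ) :
    Fin n → ℝ :=
  (1 - par N (x 0)) • Φ (c (vert N r (Fin.tail x))) + par N (x 0) • vert N r (Fin.tail x)

/-- A grid fine enough for all the maps. -/
def Fine (X : Set M) (Φ : M → Fin n → ℝ) (v : M → AddCircle (1 : ℝ)) (p : ℕ) (η r : ℝ)
    (c : (Fin n → ℝ) → M) (W : G → G → ℝ → ℝ → (Fin n → ℝ) → M) (N : ℕ) : Prop :=
  (∀ (a b : G) (l : List (Fin (n + 2) → ℕ)), Adj N l → Good X Φ v p η (l.map (Wv W N r a b))) ∧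
  ∀ l : List (Fin (n + 1) → ℕ), Adj N l →
    ∀ x ∈ l.map (homv Φ c N r), ∀ y ∈ l.map (homv Φ c N r), dist x y < η / 8

theorem Family.exists_fine [CompactSpace G] [T2Space G] (F : Family X Φ v p g η r c H W) :
    ∃ N, 0 < N ∧ Fine X Φ v p η r c W N := by
  set Dm := Dom G n r with hDm
  have hDc : IsCompact Dm :=
    isCompact_univ.prod (isCompact_Icc.prod (isCompact_Icc.prod (isCompact_closedBall 0 r)))
  have hWD : ∀ q ∈ Dm, W q.1.1 q.1.2 q.2.1 q.2.2.1 q.2.2.2 ∈ X := fun q hq =>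
    F.Wmem _ _ _ hq.2.1 _ hq.2.2.1 _ hq.2.2.2
  have hΦW : ContinuousOn (fun q : (G × G) × (ℝ × ℝ × (Fin n → ℝ)) =>
      Φ (W q.1.1 q.1.2 q.2.1 q.2.2.1 q.2.2.2)) Dm := F.phiCont.comp F.Wcont hWD
  set Dη := Dm ∩ (fun q => ‖Φ (W q.1.1 q.1.2 q.2.1 q.2.2.1 q.2.2.2)‖) ⁻¹' Iic η with hDη
  have hDηc : IsCompact Dη := hDc.of_isClosed_subset
    (hΦW.norm.preimage_isClosed_of_isClosed hDc.isClosed isClosed_Iic) inter_subset_left
  have hvW : ContinuousOn (fun q : (G × G) × (ℝ × ℝ × (Fin n → ℝ)) =>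
      v (W q.1.1 q.1.2 q.2.1 q.2.2.1 q.2.2.2)) Dη :=
    F.angCont.comp (F.Wcont.mono inter_subset_left) fun q hq => ⟨hWD q hq.1, hq.2⟩
  have hp0 : (0 : ℝ) < p := by exact_mod_cast F.pPos
  have hη := F.ηPos
  have hr := F.rPos
  obtain ⟨δ₁, hδ₁, hu₁⟩ := uniform_snd hDc hΦW (ε := η / 8) (by positivity)
  obtain ⟨δ₂, hδ₂, hu₂⟩ := uniform_snd hDηc hvW (ε := 1 / (8 * p)) (by positivity)
  have hΦc : ContinuousOn (fun x => Φ (c x)) (Metric.closedBall 0 r) := by
    have := hΦW.comp (f := fun x : Fin n → ℝ => (((1 : G), (1 : G)), ((0 : ℝ), (0 : ℝ), x)))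
      (s := Metric.closedBall 0 r) (by fun_prop) fun x hx => ⟨mem_univ _, by simp, by simp, hx⟩
    simpa [Function.comp_def, F.W0] using this
  have hhom : ContinuousOn (fun q : ℝ × (Fin n → ℝ) => (1 - q.1) • Φ (c q.2) + q.1 • q.2)
      (Icc 0 1 ×ˢ Metric.closedBall 0 r) :=
    ((continuous_const.sub continuous_fst).continuousOn.smul
      (hΦc.comp continuousOn_snd fun (q : ℝ × (Fin n → ℝ)) hq => hq.2)).add
      (continuous_fst.smul continuous_snd).continuousOn
  obtain ⟨δ₃, hδ₃, hu₃⟩ := Metric.uniformContinuousOn_iff.1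
    ((isCompact_Icc.prod (isCompact_closedBall _ _)).uniformContinuousOn_of_continuous hhom)
    (η / 8) (by positivity)
  set δ := min δ₁ (min δ₂ δ₃) with hδ
  have hδ0 : 0 < δ := lt_min hδ₁ (lt_min hδ₂ hδ₃)
  obtain ⟨N, hN⟩ := exists_nat_gt ((2 * r + 1) / δ)
  have hN0' : (0 : ℝ) < N := lt_of_le_of_lt (by positivity) hN
  have hN0 : 0 < N := by exact_mod_cast hN0'
  have hmesh : (2 * r + 1) / (N : ℝ) < δ := by
    rw [div_lt_iff₀ hN0']; rw [div_lt_iff₀ hδ0] at hN; linarith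
  have hmr : 2 * r / (N : ℝ) < δ :=
    lt_of_le_of_lt (div_le_div_of_nonneg_right (by linarith) hN0'.le) hmesh
  have hmt : 1 / (N : ℝ) < δ :=
    lt_of_le_of_lt (div_le_div_of_nonneg_right (by linarith) hN0'.le) hmesh
  have hpard : ∀ {j k : ℕ}, j ≤ k + 1 → k ≤ j + 1 → dist (par N j) (par N k) < δ := by
    intro j k h h'
    have e1 : (j : ℝ) ≤ k + 1 := by exact_mod_cast h
    have e2 : (k : ℝ) ≤ j + 1 := by exact_mod_cast h'
    have e : par N j - par N k = ((j : ℝ) - k) * (1 / N) := by unfold par; ring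
    rw [Real.dist_eq, e, abs_mul, abs_of_pos (by positivity : (0 : ℝ) < 1 / N)]
    exact (mul_le_of_le_one_left (by positivity)
      (abs_le.2 ⟨by linarith, by linarith⟩)).trans_lt hmt
  have hmem : ∀ {x : Fin (n + 2) → ℕ}, (∀ i, x i ≤ N) → ∀ a b : G,
      (((a, b), (par N (x 0), par N (x 1), vert N r (Fin.tail (Fin.tail x)))) :
        (G × G) × (ℝ × ℝ × (Fin n → ℝ))) ∈ Dm :=
    fun hx a b => ⟨mem_univ _, par_mem (hx _), par_mem (hx _), vert_mem hr.le fun i => hx _⟩
  refine ⟨N, hN0, fun a b l hl => ?_, fun l hl => ?_⟩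
  · have hd : ∀ x ∈ l, ∀ y ∈ l,
        dist ((par N (x 0), par N (x 1), vert N r (Fin.tail (Fin.tail x))) : ℝ × ℝ × (Fin n → ℝ))
          (par N (y 0), par N (y 1), vert N r (Fin.tail (Fin.tail y))) < δ := by
      intro x hx y hy
      simp only [Prod.dist_eq, max_lt_iff]
      exact ⟨hpard (hl.2 x hx y hy 0) (hl.2 y hy x hx 0),
        hpard (hl.2 x hx y hy 1) (hl.2 y hy x hx 1),
        dist_vert hr.le hmr hδ0 (fun i => hl.2 x hx y hy _) (fun i => hl.2 y hy x hx _)⟩
    refine ⟨?_, ?_, ?_⟩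
    · simp only [List.mem_map]
      rintro _ ⟨x, hx, rfl⟩
      exact hWD _ (hmem (hl.1 x hx) a b)
    · simp only [List.mem_map]
      rintro _ ⟨x, hx, rfl⟩ _ ⟨y, hy, rfl⟩
      unfold Wv
      exact hu₁ (a, b) (par N (x 0), par N (x 1), vert N r (Fin.tail (Fin.tail x)))
        (par N (y 0), par N (y 1), vert N r (Fin.tail (Fin.tail y)))
        (hmem (hl.1 x hx) a b) (hmem (hl.1 y hy) a b)
        ((hd x hx y hy).trans_le (min_le_left _ _))
    · simp only [List.mem_map]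
      rintro _ ⟨x, hx, rfl⟩ _ ⟨y, hy, rfl⟩ hxη hyη
      unfold Wv at hxη hyη ⊢
      exact hu₂ (a, b) (par N (x 0), par N (x 1), vert N r (Fin.tail (Fin.tail x)))
        (par N (y 0), par N (y 1), vert N r (Fin.tail (Fin.tail y)))
        ⟨hmem (hl.1 x hx) a b, hxη⟩ ⟨hmem (hl.1 y hy) a b, hyη⟩
        ((hd x hx y hy).trans_le ((min_le_right _ _).trans (min_le_left _ _)))
  · simp only [List.mem_map]
    rintro _ ⟨x, hx, rfl⟩ _ ⟨y, hy, rfl⟩
    unfold homv
    refine hu₃ (par N (x 0), vert N r (Fin.tail x))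
      ⟨par_mem (hl.1 x hx 0), vert_mem hr.le fun i => hl.1 x hx _⟩
      (par N (y 0), vert N r (Fin.tail y))
      ⟨par_mem (hl.1 y hy 0), vert_mem hr.le fun i => hl.1 y hy _⟩ ?_
    simp only [Prod.dist_eq, max_lt_iff]
    have hδ3 : δ ≤ δ₃ := (min_le_right _ _).trans (min_le_right _ _)
    exact ⟨(hpard (hl.2 x hx y hy 0) (hl.2 y hy x hx 0)).trans_le hδ3,
      (dist_vert hr.le hmr hδ0 (fun i => hl.2 x hx y hy _)
        (fun i => hl.2 y hy x hx _)).trans_le hδ3⟩

/-- The homomorphism: the integral of `Ω` over the prism `H a`. -/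
def dInt (Φ : M → Fin n → ℝ) (v : M → AddCircle (1 : ℝ)) (θ : Fin n → ℝ) (p : ℕ) (c₀ : ℝ)
    (H : G → ℝ → (Fin n → ℝ) → M) (N : ℕ) (r : ℝ) (a : G) : ℤ :=
  integ N (n + 1) fun l => omegaC Φ v θ p c₀ (l.map (Hv H N r a))

theorem Adj.map_lvl₁ {l : List (Fin (n + 1) → ℕ)} (hl : Adj N l) {k : ℕ} (hk : k ≤ N) :
    Adj N (l.map (lvl₁ k)) := by
  constructor
  · simp only [List.mem_map]
    rintro _ ⟨x, hx, rfl⟩ i
    induction i using Fin.cases with
    | zero => simpa [lvl₁] using hl.1 x hx 0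
    | succ i => induction i using Fin.cases with
      | zero => simpa [lvl₁] using hk
      | succ i => simpa [lvl₁, Fin.tail] using hl.1 x hx i.succ
  · simp only [List.mem_map]
    rintro _ ⟨x, hx, rfl⟩ _ ⟨y, hy, rfl⟩ i
    induction i using Fin.cases with
    | zero => simpa [lvl₁] using hl.2 x hx y hy 0
    | succ i => induction i using Fin.cases with
      | zero => simp [lvl₁]
      | succ i => simpa [lvl₁, Fin.tail] using hl.2 x hx y hy i.succ

theorem Family.Wv_edges (F : Family X Φ v p g η r c H W) (hN : 0 < N) (a b : G)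
    {x : Fin (n + 1) → ℕ} (hx : ∀ i, x i ≤ N) :
    Wv W N r a b (lvl N x) = a • Hv H N r b x ∧
    Wv W N r a b (lvl 0 x) = c (vert N r (Fin.tail x)) ∧
    Wv W N r a b (lvl₁ N x) = Hv H N r (a * b) x ∧ Wv W N r a b (lvl₁ 0 x) = Hv H N r a x := by
  have hq : vert N r (Fin.tail x) ∈ Metric.closedBall (0 : Fin n → ℝ) r :=
    vert_mem F.rPos.le fun i => hx _
  refine ⟨?_, ?_, ?_, ?_⟩
  · simpa [Wv, Hv, lvl, par_self hN] using F.W1 a b _ (par_mem (hx 0)) _ hq
  · simpa [Wv, Hv, lvl, par_zero] using F.W0 a b (par N (x 0)) _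
  · simpa [Wv, Hv, lvl₁, par_self hN] using F.Wt a b _ (par_mem (hx 0)) _ hq
  · simpa [Wv, Hv, lvl₁, par_zero] using F.Wb a b _ (par_mem (hx 0)) _ hq

theorem Family.good_Hv (F : Family X Φ v p g η r c H W) (hN : 0 < N)
    (hF : Fine X Φ v p η r c W N) (a : G) {l : List (Fin (n + 1) → ℕ)} (hl : Adj N l) :
    Good X Φ v p η (l.map (Hv H N r a)) := by
  have := hF.1 a 1 _ (hl.map_lvl₁ (Nat.zero_le _))
  rwa [List.map_map, List.map_congr_left (f := Wv W N r a 1 ∘ lvl₁ 0) (g := Hv H N r a)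
    fun x hx => (F.Wv_edges hN a 1 (hl.1 x hx)).2.2.2] at this

theorem Family.dInt_mul (F : Family X Φ v p g η r c H W) (hN : 0 < N)
    (hF : Fine X Φ v p η r c W N) (hθ : ∀ i, |θ i| < η / 8) (a b : G) :
    dInt Φ v θ p c₀ H N r (a * b) = dInt Φ v θ p c₀ H N r a + dInt Φ v θ p c₀ H N r b := by
  have h0 : integ N (n + 2) (cbd fun l => omegaC Φ v θ p c₀ (l.map (Wv W N r a b))) = 0 :=
    integ_eq_zero fun l hl _ => by
      rw [cbd_comp_map]; exact (hF.1 a b l hl).cbd_omegaC F.ηPos hθ F.pPos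
  rw [integ_cbd, bd_square] at h0
  · have e1 : integ N (n + 1)
        (fun l => omegaC Φ v θ p c₀ ((l.map (lvl N)).map (Wv W N r a b))) =
        dInt Φ v θ p c₀ H N r b := by
      refine integ_congr fun l hl _ => ?_
      rw [← (F.good_Hv hN hF b hl).omegaC_smul F.ηPos hθ F.phiInv F.angInv a,
        List.map_map, List.map_map]
      exact congrArg _ (List.map_congr_left fun x hx => (F.Wv_edges hN a b (hl.1 x hx)).1)
    have e0 : integ N (n + 1)
        (fun l => omegaC Φ v θ p c₀ ((l.map (lvl 0)).map (Wv W N r a b))) = 0 := by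
      refine Finset.sum_eq_zero fun k hk => integ_eq_zero fun l hl _ => ?_
      refine prism_eq_zero (Finset.mem_range.1 hk) _ l hl fun l₁ y l₂ _ _ hadj => ?_
      have heq : Wv W N r a b (lvl 0 (lvl k y)) = Wv W N r a b (lvl 0 (lvl (k + 1) y)) := by
        rw [(F.Wv_edges hN a b (hadj.1 (lvl k y) (by simp))).2.1,
          (F.Wv_edges hN a b (hadj.1 (lvl (k + 1) y) (by simp))).2.1]
        simp [lvl]
      simp only [List.map_append, List.map_cons, heq]
      exact omegaC_repeat _ _ _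
    have e2 : integ N (n + 1)
        (fun l => omegaC Φ v θ p c₀ ((l.map (lvl₁ N)).map (Wv W N r a b))) =
        dInt Φ v θ p c₀ H N r (a * b) := by
      refine integ_congr fun l hl _ => ?_
      rw [List.map_map]
      exact congrArg _ (List.map_congr_left fun x hx => (F.Wv_edges hN a b (hl.1 x hx)).2.2.1)
    have e3 : integ N (n + 1)
        (fun l => omegaC Φ v θ p c₀ ((l.map (lvl₁ 0)).map (Wv W N r a b))) =
        dInt Φ v θ p c₀ H N r a := by
      refine integ_congr fun l hl _ => ?_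
      rw [List.map_map]
      exact congrArg _ (List.map_congr_left fun x hx => (F.Wv_edges hN a b (hl.1 x hx)).2.2.2)
    simp only [e1, e0, e2, e3] at h0
    linarith
  · intro l hl _ i hi
    refine (hF.1 a b l hl).omegaC_big F.ηPos hθ ?_
    simp only [List.mem_map]
    rintro _ ⟨x, hx, rfl⟩
    refine F.bdry _ _ _ (par_mem (hl.1 x hx 0)) _ (par_mem (hl.1 x hx 1)) _
      (norm_vert_face hN F.rPos.le (fun j => hl.1 x hx _) (i := i) ?_)
    rcases hi with hi | hi
    · exact Or.inl (hi x hx)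
    · exact Or.inr (hi x hx)

theorem Family.eventually_fine [CompactSpace G] (F : Family X Φ v p g η r c H W) {k : ℕ}
    (hk : k ≤ N) {x : Fin n → ℕ} (hx : ∀ i, x i ≤ N)
    (hne : ∀ i, θ i ≠ Φ (c (vert N r x)) i)
    (hc₀ : fAng v p c₀ (c (vert N r x)) ≠ 0) :
    ∀ᶠ a in 𝓝 (1 : G), (∀ i, stepAt (θ i) (Φ (H a (par N k) (vert N r x)) i) =
        stepAt (θ i) (Φ (c (vert N r x)) i)) ∧
      (‖Φ (H a (par N k) (vert N r x))‖ ≤ 3 * η / 4 →
        ∃ d : ℝ, |d| < 1 / 8 ∧
          fAng v p c₀ (H a (par N k) (vert N r x)) = fAng v p c₀ (c (vert N r x)) + d) := by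
  have hq : vert N r x ∈ Metric.closedBall (0 : Fin n → ℝ) r := vert_mem F.rPos.le hx
  set y₀ := c (vert N r x) with hy₀
  set w : G → M := fun a => H a (par N k) (vert N r x) with hw
  have hwW : ∀ a, w a = W a 1 (par N k) 0 (vert N r x) := fun a =>
    (F.Wb a 1 _ (par_mem hk) _ hq).symm
  have hwX : ∀ a, w a ∈ X := fun a => by
    rw [hwW]; exact F.Wmem _ _ _ (par_mem hk) _ (by simp) _ hq
  have hin : ∀ a : G, (((a, (1 : G)), (par N k, (0 : ℝ), vert N r x)) :
      (G × G) × (ℝ × ℝ × (Fin n → ℝ))) ∈ Dom G n r :=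
    fun a => ⟨mem_univ _, par_mem hk, by simp, hq⟩
  have hwc : Continuous w := by
    rw [funext hwW]
    exact F.Wcont.comp_continuous (by fun_prop) hin
  have hΦw : Continuous fun a => Φ (w a) := F.phiCont.comp_continuous hwc hwX
  have hw1 : w 1 = y₀ := F.Hone _ (par_mem hk) _ hq
  have h1 : ∀ᶠ a in 𝓝 (1 : G), ∀ i, stepAt (θ i) (Φ (w a) i) = stepAt (θ i) (Φ y₀ i) := by
    rw [eventually_all]
    intro i
    have hci : Tendsto (fun a => Φ (w a) i) (𝓝 1) (𝓝 (Φ y₀ i)) := by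
      have := ((continuous_apply i).comp hΦw).tendsto 1
      simpa [Function.comp_def, hw1] using this
    rcases lt_or_gt_of_ne (hne i) with h | h
    · filter_upwards [hci.eventually (eventually_gt_nhds h)] with a ha
      simp [stepAt, h, ha]
    · filter_upwards [hci.eventually (eventually_lt_nhds h)] with a ha
      simp [stepAt, h.not_gt, ha.not_gt]
  have hp0 : (0 : ℝ) < p := by exact_mod_cast F.pPos
  by_cases hy : ‖Φ y₀‖ < η
  · set m := min (fAng v p c₀ y₀) (1 - fAng v p c₀ y₀) with hm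
    have hm0 : 0 < m := lt_min (lt_of_le_of_ne (Int.fract_nonneg _) hc₀.symm)
      (sub_pos.2 (Int.fract_lt_one _))
    have hO : ∀ᶠ a in 𝓝 (1 : G), ‖Φ (w a)‖ < η :=
      (hΦw.norm.tendsto 1).eventually (eventually_lt_nhds (by simpa [hw1] using hy))
    have hvw : ContinuousOn (fun a => v (w a)) {a | ‖Φ (w a)‖ ≤ η} :=
      F.angCont.comp hwc.continuousOn fun a ha => ⟨hwX a, ha⟩
    have hvt : Tendsto (fun a => v (w a)) (𝓝 1) (𝓝 (v y₀)) := by
      have := (hvw.continuousAt (x := (1 : G)) (hO.mono fun a ha => le_of_lt ha)).tendsto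
      rwa [hw1] at this
    have hclose : ∀ᶠ a in 𝓝 (1 : G), dist (v (w a)) (v y₀) < min m (1 / 8) / p :=
      hvt.eventually (Metric.ball_mem_nhds _ (by positivity))
    filter_upwards [h1, hclose] with a ha hd
    refine ⟨ha, fun _ => ?_⟩
    set d := fAng v p c₀ (w a) - fAng v p c₀ y₀ - round (fAng v p c₀ (w a) - fAng v p c₀ y₀)
      with hdd
    have hd' : |d| < min m (1 / 8) := dist_nsmul_lt F.pPos hd
    refine ⟨d, hd'.trans_le (min_le_right _ _), ?_⟩
    have hd'' := abs_lt.1 (hd'.trans_le (min_le_left _ _))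
    have hwf : Int.fract (fAng v p c₀ (w a)) = fAng v p c₀ (w a) := Int.fract_fract _
    have hyf : Int.fract (fAng v p c₀ y₀) = fAng v p c₀ y₀ := Int.fract_fract _
    have := fract_eq_add (round (fAng v p c₀ (w a) - fAng v p c₀ y₀)) (y := fAng v p c₀ y₀)
      (y' := fAng v p c₀ (w a)) (d := d) (by rw [hdd]; ring)
      (by rw [hyf]; linarith [min_le_left (fAng v p c₀ y₀) (1 - fAng v p c₀ y₀), hd''.1])
      (by rw [hyf]; linarith [min_le_right (fAng v p c₀ y₀) (1 - fAng v p c₀ y₀), hd''.2])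
    rwa [hwf, hyf] at this
  · have hbig : 3 * η / 4 < ‖Φ (w 1)‖ := by rw [hw1]; linarith [not_lt.1 hy, F.ηPos]
    filter_upwards [h1, (hΦw.norm.tendsto 1).eventually (eventually_gt_nhds hbig)] with a ha hb
    exact ⟨ha, fun h => absurd h (not_le.2 hb)⟩

theorem Family.dInt_eventually [CompactSpace G] (F : Family X Φ v p g η r c H W) (hN : 0 < N)
    (hF : Fine X Φ v p η r c W N) (hθ : ∀ i, |θ i| < η / 8)
    (hne : ∀ x : Fin n → ℕ, (∀ i, x i ≤ N) →
      (∀ i, θ i ≠ Φ (c (vert N r x)) i) ∧ fAng v p c₀ (c (vert N r x)) ≠ 0) :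
    ∀ᶠ a in 𝓝 (1 : G), dInt Φ v θ p c₀ H N r a = 0 := by
  have hev' := (Finset.range (N + 1)).eventually_all.2 fun k hk =>
    (Fintype.piFinset fun _ : Fin n => Finset.range (N + 1)).eventually_all.2 fun x hx =>
      F.eventually_fine (θ := θ) (c₀ := c₀) (N := N) (k := k) (x := x)
        (by have := Finset.mem_range.1 hk; omega)
        (fun i => by have := Finset.mem_range.1 (Fintype.mem_piFinset.1 hx i); omega)
        (hne x fun i => by have := Finset.mem_range.1 (Fintype.mem_piFinset.1 hx i); omega).1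
        (hne x fun i => by have := Finset.mem_range.1 (Fintype.mem_piFinset.1 hx i); omega).2
  filter_upwards [hev'] with a ha
  rw [dInt, integ]
  refine Finset.sum_eq_zero fun k hk => integ_eq_zero fun l hl _ => ?_
  refine prism_eq_zero (Finset.mem_range.1 hk) _ l hl fun l₁ y l₂ _ _ hadj => ?_
  have hk1 : k < N := Finset.mem_range.1 hk
  have hy : y ∈ Fintype.piFinset fun _ : Fin n => Finset.range (N + 1) :=
    Fintype.mem_piFinset.2 fun i => Finset.mem_range.2 (by
      have := hadj.1 (lvl k y) (by simp) i.succ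
      simp [lvl] at this
      omega)
  obtain ⟨hs1, hd1⟩ := ha k (Finset.mem_range.2 (by omega)) y hy
  obtain ⟨hs2, hd2⟩ := ha (k + 1) (Finset.mem_range.2 (by omega)) y hy
  set P := Hv H N r a (lvl k y) with hP
  set Q := Hv H N r a (lvl (k + 1) y) with hQ
  have hsame : ∀ i, stepAt (θ i) (Φ P i) = stepAt (θ i) (Φ Q i) := fun i => by
    simpa [hP, hQ, Hv, lvl] using (hs1 i).trans (hs2 i).symm
  have hμz : ∀ m₁ m₂, muC Φ θ (m₁ ++ P :: Q :: m₂) = 0 := fun m₁ m₂ => by
    simp only [muC, List.map_append, List.map_cons]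
    exact tau_append_eq_zero hsame _ _
  have hgood := F.good_Hv hN hF a hadj
  simp only [List.map_append, List.map_cons, ← hP, ← hQ] at hgood ⊢
  generalize l₁.map (Hv H N r a) = m₁ at hgood ⊢
  rcases m₁ with _ | ⟨w₀, _ | ⟨w₁, rest⟩⟩
  · rw [List.nil_append] at hgood ⊢
    rw [omegaC, cup_cons_cons]
    by_cases hz : muC Φ θ (Q :: l₂.map (Hv H N r a)) = 0
    · rw [hz, mul_zero]
    have hsmall := hgood.tail.small F.ηPos hθ hz Q List.mem_cons_self
    have hmin := hgood.near F.ηPos (x := P) List.mem_cons_self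
      (List.mem_cons_of_mem _ List.mem_cons_self) hsmall
    obtain ⟨d₂, hd₂, hf₂⟩ := hd2 (by
      have : ‖Φ Q‖ ≤ 3 * η / 4 := by linarith [F.ηPos]
      simpa [hQ, Hv, lvl] using this)
    obtain ⟨d₁, hd₁, hf₁⟩ := hd1 (by simpa [hP, Hv, lvl] using hmin.2)
    have : eAng v p c₀ P Q = 0 := by
      simp only [eAng, hP, hQ, Hv, lvl, Fin.cons_zero, Fin.tail_cons, hf₁, hf₂]
      rw [abs_lt] at hd₁ hd₂
      exact round_eq_zero_iff.2 ⟨by linarith, by linarith⟩
    rw [this, zero_mul]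
  · simp [omegaC, cup_cons_cons, show muC Φ θ (P :: Q :: _) = 0 from hμz [] _]
  · simp [omegaC, cup_cons_cons, show muC Φ θ (w₁ :: (rest ++ P :: Q :: _)) = 0 from
      hμz (w₁ :: rest) _]

theorem Family.integ_base (F : Family X Φ v p g η r c H W) (hN : 0 < N)
    (hF : Fine X Φ v p η r c W N) (hθ : ∀ i, |θ i| < η / 8) (hθr : ∀ i, |θ i| < r) :
    integ N n (fun l => muC Φ θ (l.map fun x => c (vert N r x))) = 1 := by
  have h0 : integ N (n + 1) (cbd fun l => tau n θ (l.map (homv Φ c N r))) = 0 :=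
    integ_eq_zero fun l _ _ => by rw [cbd_comp_map, cbd_tau]
  rw [integ_cbd, bd_cylinder] at h0
  · have hone : integ N n (fun l => tau n θ ((l.map (lvl N)).map (homv Φ c N r))) = 1 := by
      rw [← integ_tau hN n θ hθr]
      refine integ_congr fun l _ _ => ?_
      rw [List.map_map]
      refine congrArg _ (List.map_congr_left fun x _ => ?_)
      simp [homv, lvl, par_self hN]
    have hzero : integ N n (fun l => tau n θ ((l.map (lvl 0)).map (homv Φ c N r))) =
        integ N n (fun l => muC Φ θ (l.map fun x => c (vert N r x))) := by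
      refine integ_congr fun l _ _ => ?_
      simp only [muC, List.map_map]
      refine congrArg _ (List.map_congr_left fun x _ => ?_)
      simp [homv, lvl, par_zero]
    rw [hone, hzero] at h0
    linarith
  · intro l hl hlen i hi
    by_contra hne
    obtain ⟨x, hx⟩ := List.exists_mem_of_length_pos (l := l) (by omega)
    have hη := F.ηPos
    have hb := norm_le_of_tau (by positivity) (by positivity) (fun i => (hθ i).le)
      (fun a ha b hb => (hF.2 l hl a ha b hb).le) hne (homv Φ c N r x) (List.mem_map_of_mem hx)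
    have hface : ‖vert N r (Fin.tail x)‖ = r := norm_vert_face hN F.rPos.le
      (fun j => hl.1 x hx _) (i := i)
      (by rcases hi with hi | hi; exacts [Or.inl (hi x hx), Or.inr (hi x hx)])
    have := F.degOne (par N (x 0)) (par_mem (hl.1 x hx 0)) _ hface
    simp only [homv] at hb
    linarith

theorem Family.dInt_gen (F : Family X Φ v p g η r c H W) (hN : 0 < N)
    (hF : Fine X Φ v p η r c W N) (hθ : ∀ i, |θ i| < η / 8) :
    (p : ℤ) ∣ dInt Φ v θ p c₀ H N r g -
      integ N n (fun l => muC Φ θ (l.map fun x => c (vert N r x))) := by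
  set ν : List M → ℤ := smul0 (sAng v p c₀) (muC Φ θ) with hν
  set base : List (Fin n → ℕ) → ℤ := fun l => muC Φ θ (l.map fun x => c (vert N r x)) with hbase
  have hη := F.ηPos
  have hνc : (p : ℤ) ∣ dInt Φ v θ p c₀ H N r g -
      integ N (n + 1) (cbd fun l => ν (l.map (Hv H N r g))) := by
    refine integ_dvd fun l hl hlen => ?_
    rw [cbd_comp_map]
    have hgood := F.good_Hv hN hF g hl
    obtain ⟨x, y, m, hm⟩ : ∃ x y m, l.map (Hv H N r g) = x :: y :: m := by
      match l, hlen with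
      | x :: y :: m, _ => exact ⟨_, _, _, rfl⟩
    rw [hm] at hgood ⊢
    have hμ : cbd (muC Φ θ) (x :: y :: m) = 0 :=
      (cbd_comp_map Φ (tau n θ) (x :: y :: m)).trans (cbd_tau n θ _)
    rw [hν, cbd_smul0, hμ, mul_zero, add_zero, omegaC, cup_cons_cons, ← sub_mul]
    by_cases hz : muC Φ θ (y :: m) = 0
    · rw [hz, mul_zero]; exact dvd_zero _
    have hys := hgood.tail.small hη hθ hz y List.mem_cons_self
    exact Dvd.dvd.mul_right (eAng_dvd F.pPos (hgood.ang x List.mem_cons_self y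
      (List.mem_cons_of_mem _ List.mem_cons_self)
      (hgood.near hη List.mem_cons_self (List.mem_cons_of_mem _ List.mem_cons_self) hys).1
      (by linarith))) _
  rw [integ_cbd, bd_cylinder] at hνc
  · have hend : (p : ℤ) ∣ (integ N n (fun l => ν ((l.map (lvl N)).map (Hv H N r g))) -
        integ N n (fun l => ν ((l.map (lvl 0)).map (Hv H N r g)))) - integ N n base := by
      rw [← integ_sub]
      refine integ_dvd fun l hl hlen => ?_
      obtain ⟨x, m, rfl⟩ : ∃ x m, l = x :: m := by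
        match l, hlen with
        | x :: m, _ => exact ⟨x, m, rfl⟩
      have hl1 : ∀ z ∈ x :: m, Hv H N r g (lvl N z) = g • c (vert N r z) ∧
          Hv H N r g (lvl 0 z) = c (vert N r z) := fun z hz => by
        have hq : vert N r z ∈ Metric.closedBall (0 : Fin n → ℝ) r := vert_mem F.rPos.le (hl.1 z hz)
        exact ⟨by simpa [Hv, lvl, par_self hN] using F.H1 g _ hq,
          by simpa [Hv, lvl, par_zero] using F.H0 g _ hq⟩
      have hgood : Good X Φ v p η ((x :: m).map fun z => c (vert N r z)) := by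
        have h2 : Adj N ((x :: m).map (lvl 0)) := hl.prism_mem (a := 0) hN (by
          intro z hz
          obtain ⟨w, hw, rfl⟩ := List.mem_map.1 hz
          exact ⟨w, hw, Or.inl rfl⟩)
        have := F.good_Hv hN hF g h2
        rwa [List.map_map, List.map_congr_left (f := Hv H N r g ∘ lvl 0)
          (g := fun z => c (vert N r z)) fun z hz => (hl1 z hz).2] at this
      rw [List.map_map, List.map_map, List.map_congr_left (f := Hv H N r g ∘ lvl N)
        (g := fun z => g • c (vert N r z)) fun z hz => (hl1 z hz).1,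
        List.map_congr_left (f := Hv H N r g ∘ lvl 0)
        (g := fun z => c (vert N r z)) fun z hz => (hl1 z hz).2]
      have hμg : muC Φ θ ((x :: m).map fun z => g • c (vert N r z)) = base (x :: m) := by
        simp only [hbase, muC, List.map_map]
        congr 1
        exact List.map_congr_left fun z hz =>
          F.phiInv g _ (hgood.mem _ (List.mem_map_of_mem hz))
      set y := c (vert N r x) with hy
      change (p : ℤ) ∣ sAng v p c₀ (g • y) * muC Φ θ ((x :: m).map fun z => g • c (vert N r z)) -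
        sAng v p c₀ y * base (x :: m) - base (x :: m)
      rw [hμg]
      by_cases hz : base (x :: m) = 0
      · simp [hz]
      have hys := hgood.small hη hθ hz y (List.mem_map_of_mem List.mem_cons_self)
      obtain ⟨k, hk⟩ := sAng_shift (c₀ := c₀) F.pPos
        (F.angGen y (hgood.mem y (List.mem_map_of_mem List.mem_cons_self)) (by linarith))
      rw [hk]
      exact ⟨k * base (x :: m), by ring⟩
    have := dvd_add hνc hend
    rwa [sub_add_sub_cancel] at this
  · intro l hl hlen i hi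
    by_contra h
    match l, hlen with
    | z :: m, _ =>
      refine (mul_ne_zero_iff.1 h).2 ((F.good_Hv hN hF g hl).muC_big hη hθ
        (x := Hv H N r g z) (List.mem_map_of_mem List.mem_cons_self) ?_)
      have hz := hl.1 z List.mem_cons_self
      rw [Hv, ← F.Wb g 1 _ (par_mem (hz 0)) _ (vert_mem F.rPos.le (v := Fin.tail z) fun j => hz _)]
      refine F.bdry _ _ _ (par_mem (hz 0)) _ (by simp) _
        (norm_vert_face hN F.rPos.le (fun j => hz _) (i := i) ?_)
      rcases hi with hi | hi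
      · exact Or.inl (hi z List.mem_cons_self)
      · exact Or.inr (hi z List.mem_cons_self)

/-- **No equivariant angle.** -/
theorem Family.false [CompactSpace G] [T2Space G] (hp : 2 ≤ p)
    (F : Family X Φ v p g η r c H W) : False := by
  classical
  obtain ⟨N, hN, hF⟩ := F.exists_fine
  have hη := F.ηPos
  have hr := F.rPos
  set P := (Fintype.piFinset fun _ : Fin n => Finset.range (N + 1)).image
    fun x => vert N r x with hPdef
  have hP : ∀ x : Fin n → ℕ, (∀ i, x i ≤ N) → vert N r x ∈ P := fun x hx =>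
    Finset.mem_image_of_mem _ (Fintype.mem_piFinset.2 fun i =>
      Finset.mem_range.2 (by have := hx i; omega))
  choose θ hθ hθP using fun i : Fin n =>
    exists_avoid (P.image fun z => Φ (c z) i) (a := min (η / 8) r) (by positivity)
  obtain ⟨c₀, hc₀, hc₀P⟩ := (Ico_infinite (zero_lt_one' ℝ)).exists_notMem_finset
    (P.image fun z => Int.fract (-((p : ℝ) * rep v (c z))))
  have hne : ∀ x : Fin n → ℕ, (∀ i, x i ≤ N) →
      (∀ i, θ i ≠ Φ (c (vert N r x)) i) ∧ fAng v p c₀ (c (vert N r x)) ≠ 0 := by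
    intro x hx
    refine ⟨fun i h => hθP i (Finset.mem_image.2 ⟨_, hP x hx, h.symm⟩), fun h0 => ?_⟩
    obtain ⟨z, hz⟩ := Int.fract_eq_zero_iff.1 h0
    refine hc₀P (Finset.mem_image.2 ⟨_, hP x hx, ?_⟩)
    rw [Int.fract_eq_iff]
    exact ⟨hc₀.1, hc₀.2, -z, by push_cast; linarith⟩
  have hθη : ∀ i, |θ i| < η / 8 := fun i => (hθ i).trans_le (min_le_left _ _)
  set D := dInt Φ v θ p c₀ H N r with hD
  have hadd : ∀ a b, D (a * b) = D a + D b := F.dInt_mul hN hF hθη
  have hD1 : D 1 = 0 := by have := hadd 1 1; rw [mul_one] at this; linarith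
  have hpow : ∀ k : ℕ, D (g ^ k) = k * D g := fun k => by
    induction k with
    | zero => simpa using hD1
    | succ k ih => rw [pow_succ, hadd, ih]; push_cast; ring
  have hDg : D g = 0 := by
    obtain ⟨k, hk⟩ := (F.gTend.eventually (F.dInt_eventually hN hF hθη hne)).exists
    rw [← hD, hpow] at hk
    have hp0 : 0 < p := F.pPos
    exact (mul_eq_zero.1 hk).resolve_left (by positivity)
  have h := F.dInt_gen (c₀ := c₀) hN hF hθη
  rw [F.integ_base hN hF hθη (fun i => (hθ i).trans_le (min_le_right _ _)), ← hD, hDg,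
    zero_sub, dvd_neg] at h
  have := Int.le_of_dvd one_pos h
  omega

end

end

end Vale.Agent.P228.HS
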