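import Mathlib

/-!
# P228: a Lipschitz shear flattening the outside of a ball at a point of its boundary
-/

namespace Vale.Agent.P228.HS

open Set
open scoped NNReal

noncomputable section

variable {n : ℕ}

/-- Truncation to `[-1, 1]`. -/
def trunc (t : ℝ) : ℝ := max (-1) (min 1 t)

theorem trunc_eq {t : ℝ} (h : |t| ≤ 1) : trunc t = t := by
  rw [trunc, min_eq_right (abs_le.1 h).2, max_eq_right (abs_le.1 h).1]

theorem abs_trunc_le (t : ℝ) : |trunc t| ≤ 1 :=
  abs_le.2 ⟨le_max_left _ _, max_le (by norm_num) (min_le_left _ _)⟩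

theorem abs_trunc_sq_sub (a b : ℝ) : |trunc a ^ 2 - trunc b ^ 2| ≤ 2 * |a - b| := by
  have h1 : |trunc a - trunc b| ≤ |a - b| := by
    unfold trunc
    refine (abs_max_sub_max_le_max _ _ _ _).trans ?_
    simp only [sub_self, abs_zero]
    refine max_le (abs_nonneg _) ((abs_min_sub_min_le_max _ _ _ _).trans ?_)
    simp
  have h2 : |trunc a + trunc b| ≤ 2 :=
    (abs_add_le _ _).trans (by linarith [abs_trunc_le a, abs_trunc_le b])
  rw [show trunc a ^ 2 - trunc b ^ 2 = (trunc a + trunc b) * (trunc a - trunc b) by ring, abs_mul]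
  exact mul_le_mul h2 h1 (abs_nonneg _) (by norm_num)

/-- The contribution of the coordinates other than `i₀`. -/
def restTerm (i₀ : Fin n) (m : Fin n → ℝ) (C : ℝ) (d : Fin n → ℝ) : ℝ :=
  ∑ i ∈ Finset.univ.erase i₀, (m i * d i + C * trunc (d i) ^ 2)

theorem restTerm_update (i₀ : Fin n) (m : Fin n → ℝ) (C v : ℝ) (d : Fin n → ℝ) :
    restTerm i₀ m C (Function.update d i₀ v) = restTerm i₀ m C d :=
  Finset.sum_congr rfl fun i hi => by
    rw [Function.update_of_ne (Finset.ne_of_mem_erase hi)]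

/-- The shear replacing coordinate `i₀` by `⟨m, w - x'⟩ + C ∑ trunc²`. -/
def shear (i₀ : Fin n) (m : Fin n → ℝ) (hm : m i₀ ≠ 0) (x' : Fin n → ℝ) (C : ℝ) :
    (Fin n → ℝ) ≃ₜ (Fin n → ℝ) where
  toFun w := Function.update (w - x') i₀ (m i₀ * (w - x') i₀ + restTerm i₀ m C (w - x'))
  invFun v := Function.update v i₀ ((v i₀ - restTerm i₀ m C v) / m i₀) + x'
  left_inv w := by
    simp only [Function.update_self, restTerm_update, add_sub_cancel_right, Function.update_idem,
      mul_div_cancel_left₀ _ hm, Function.update_eq_self, sub_add_cancel]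
  right_inv v := by
    simp only [add_sub_cancel_right, Function.update_self, restTerm_update, mul_div_cancel₀ _ hm,
      sub_add_cancel, Function.update_idem, Function.update_eq_self]
  continuous_toFun := by
    refine Continuous.update (by fun_prop) i₀ ?_
    unfold restTerm trunc
    fun_prop
  continuous_invFun := by
    refine (Continuous.update continuous_id i₀ ?_).add continuous_const
    unfold restTerm trunc
    fun_prop

theorem shear_apply (i₀ : Fin n) (m : Fin n → ℝ) (hm : m i₀ ≠ 0) (x' : Fin n → ℝ) (C : ℝ)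
    (w : Fin n → ℝ) : shear i₀ m hm x' C w =
      Function.update (w - x') i₀ (m i₀ * (w - x') i₀ + restTerm i₀ m C (w - x')) := rfl

theorem shear_self (i₀ : Fin n) (m : Fin n → ℝ) (hm : m i₀ ≠ 0) (x' : Fin n → ℝ) (C : ℝ) :
    shear i₀ m hm x' C x' = 0 := by
  rw [shear_apply]
  simp [restTerm, trunc]

theorem shear_lipschitz (i₀ : Fin n) (m : Fin n → ℝ) (hm : m i₀ ≠ 0) (x' : Fin n → ℝ) (C : ℝ) :
    ∃ K : ℝ≥0, LipschitzWith K (shear i₀ m hm x' C) := by
  refine ⟨Real.toNNReal (1 + |m i₀| + ∑ i, (|m i| + 2 * |C|)), LipschitzWith.of_dist_le_mul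
    fun a b => ?_⟩
  have hS : 0 ≤ ∑ i, (|m i| + 2 * |C|) := Finset.sum_nonneg fun i _ => by positivity
  rw [Real.coe_toNNReal _ (by positivity), dist_pi_le_iff (by positivity)]
  intro i
  have hd : ∀ j, |a j - b j| ≤ dist a b := fun j =>
    (Real.dist_eq _ _).symm.trans_le (dist_le_pi_dist a b j)
  rw [shear_apply, shear_apply, Real.dist_eq]
  by_cases hi : i = i₀
  · subst hi
    rw [Function.update_self, Function.update_self, restTerm, restTerm]
    simp only [Pi.sub_apply]
    rw [add_sub_add_comm, ← Finset.sum_sub_distrib]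
    refine (abs_add_le _ _).trans ?_
    have e1 : |m i * (a i - x' i) - m i * (b i - x' i)| ≤ |m i| * dist a b := by
      rw [← mul_sub, abs_mul, sub_sub_sub_cancel_right]
      exact mul_le_mul_of_nonneg_left (hd i) (abs_nonneg _)
    have e2 : |∑ j ∈ Finset.univ.erase i, ((m j * (a j - x' j) + C * trunc (a j - x' j) ^ 2) -
        (m j * (b j - x' j) + C * trunc (b j - x' j) ^ 2))| ≤
        (∑ j, (|m j| + 2 * |C|)) * dist a b := by
      refine (Finset.abs_sum_le_sum_abs _ _).trans ?_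
      rw [Finset.sum_mul]
      refine (Finset.sum_le_sum fun j _ => ?_).trans (Finset.sum_le_sum_of_subset_of_nonneg
        (Finset.erase_subset _ _) fun j _ _ => by positivity)
      have h1 := abs_trunc_sq_sub (a j - x' j) (b j - x' j)
      rw [sub_sub_sub_cancel_right] at h1
      have h2 := hd j
      calc |(m j * (a j - x' j) + C * trunc (a j - x' j) ^ 2) -
          (m j * (b j - x' j) + C * trunc (b j - x' j) ^ 2)|
          = |m j * (a j - b j) + C * (trunc (a j - x' j) ^ 2 - trunc (b j - x' j) ^ 2)| := by ring_nf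
        _ ≤ |m j| * |a j - b j| + |C| * (2 * |a j - b j|) := by
            refine (abs_add_le _ _).trans ?_
            rw [abs_mul, abs_mul]
            gcongr
        _ = (|m j| + 2 * |C|) * |a j - b j| := by ring
        _ ≤ (|m j| + 2 * |C|) * dist a b := by gcongr
    nlinarith [dist_nonneg (x := a) (y := b)]
  · rw [Function.update_of_ne hi, Function.update_of_ne hi]
    simp only [Pi.sub_apply, sub_sub_sub_cancel_right]
    refine (hd i).trans (le_mul_of_one_le_left dist_nonneg ?_)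
    linarith [abs_nonneg (m i₀)]

/-- Below the sheared hyperplane one is strictly inside the ball. -/
theorem exists_shear_param (i₀ : Fin n) (m : Fin n → ℝ) (hm : m i₀ ≠ 0) :
    ∃ C ρ : ℝ, 0 < ρ ∧ ρ ≤ 1 ∧ ∀ d : Fin n → ℝ, ‖d‖ ≤ ρ → d ≠ 0 →
      m i₀ * d i₀ + restTerm i₀ m C d ≤ 0 → ∑ i, d i ^ 2 + 2 * ∑ i, m i * d i < 0 := by
  set k := m i₀ ^ 2 with hk
  have hk0 : 0 < k := by positivity
  set Mq := ∑ i, m i ^ 2 with hMq
  have hMq0 : 0 ≤ Mq := Finset.sum_nonneg fun i _ => sq_nonneg _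
  set C := 1 + 2 * Mq / k with hC
  have hC1 : 1 ≤ C := by
    have : 0 ≤ 2 * Mq / k := by positivity
    linarith
  set S := ∑ i, |m i| with hS
  have hS0 : 0 ≤ S := Finset.sum_nonneg fun i _ => abs_nonneg _
  refine ⟨C, min 1 (k / (4 * (S + 1))), lt_min one_pos (by positivity), min_le_left _ _,
    fun d hd hd0 hle => ?_⟩
  set Q := ∑ i ∈ Finset.univ.erase i₀, d i ^ 2 with hQ
  have hQ0 : 0 ≤ Q := Finset.sum_nonneg fun i _ => sq_nonneg _
  set T := ∑ i ∈ Finset.univ.erase i₀, m i * d i with hT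
  have hdi : ∀ i, |d i| ≤ ‖d‖ := fun i => norm_le_pi_norm d i
  have hrest : restTerm i₀ m C d = T + C * Q := by
    rw [restTerm, hQ, Finset.mul_sum, hT, ← Finset.sum_add_distrib]
    exact Finset.sum_congr rfl fun i _ => by
      rw [trunc_eq ((hdi i).trans (hd.trans (min_le_left _ _)))]
  set t := -∑ i, m i * d i with ht
  have hsum : ∑ i, m i * d i = m i₀ * d i₀ + T :=
    (Finset.add_sum_erase _ _ (Finset.mem_univ i₀)).symm
  have htQ : C * Q ≤ t := by rw [ht, hsum]; rw [hrest] at hle; linarith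
  have ht0 : 0 ≤ t := le_trans (by positivity) htQ
  have hTQ : T ^ 2 ≤ Mq * Q := by
    refine (Finset.sum_mul_sq_le_sq_mul_sq _ m d).trans ?_
    gcongr
    exact Finset.sum_le_sum_of_subset_of_nonneg (Finset.erase_subset _ _) fun i _ _ => sq_nonneg _
  have hd2 : k * d i₀ ^ 2 ≤ 2 * t ^ 2 + 2 * (Mq * Q) := by
    have e : m i₀ * d i₀ = -t - T := by rw [ht, hsum]; ring
    have : k * d i₀ ^ 2 = (m i₀ * d i₀) ^ 2 := by ring
    rw [this, e]
    nlinarith [sq_nonneg (t - T)]
  have hsq : ∑ i, d i ^ 2 = d i₀ ^ 2 + Q := (Finset.add_sum_erase _ _ (Finset.mem_univ i₀)).symm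
  have htk : 4 * t ≤ k := by
    have h1 : t ≤ S * ‖d‖ := by
      refine (neg_le_abs _).trans ((Finset.abs_sum_le_sum_abs _ _).trans ?_)
      rw [hS, Finset.sum_mul]
      exact Finset.sum_le_sum fun i _ => by
        rw [abs_mul]; exact mul_le_mul_of_nonneg_left (hdi i) (abs_nonneg _)
    have h2 : ‖d‖ * (4 * (S + 1)) ≤ k := by
      rw [← le_div_iff₀ (by positivity)]; exact hd.trans (min_le_right _ _)
    nlinarith [norm_nonneg d]
  have hkey : k * ∑ i, d i ^ 2 ≤ 2 * t ^ 2 + k * t := by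
    rw [hsq]
    have h1 : k * (C * Q) ≤ k * t := by gcongr
    have h2 : k * (C * Q) = k * Q + 2 * (Mq * Q) := by rw [hC]; field_simp
    nlinarith
  by_contra hnot
  have h3 : k * (2 * t) ≤ k * ∑ i, d i ^ 2 := by
    gcongr
    linarith [not_lt.1 hnot]
  have ht00 : t = 0 := by nlinarith
  have hQ00 : Q = 0 := by nlinarith
  refine hd0 (funext fun i => ?_)
  have hd00 : d i₀ = 0 := by
    have : k * d i₀ ^ 2 ≤ 0 := by nlinarith
    exact sq_eq_zero_iff.1 (le_antisymm (nonpos_of_mul_nonpos_right this hk0) (sq_nonneg _))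
  by_cases hi : i = i₀
  · simp [hi, hd00]
  · have h4 : d i ^ 2 ≤ 0 := (Finset.single_le_sum (f := fun i => d i ^ 2)
      (fun i _ => sq_nonneg _) (Finset.mem_erase.2 ⟨hi, Finset.mem_univ i⟩)).trans_eq hQ00
    simpa using sq_eq_zero_iff.1 (le_antisymm h4 (sq_nonneg _))

end

end Vale.Agent.P228.HS
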