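import Vale.Agent.P228.HS.Core
import Vale.Agent.P228.HS.Shear

/-!
# P228: small actions and actions fixing a half space fix a neighbourhood
-/

namespace Vale.Agent.P228.HS

open Set MeasureTheory Filter
open scoped Topology NNReal ENNReal

noncomputable section

/-- A compact group with a chosen topological generator and the character sending it to
`exp (2πi/p)`. -/
structure PadicLike (G : Type*) [CommGroup G] [TopologicalSpace G] (p : ℕ) (g : G)
    (χ : G →* ℂ) : Prop where
  pTwo : 2 ≤ p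
  chiCont : Continuous χ
  chiGen : χ g = Complex.exp (((2 * Real.pi * (1 / (p : ℝ)) : ℝ) : ℂ) * Complex.I)
  chiPow : ∀ a, χ a ^ p = 1
  gTend : Tendsto (fun k : ℕ => g ^ p ^ k) atTop (𝓝 1)
  gens : ∀ a : G, χ a ≠ 1 → DenseRange fun m : ℕ => a ^ m

variable {n : ℕ} {G M : Type*} [CommGroup G] [TopologicalSpace G] [IsTopologicalGroup G]
  [CompactSpace G] [T2Space G] [SecondCountableTopology G] [MeasurableSpace G] [BorelSpace G]
  [TopologicalSpace M] [T2Space M] [MulAction G M] [ContinuousSMul G M]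
  {p : ℕ} {g : G} {χ : G →* ℂ}

omit [IsTopologicalGroup G] [CompactSpace G] [T2Space G] [SecondCountableTopology G]
  [MeasurableSpace G] [BorelSpace G] in
theorem PadicLike.hgen (P : PadicLike G p g χ) (a : G) (ha : χ a ≠ 1) (y : M) (hy : a • y = y)
    (b : G) : b • y = y := by
  have hcl : IsClosed {b : G | b • y = y} :=
    isClosed_eq (continuous_id.smul continuous_const) continuous_const
  have hsub : (range fun m : ℕ => a ^ m) ⊆ {b : G | b • y = y} := by
    rintro _ ⟨m, rfl⟩
    induction m with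
    | zero => simp
    | succ m ih => simp only [mem_ofPred_eq] at ih ⊢; rw [pow_succ, mul_smul, hy, ih]
  exact closure_minimal hsub hcl ((P.gens a ha).closure_eq ▸ mem_univ b)

omit [IsTopologicalGroup G] [T2Space G] [SecondCountableTopology G] [MeasurableSpace G]
  [BorelSpace G] [T2Space M] in
/-- Continuity at a fixed point, uniformly in the group. -/
theorem exists_radius (e : OpenPartialHomeomorph M (Fin n → ℝ)) {x : M} (hx : x ∈ e.source)
    (hfix : ∀ a : G, a • x = x) {ε : ℝ} (hε : 0 < ε) :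
    ∃ δ : ℝ, 0 < δ ∧ δ ≤ ε ∧ ∀ v ∈ Metric.closedBall (e x) δ, ∀ a : G,
      v ∈ e.target ∧ a • e.symm v ∈ e.source ∧ e (a • e.symm v) ∈ Metric.closedBall (e x) ε := by
  have key : ∀ᶠ v in 𝓝 (e x), ∀ a ∈ (univ : Set G),
      v ∈ e.target ∧ a • e.symm v ∈ e.source ∧ dist (e (a • e.symm v)) (e x) < ε := by
    refine isCompact_univ.eventually_forall_of_forall_eventually fun a _ => ?_
    have h1 : ∀ᶠ q : (Fin n → ℝ) × G in 𝓝 (e x, a), q.1 ∈ e.target :=
      continuous_fst.continuousAt (e.open_target.mem_nhds (e.map_source hx))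
    have hc : ContinuousAt (fun q : (Fin n → ℝ) × G => q.2 • e.symm q.1) (e x, a) :=
      continuous_smul.continuousAt.comp₂ continuous_snd.continuousAt
        ((e.continuousAt_symm (e.map_source hx)).comp_of_eq continuous_fst.continuousAt rfl)
    have hval : a • e.symm (e x) = x := by rw [e.left_inv hx, hfix]
    have h2 : ∀ᶠ q : (Fin n → ℝ) × G in 𝓝 (e x, a), q.2 • e.symm q.1 ∈ e.source :=
      hc.eventually_mem (e.open_source.mem_nhds (show a • e.symm (e x) ∈ e.source by
        rw [hval]; exact hx))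
    have h3 : ∀ᶠ q : (Fin n → ℝ) × G in 𝓝 (e x, a), dist (e (q.2 • e.symm q.1)) (e x) < ε := by
      have hc' : ContinuousAt (fun q : (Fin n → ℝ) × G => e (q.2 • e.symm q.1)) (e x, a) :=
        ContinuousAt.comp' (show ContinuousAt e (a • e.symm (e x)) by
          rw [hval]; exact e.continuousAt hx) hc
      refine (Metric.tendsto_nhds.1 hc' ε hε).mono fun q hq => ?_
      simpa only [hval] using hq
    exact h1.and (h2.and h3)
  obtain ⟨δ, hδ, hball⟩ := Metric.eventually_nhds_iff.1 key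
  refine ⟨min ε (δ / 2), lt_min hε (by positivity), min_le_left _ _, fun v hv a => ?_⟩
  obtain ⟨h1, h2, h3⟩ := hball (show dist v (e x) < δ by
    have := (Metric.mem_closedBall.1 hv).trans (min_le_right _ _); linarith) a (mem_univ a)
  exact ⟨h1, h2, Metric.mem_closedBall.2 h3.le⟩

variable {μ : Measure G} [IsProbabilityMeasure μ] [μ.IsMulLeftInvariant]
  {φ : OpenPartialHomeomorph M (Fin n → ℝ)} {c₀ : Fin n → ℝ} {R a q : ℝ} {C : ℝ≥0∞}

/-- All points of an open set of admissible values are fixed. -/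
theorem fixed_of_open (P : PadicLike G p g χ) (hb : ChartBound φ G c₀ R a q C)
    (μ : Measure G) [IsProbabilityMeasure μ] [μ.IsMulLeftInvariant]
    (ψ : (Fin n → ℝ) ≃ₜ (Fin n → ℝ)) {K : ℝ≥0} (hψ : LipschitzWith K ψ) {Z : Set (Fin n → ℝ)}
    (hZo : IsOpen Z) (hZt : Z ⊆ (φ.transHomeomorph ψ).target) {r : ℝ} {w₀ : Fin n → ℝ}
    {L₁ L₂ : Set (Fin n → ℝ)} (hd : BallData (φ.transHomeomorph ψ) G w₀ r L₁ L₂)
    (hR : ∀ b : G, ∀ w ∈ L₂, φ (b • (φ.transHomeomorph ψ).symm w) ∈ Metric.closedBall c₀ R)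
    (hbd : ∀ z ∈ Z, ∀ b b' : G, ∀ s ∈ Icc (0 : ℝ) 1, ∀ t ∈ Icc (0 : ℝ) 1, ∀ x : Fin n → ℝ,
      ‖x‖ = r →
      avgChart (φ.transHomeomorph ψ) μ (pathW (φ.transHomeomorph ψ) w₀ b b' s t x) ≠ z)
    (hdg : ∀ z ∈ Z, ∀ t ∈ Icc (0 : ℝ) 1, ∀ x : Fin n → ℝ, ‖x‖ = r →
      (1 - t) • (avgChart (φ.transHomeomorph ψ) μ ((φ.transHomeomorph ψ).symm (w₀ + x)) - z) +
        t • x ≠ 0) :
    ∀ z ∈ Z, ∀ b : G, b • (φ.transHomeomorph ψ).symm z = (φ.transHomeomorph ψ).symm z := by
  intro z hz b
  set e := φ.transHomeomorph ψ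
  have hdense : Dense {z : Fin n → ℝ | ThinFibre φ G μ ψ c₀ R z} :=
    Measure.dense_of_ae (hb.ae_thin hψ)
  have heq : EqOn (fun v => b • e.symm v) e.symm (Z ∩ {z | ThinFibre φ G μ ψ c₀ R z}) :=
    fun v hv => fixed_of_thin P.pTwo χ P.chiCont g P.chiGen P.chiPow P.gTend
      (fun a ha y hy => P.hgen a ha y hy) hd (hbd v hv.1) (hdg v hv.1) hR hv.2 b
  exact heq.of_subset_closure ((e.continuousOn_symm.mono hZt).const_smul b)
    (e.continuousOn_symm.mono hZt) inter_subset_left
    (hdense.open_subset_closure_inter hZo) hz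

omit [IsTopologicalGroup G] [T2Space G] [SecondCountableTopology G] [T2Space M] in
theorem integrable_chart (e : OpenPartialHomeomorph M (Fin n → ℝ)) {y : M}
    (h : ∀ b : G, b • y ∈ e.source) : Integrable (fun b : G => e (b • y)) μ :=
  (e.continuousOn.comp_continuous (continuous_id.smul continuous_const) h).integrable_of_hasCompactSupport
    (HasCompactSupport.of_compactSpace _)

omit [IsTopologicalGroup G] [T2Space G] [SecondCountableTopology G] [T2Space M] in
theorem dist_avgChart_le (e : OpenPartialHomeomorph M (Fin n → ℝ)) {y : M} {c : Fin n → ℝ} {δ : ℝ}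
    (h : ∀ b : G, b • y ∈ e.source) (hd : ∀ b : G, dist (e (b • y)) c ≤ δ) :
    dist (avgChart e μ y) c ≤ δ :=
  (convex_closedBall c δ).integral_mem Metric.isClosed_closedBall
    (Eventually.of_forall fun b => hd b) (integrable_chart e h)

/-- **A small action fixes a neighbourhood of the centre.** -/
theorem fixed_near_of_small (P : PadicLike G p g χ) (hb : ChartBound φ G c₀ R a q C)
    (μ : Measure G) [IsProbabilityMeasure μ] [μ.IsMulLeftInvariant]
    (hs : ∀ b : G, ∀ v ∈ Metric.closedBall c₀ R, dist (φ (b • φ.symm v)) v ≤ R / 20) :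
    ∀ z ∈ Metric.ball c₀ (R / 20), ∀ b : G, b • φ.symm z = φ.symm z := by
  have hR := hb.rPos
  set e := φ.transHomeomorph (Homeomorph.refl _) with he
  have hsrc : ∀ v ∈ Metric.closedBall c₀ R, v ∈ φ.target ∧ ∀ b : G, b • φ.symm v ∈ φ.source :=
    fun v hv => ⟨hb.tgt (Metric.closedBall_subset_closedBall (by linarith) hv),
      fun b => hb.maps b v (Metric.closedBall_subset_closedBall (by linarith) hv)⟩
  have hin : ∀ {v : Fin n → ℝ} {t : ℝ}, t ≤ R → v ∈ Metric.closedBall c₀ t →
      v ∈ Metric.closedBall c₀ R := fun ht hv => Metric.closedBall_subset_closedBall ht hv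
  have hmove : ∀ {v : Fin n → ℝ} {t : ℝ}, t ≤ R → v ∈ Metric.closedBall c₀ t → ∀ b : G,
      φ (b • φ.symm v) ∈ Metric.closedBall c₀ (t + R / 20) := fun {v t} ht hv b => by
    rw [Metric.mem_closedBall] at hv ⊢
    linarith [dist_triangle (φ (b • φ.symm v)) v c₀, hs b v (hin ht (Metric.mem_closedBall.2 hv))]
  intro z hz
  have hzd := Metric.mem_ball.1 hz
  have hball : ∀ {w : Fin n → ℝ}, w ∈ Metric.closedBall z (R / 4) →
      w ∈ Metric.closedBall c₀ (3 * R / 10) := fun {w} hw => by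
    rw [Metric.mem_closedBall] at hw ⊢
    linarith [dist_triangle w z c₀]
  have hd : BallData e G z (R / 4) (Metric.closedBall c₀ (R / 2))
      (Metric.closedBall c₀ (3 * R / 4)) := by
    refine ⟨by positivity, convex_closedBall _ _, convex_closedBall _ _, isCompact_closedBall _ _,
      fun v hv => (hsrc v (hin (by linarith) hv)).1, fun w hw => ?_,
      Metric.closedBall_subset_closedBall (by linarith), fun b w hw => ?_, fun b w hw => ?_,
      fun b w hw => (hsrc w (hin (by linarith) hw)).2 b⟩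
    · exact Metric.closedBall_subset_closedBall (by linarith) (hball hw)
    · exact Metric.closedBall_subset_closedBall (by linarith) (hmove (by linarith) (hball hw) b)
    · exact Metric.closedBall_subset_closedBall (by linarith) (hmove (by linarith) hw b)
  refine fixed_of_open P hb μ (Homeomorph.refl _) (K := 1)
    (Z := Metric.ball z (R / 20) ∩ Metric.ball c₀ (R / 20)) LipschitzWith.id
    (Metric.isOpen_ball.inter Metric.isOpen_ball)
    (fun v hv => (hsrc v (Metric.closedBall_subset_closedBall (by linarith)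
      (Metric.ball_subset_closedBall hv.2))).1)
    hd (fun b w hw => Metric.closedBall_subset_closedBall (by linarith) (hmove (by linarith) hw b))
    (fun z' hz' b b' s hs' t ht x hx => ?_) (fun z' hz' t ht x hx => ?_) z
    ⟨Metric.mem_ball_self (by positivity), hz⟩
  · have hxb : x ∈ Metric.closedBall (0 : Fin n → ℝ) (R / 4) := by simp [hx]
    set w := z + x with hw
    have hwb := (hd.add_mem hxb).1
    set v := (1 - t) • w + t • φ (b' • φ.symm w) with hv
    have hv1 : v ∈ Metric.closedBall w (R / 20) :=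
      Convex.comb (convex_closedBall _ _) (Metric.mem_closedBall_self (by positivity))
        (Metric.mem_closedBall.2 (hs b' w (hin (by linarith) (hball hwb)))) ht
    have hv3 : v ∈ Metric.closedBall c₀ (R / 2) := hd.segH b' ht hxb
    have hev : φ.symm v = pathH e z b' t x := rfl
    set u := (1 - s) • w + s • φ (b • φ.symm v) with hu
    have hu1 : u ∈ Metric.closedBall w (R / 10) := by
      refine Convex.comb (convex_closedBall _ _) (Metric.mem_closedBall_self (by positivity)) ?_ hs'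
      rw [Metric.mem_closedBall] at hv1 ⊢
      linarith [dist_triangle (φ (b • φ.symm v)) v w, hs b v (hin (by linarith) hv3)]
    have hu2 : u ∈ Metric.closedBall c₀ R := hin (by linarith) (hd.segW b b' hs' ht hxb)
    have hΦ : dist (avgChart e μ (φ.symm u)) u ≤ R / 20 :=
      dist_avgChart_le e (hsrc u hu2).2 fun c => hs c u hu2
    intro h0
    have h0' : avgChart e μ (φ.symm u) = z' := h0
    rw [h0'] at hΦ
    rw [Metric.mem_closedBall] at hu1
    have h4 : dist z w = R / 4 := by rw [hw, dist_eq_norm, sub_add_cancel_left, norm_neg, hx]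
    have := dist_triangle4 z z' u w
    have := Metric.mem_ball.1 hz'.1
    rw [dist_comm z' z] at this
    linarith
  · have hxb : x ∈ Metric.closedBall (0 : Fin n → ℝ) (R / 4) := by simp [hx]
    set w := z + x with hw
    have hwR : w ∈ Metric.closedBall c₀ R := hin (by linarith) (hball (hd.add_mem hxb).1)
    have hΦ : dist (avgChart e μ (e.symm w)) w ≤ R / 20 :=
      dist_avgChart_le e (hsrc w hwR).2 fun c => hs c w hwR
    rw [dist_eq_norm] at hΦ
    have e1 : (1 - t) • (avgChart e μ (e.symm w) - z') + t • x =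
        x - ((1 - t) • (-(avgChart e μ (e.symm w) - w) + (z' - z))) := by
      rw [hw]; module
    rw [e1, sub_ne_zero]
    intro h0
    have h1 := congrArg norm h0
    rw [hx, norm_smul, Real.norm_eq_abs, abs_of_nonneg (by linarith [ht.2])] at h1
    have h2 : ‖-(avgChart e μ (e.symm w) - w) + (z' - z)‖ ≤ R / 20 + R / 20 := by
      refine (norm_add_le _ _).trans (add_le_add (by rwa [norm_neg]) ?_)
      exact le_of_lt (by simpa [dist_eq_norm] using Metric.mem_ball.1 hz'.1)
    have h3 : (1 - t) * ‖-(avgChart e μ (e.symm w) - w) + (z' - z)‖ ≤ 1 * (R / 20 + R / 20) :=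
      mul_le_mul (by linarith [ht.1]) h2 (norm_nonneg _) zero_le_one
    linarith

/-- **An action fixing a punctured closed half space fixes a neighbourhood of its origin.** -/
theorem fixed_near_of_half (P : PadicLike G p g χ) (hb : ChartBound φ G c₀ R a q C)
    (μ : Measure G) [IsProbabilityMeasure μ] [μ.IsMulLeftInvariant]
    (ψ : (Fin n → ℝ) ≃ₜ (Fin n → ℝ)) {K : ℝ≥0} (hψ : LipschitzWith K ψ) {y₀ : M}
    (hy₀ : y₀ ∈ φ.source) (hy₀e : ψ (φ y₀) = 0) (hfix : ∀ b : G, b • y₀ = y₀) (i₀ : Fin n)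
    {r₃ : ℝ} (hr₃ : 0 < r₃)
    (hsrc : Metric.closedBall 0 r₃ ⊆ (φ.transHomeomorph ψ).target)
    (hin : MapsTo ψ.symm (Metric.closedBall 0 r₃) (Metric.closedBall c₀ R))
    (hhalf : ∀ w ∈ Metric.closedBall (0 : Fin n → ℝ) r₃, w i₀ ≤ 0 → ∀ b : G,
      b • (φ.transHomeomorph ψ).symm w = (φ.transHomeomorph ψ).symm w) :
    ∀ᶠ y in 𝓝 y₀, ∀ b : G, b • y = y := by
  set e := φ.transHomeomorph ψ with he
  have hex : e y₀ = 0 := hy₀e
  obtain ⟨r₂, hr₂, hr₂₃, h₂⟩ := exists_radius e hy₀ hfix hr₃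
  obtain ⟨r₁, hr₁, hr₁₂, h₁⟩ := exists_radius e hy₀ hfix hr₂
  obtain ⟨r₀, hr₀, hr₀₁, h₀⟩ := exists_radius e hy₀ hfix hr₁
  rw [hex] at h₂ h₁ h₀
  have hd : BallData e G 0 r₀ (Metric.closedBall 0 r₁) (Metric.closedBall 0 r₂) :=
    ⟨hr₀, convex_closedBall _ _, convex_closedBall _ _, isCompact_closedBall _ _,
      fun v hv => (h₂ v hv 1).1, Metric.closedBall_subset_closedBall hr₀₁,
      Metric.closedBall_subset_closedBall hr₁₂, fun b w hw => (h₀ w hw b).2.2,
      fun b w hw => (h₁ w hw b).2.2, fun b w hw => (h₂ w hw b).2.1⟩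
  have hR : ∀ b : G, ∀ w ∈ Metric.closedBall (0 : Fin n → ℝ) r₂,
      φ (b • e.symm w) ∈ Metric.closedBall c₀ R := fun b w hw => by
    have := hin (h₂ w hw b).2.2
    rwa [show ψ.symm (e (b • e.symm w)) = φ (b • e.symm w) from ψ.symm_apply_apply _] at this
  have hpos : ∀ b : G, ∀ w ∈ Metric.closedBall (0 : Fin n → ℝ) r₂, 0 < w i₀ →
      0 < e (b • e.symm w) i₀ := by
    intro b w hw hw0
    by_contra hle
    obtain ⟨ht, hs, h3⟩ := h₂ w hw b
    have h4 := hhalf _ h3 (not_lt.1 hle) b⁻¹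
    rw [e.left_inv hs, inv_smul_smul] at h4
    rw [← h4, e.right_inv ht] at hle
    exact hle hw0
  have hzero : ∀ w ∈ Metric.closedBall (0 : Fin n → ℝ) r₂, w ≠ 0 →
      avgChart e μ (e.symm w) ≠ 0 ∧ (w i₀ ≤ 0 → avgChart e μ (e.symm w) = w) ∧
        (0 < w i₀ → 0 < avgChart e μ (e.symm w) i₀) := by
    intro w hw hw0
    have hfixed : w i₀ ≤ 0 → avgChart e μ (e.symm w) = w := fun hle => by
      simp [avgChart, hhalf w (Metric.closedBall_subset_closedBall hr₂₃ hw) hle,
        e.right_inv (h₂ w hw 1).1]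
    have hup : 0 < w i₀ → 0 < avgChart e μ (e.symm w) i₀ := fun hlt => by
      have hi : Integrable (fun b : G => e (b • e.symm w)) μ :=
        integrable_chart e fun b => (h₂ w hw b).2.1
      rw [avgChart, eval_integral fun l => hi.eval l,
        integral_pos_iff_support_of_nonneg (fun b => (hpos b w hw hlt).le) (hi.eval i₀)]
      rw [show Function.support (fun b : G => e (b • e.symm w) i₀) = univ from
        eq_univ_of_forall fun b => (hpos b w hw hlt).ne']
      simp
    refine ⟨fun h0 => ?_, hfixed, hup⟩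
    rcases le_or_gt (w i₀) 0 with h | h
    · rw [hfixed h] at h0; exact hw0 h0
    · have := hup h
      simp [h0] at this
  have hsph : ∀ x : Fin n → ℝ, ‖x‖ = r₀ → x ∈ Metric.closedBall (0 : Fin n → ℝ) r₀ ∧
      x ∈ Metric.closedBall (0 : Fin n → ℝ) r₁ ∧ x ∈ Metric.closedBall (0 : Fin n → ℝ) r₂ ∧
      x ∈ Metric.closedBall (0 : Fin n → ℝ) r₃ ∧ x ≠ 0 :=
    fun x hx => ⟨by simp [hx], by simp [hx, hr₀₁], by simp [hx, hr₀₁.trans hr₁₂],
      by simp [hx, (hr₀₁.trans hr₁₂).trans hr₂₃], fun h => by simp [h] at hx; linarith⟩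
  -- the squares avoid the origin
  have hW0 : ∀ b b' : G, ∀ s ∈ Icc (0 : ℝ) 1, ∀ t ∈ Icc (0 : ℝ) 1, ∀ x : Fin n → ℝ, ‖x‖ = r₀ →
      avgChart e μ (pathW e 0 b b' s t x) ≠ 0 := by
    intro b b' s hs t ht x hx
    obtain ⟨hx0, hx1, hx2, hx3, hxne⟩ := hsph x hx
    simp only [pathW, pathH, zero_add]
    rcases le_or_gt (x i₀) 0 with hle | hlt
    · have hf := hhalf x hx3 hle
      have hr : e (e.symm x) = x := e.right_inv (h₂ x hx2 1).1
      simp only [hf, hr, ← add_smul, sub_add_cancel, one_smul]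
      exact (hzero x hx2 hxne).1
    · have h1 : (1 - t) • x + t • e (b' • e.symm x) ∈ Metric.closedBall (0 : Fin n → ℝ) r₁ :=
        Convex.comb (convex_closedBall _ _) hx1 (h₀ x hx0 b').2.2 ht
      have h1p : 0 < ((1 - t) • x + t • e (b' • e.symm x)) i₀ := by
        have := hpos b' x hx2 hlt
        simp only [Pi.add_apply, Pi.smul_apply, smul_eq_mul]
        rcases ht.1.eq_or_lt with rfl | ht0
        · simpa using hlt
        · nlinarith [ht.2]
      set v := (1 - t) • x + t • e (b' • e.symm x) with hv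
      have h2p := hpos b v (Metric.closedBall_subset_closedBall hr₁₂ h1) h1p
      have h2 : (1 - s) • x + s • e (b • e.symm v) ∈ Metric.closedBall (0 : Fin n → ℝ) r₂ :=
        Convex.comb (convex_closedBall _ _) hx2 (h₁ v h1 b).2.2 hs
      have h2q : 0 < ((1 - s) • x + s • e (b • e.symm v)) i₀ := by
        simp only [Pi.add_apply, Pi.smul_apply, smul_eq_mul]
        rcases hs.1.eq_or_lt with rfl | hs0
        · simpa using hlt
        · nlinarith [hs.2]
      exact (hzero _ h2 fun h => by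
        have := congrFun h i₀
        simp only [Pi.add_apply, Pi.smul_apply, smul_eq_mul, Pi.zero_apply] at this
        simp only [Pi.add_apply, Pi.smul_apply, smul_eq_mul] at h2q; linarith).1
  have hD0 : ∀ t ∈ Icc (0 : ℝ) 1, ∀ x : Fin n → ℝ, ‖x‖ = r₀ →
      (1 - t) • avgChart e μ (e.symm (0 + x)) + t • x ≠ 0 := by
    intro t ht x hx
    obtain ⟨-, -, hx2, -, hxne⟩ := hsph x hx
    rw [zero_add]
    obtain ⟨-, hfixed, hup⟩ := hzero x hx2 hxne
    rcases le_or_gt (x i₀) 0 with hle | hlt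
    · rw [hfixed hle, ← add_smul, sub_add_cancel, one_smul]; exact hxne
    · intro h0
      have := congrFun h0 i₀
      simp only [Pi.add_apply, Pi.smul_apply, smul_eq_mul, Pi.zero_apply] at this
      rcases ht.1.eq_or_lt with rfl | ht0
      · linarith [hup hlt, this]
      · nlinarith [hup hlt, ht.2]
  -- margins
  have hΦc : ContinuousOn (fun y => avgChart e μ y)
      (orbitSet e G (Metric.closedBall (0 : Fin n → ℝ) r₂)) :=
    avgChart_continuousOn e hd.compactX hd.smulX
  set Sb : Set ((G × G) × (ℝ × ℝ × (Fin n → ℝ))) := univ ×ˢ (Icc (0 : ℝ) 1 ×ˢ (Icc (0 : ℝ) 1 ×ˢ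
    Metric.sphere (0 : Fin n → ℝ) r₀)) with hSb
  have hSbD : Sb ⊆ Dom G n r₀ :=
    prod_mono le_rfl (prod_mono le_rfl (prod_mono le_rfl Metric.sphere_subset_closedBall))
  have hc1 : ContinuousOn (fun q : (G × G) × (ℝ × ℝ × (Fin n → ℝ)) =>
      ‖avgChart e μ (pathW e 0 q.1.1 q.1.2 q.2.1 q.2.2.1 q.2.2.2)‖) Sb :=
    ((hΦc.comp (hd.pathW_continuousOn.mono hSbD) fun q hq => hd.pathW_mem _ _ (hSbD hq).2.1
      (hSbD hq).2.2.1 (hSbD hq).2.2.2)).norm
  have hSbc : IsCompact Sb :=
    isCompact_univ.prod (isCompact_Icc.prod (isCompact_Icc.prod (isCompact_sphere _ _)))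
  obtain ⟨η₁, hη₁, hη₁b⟩ := hSbc.exists_forall_le' (a := (0 : ℝ)) hc1
    (fun q hq => norm_pos_iff.2 (hW0 _ _ _ hq.2.1 _ hq.2.2.1 _ (by simpa using hq.2.2.2)))
  have hc2 : ContinuousOn (fun q : ℝ × (Fin n → ℝ) =>
      ‖(1 - q.1) • avgChart e μ (e.symm (0 + q.2)) + q.1 • q.2‖)
      (Icc (0 : ℝ) 1 ×ˢ Metric.sphere (0 : Fin n → ℝ) r₀) := by
    have h1 : ContinuousOn (fun q : ℝ × (Fin n → ℝ) => avgChart e μ (e.symm (0 + q.2)))
        (Icc (0 : ℝ) 1 ×ˢ Metric.sphere (0 : Fin n → ℝ) r₀) :=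
      hΦc.comp (hd.base_continuousOn.comp continuous_snd.continuousOn
        fun q hq => Metric.sphere_subset_closedBall hq.2)
        fun q hq => symm_mem_orbitSet (hd.add_mem (Metric.sphere_subset_closedBall hq.2)).2
    exact (((continuous_const.sub continuous_fst).continuousOn.smul h1).add
      (continuous_fst.smul continuous_snd).continuousOn).norm
  have hS2 : IsCompact (Icc (0 : ℝ) 1 ×ˢ Metric.sphere (0 : Fin n → ℝ) r₀) :=
    isCompact_Icc.prod (isCompact_sphere _ _)
  obtain ⟨η₂, hη₂, hη₂b⟩ := hS2.exists_forall_le' (a := (0 : ℝ)) hc2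
    (fun q hq => norm_pos_iff.2 (hD0 _ hq.1 _ (by simpa using hq.2)))
  set ρ := min r₂ (min η₁ η₂) with hρ
  have hfixZ := fixed_of_open P hb μ ψ hψ (Z := Metric.ball (0 : Fin n → ℝ) ρ) Metric.isOpen_ball
    (fun v hv => (h₂ v (Metric.ball_subset_closedBall
      (Metric.ball_subset_ball (min_le_left _ _) hv)) 1).1) hd hR
    (fun z hz b b' s hs t ht x hx h0 => by
      have := hη₁b ((b, b'), (s, t, x)) ⟨trivial, hs, ht, by simpa using hx⟩
      have hz' := (mem_ball_zero_iff.1 hz).trans_le ((min_le_right _ _).trans (min_le_left _ _))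
      have h0' : avgChart e μ (pathW e 0 b b' s t x) = z := h0
      rw [h0'] at this
      linarith)
    (fun z hz t ht x hx h0 => by
      have := hη₂b (t, x) ⟨ht, by simpa using hx⟩
      have hz' := (mem_ball_zero_iff.1 hz).trans_le ((min_le_right _ _).trans (min_le_right _ _))
      have e1 : (1 - t) • avgChart e μ (e.symm (0 + x)) + t • x =
          ((1 - t) • (avgChart e μ (e.symm (0 + x)) - z) + t • x) + (1 - t) • z := by module
      have h0' : (1 - t) • (avgChart e μ (e.symm (0 + x)) - z) + t • x = 0 := h0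
      rw [e1, h0', zero_add, norm_smul, Real.norm_eq_abs,
        abs_of_nonneg (sub_nonneg.2 ht.2)] at this
      nlinarith [ht.1, norm_nonneg z])
  have hnhds : ∀ᶠ y in 𝓝 y₀, y ∈ e.source ∧ e y ∈ Metric.ball (0 : Fin n → ℝ) ρ := by
    refine Filter.Eventually.and (e.open_source.mem_nhds hy₀) ?_
    refine (e.continuousAt hy₀) ?_
    rw [hex]
    exact Metric.ball_mem_nhds _ (lt_min hr₂ (lt_min hη₁ hη₂))
  filter_upwards [hnhds] with y hy b
  have := hfixZ (e y) hy.2 b
  rwa [e.left_inv hy.1] at this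

end

end Vale.Agent.P228.HS
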