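import Vale.Agent.P228.HS.Thin

/-!
# P228: the Nikolskii and Hölder classes of actions
-/

namespace Vale.Agent.P228.HS

open Set MeasureTheory
open scoped ENNReal NNReal

noncomputable section

/-- Near every point, in some chart, the group elements that move the point little are uniformly
bounded in the Nikolskii class `N^{s,q}`, with `s * min q (n+1) > n - 1`. -/
def NikolskiiRegular (G : Type*) (n : ℕ) (M : Type*) [TopologicalSpace M] [SMul G M] : Prop :=
  ∀ x : M, ∃ (φ : OpenPartialHomeomorph M (Fin n → ℝ)) (R s q : ℝ) (C : ℝ≥0),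
    x ∈ φ.source ∧ 0 < R ∧ 1 ≤ q ∧ (n : ℝ) - 1 < s * min q ((n : ℝ) + 1) ∧
    Metric.closedBall (φ x) (2 * R) ⊆ φ.target ∧
    ∀ g : G, g • x ∈ φ.source → dist (φ (g • x)) (φ x) ≤ R →
      (∀ v ∈ Metric.closedBall (φ x) (2 * R), g • φ.symm v ∈ φ.source) ∧
      ∀ h : Fin n → ℝ, ‖h‖ ≤ R →
        ∫⁻ v in Metric.closedBall (φ x) R,
          edist (φ (g • φ.symm (v + h))) (φ (g • φ.symm v)) ^ q ≤
            C * ENNReal.ofReal (‖h‖ ^ (s * q))

/-- Near every point, in some chart, the group elements that move the point little are uniformly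
Hölder with an exponent above `(n-1)/(n+1)`. -/
def HolderRegular (G : Type*) (n : ℕ) (M : Type*) [TopologicalSpace M] [SMul G M] : Prop :=
  ∀ x : M, ∃ (φ : OpenPartialHomeomorph M (Fin n → ℝ)) (R α : ℝ) (L : ℝ≥0),
    x ∈ φ.source ∧ 0 < R ∧ ((n : ℝ) - 1) / ((n : ℝ) + 1) < α ∧
    Metric.closedBall (φ x) (2 * R) ⊆ φ.target ∧
    ∀ g : G, g • x ∈ φ.source → dist (φ (g • x)) (φ x) ≤ R →
      (∀ v ∈ Metric.closedBall (φ x) (2 * R), g • φ.symm v ∈ φ.source) ∧
      ∀ v ∈ Metric.closedBall (φ x) (2 * R), ∀ w ∈ Metric.closedBall (φ x) (2 * R),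
        dist (φ (g • φ.symm v)) (φ (g • φ.symm w)) ≤ L * dist v w ^ α

theorem HolderRegular.nikolskii {G : Type*} {n : ℕ} {M : Type*} [TopologicalSpace M] [SMul G M]
    (h : HolderRegular G n M) : NikolskiiRegular G n M := by
  intro x
  obtain ⟨φ, R, α, L, hx, hR, hα, htgt, hg⟩ := h x
  set q : ℝ := (n : ℝ) + 1 with hq
  have hq0 : 0 < q := by positivity
  set B := Metric.closedBall (φ x) R with hB
  have hBf : volume B < ⊤ := measure_closedBall_lt_top
  refine ⟨φ, R, α, q, L ^ q * (volume B).toNNReal, hx, hR, by simp [hq],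
    by rw [min_self, ← div_lt_iff₀ hq0]; exact hα, htgt, fun g h1 h2 => ?_⟩
  obtain ⟨hmap, hb⟩ := hg g h1 h2
  refine ⟨hmap, fun v hv => ?_⟩
  calc ∫⁻ w in B, edist (φ (g • φ.symm (w + v))) (φ (g • φ.symm w)) ^ q
      ≤ ∫⁻ _ in B, (L : ℝ≥0∞) ^ q * ENNReal.ofReal (‖v‖ ^ (α * q)) := by
        refine setLIntegral_mono measurable_const fun w hw => ?_
        have hw' : dist w (φ x) ≤ R := Metric.mem_closedBall.1 hw
        have hw1 : w ∈ Metric.closedBall (φ x) (2 * R) := Metric.mem_closedBall.2 (by linarith)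
        have hw2 : w + v ∈ Metric.closedBall (φ x) (2 * R) := by
          rw [Metric.mem_closedBall]
          refine (dist_triangle _ w _).trans ?_
          rw [dist_eq_norm, add_sub_cancel_left]
          linarith
        have hd : edist (φ (g • φ.symm (w + v))) (φ (g • φ.symm w)) ≤
            (L : ℝ≥0∞) * ENNReal.ofReal (‖v‖ ^ α) := by
          rw [edist_dist, ← ENNReal.ofReal_coe_nnreal, ← ENNReal.ofReal_mul L.coe_nonneg]
          refine ENNReal.ofReal_le_ofReal ((hb _ hw2 _ hw1).trans_eq ?_)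
          rw [dist_eq_norm, add_sub_cancel_left]
        refine (ENNReal.rpow_le_rpow hd hq0.le).trans_eq ?_
        rw [ENNReal.mul_rpow_of_nonneg _ _ hq0.le, ENNReal.ofReal_rpow_of_nonneg (by positivity) hq0.le,
          ← Real.rpow_mul (norm_nonneg _)]
    _ = ((L ^ q * (volume B).toNNReal : ℝ≥0) : ℝ≥0∞) * ENNReal.ofReal (‖v‖ ^ (α * q)) := by
        rw [setLIntegral_const, ENNReal.coe_mul, ENNReal.coe_rpow_of_nonneg _ hq0.le,
          ENNReal.coe_toNNReal hBf.ne]
        ring

/-- Every point lies in a chart in which all group elements are, wherever defined, uniformly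
Hölder with an exponent above `(n-1)/(n+1)`. -/
def LocallyHolder (G : Type*) (n : ℕ) (M : Type*) [TopologicalSpace M] [SMul G M] : Prop :=
  ∀ x : M, ∃ (φ : OpenPartialHomeomorph M (Fin n → ℝ)) (α : ℝ) (L : ℝ≥0),
    x ∈ φ.source ∧ ((n : ℝ) - 1) / ((n : ℝ) + 1) < α ∧
    ∀ g : G, ∀ v ∈ φ.target, ∀ w ∈ φ.target, g • φ.symm v ∈ φ.source → g • φ.symm w ∈ φ.source →
      dist (φ (g • φ.symm v)) (φ (g • φ.symm w)) ≤ L * dist v w ^ α

theorem LocallyHolder.holderRegular {G : Type*} [TopologicalSpace G] [CompactSpace G] {n : ℕ}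
    {M : Type*} [TopologicalSpace M] [T2Space M] [SMul G M] [ContinuousSMul G M]
    (h : LocallyHolder G n M) : HolderRegular G n M := by
  intro x
  obtain ⟨φ, α, L, hx, hα, hb⟩ := h x
  obtain ⟨R₁, hR₁, hball⟩ :=
    Metric.nhds_basis_closedBall.mem_iff.1 (φ.open_target.mem_nhds (φ.map_source hx))
  set T := φ.symm '' Metric.closedBall (φ x) R₁ with hT
  have hTc : IsCompact T :=
    (isCompact_closedBall _ _).image_of_continuousOn (φ.continuousOn_symm.mono hball)
  set S := (fun g : G => g • x) ⁻¹' T with hS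
  have hSc : IsCompact S :=
    (hTc.isClosed.preimage (continuous_id.smul continuous_const)).isCompact
  have hev : ∀ᶠ v in nhds (φ x), ∀ g ∈ S, g • φ.symm v ∈ φ.source := by
    refine hSc.eventually_forall_of_forall_eventually fun g hg => ?_
    have hc : ContinuousAt (fun q : (Fin n → ℝ) × G => q.2 • φ.symm q.1) (φ x, g) :=
      continuous_smul.continuousAt.comp₂ continuous_snd.continuousAt
        ((φ.continuousAt_symm (φ.map_source hx)).comp_of_eq continuous_fst.continuousAt rfl)
    refine hc.eventually_mem (φ.open_source.mem_nhds ?_)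
    show g • φ.symm (φ x) ∈ φ.source
    rw [φ.left_inv hx]
    obtain ⟨v, hv, hgv⟩ := hg
    have h3 : φ.symm v = g • x := hgv; exact h3 ▸ φ.map_target (hball hv)
  obtain ⟨δ, hδ, hδb⟩ := Metric.eventually_nhds_iff.1 hev
  set R := min (R₁ / 2) (δ / 3) with hR
  have hR0 : 0 < R := lt_min (by positivity) (by positivity)
  have htgt : Metric.closedBall (φ x) (2 * R) ⊆ φ.target :=
    (Metric.closedBall_subset_closedBall (by linarith [min_le_left (R₁ / 2) (δ / 3)])).trans hball
  refine ⟨φ, R, α, L, hx, hR0, hα, htgt, fun g h1 h2 => ?_⟩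
  have hgS : g ∈ S := ⟨φ (g • x),
    Metric.mem_closedBall.2 (h2.trans (by linarith [min_le_left (R₁ / 2) (δ / 3)])), φ.left_inv h1⟩
  have hmaps : ∀ v ∈ Metric.closedBall (φ x) (2 * R), g • φ.symm v ∈ φ.source := fun v hv =>
    hδb (show dist v (φ x) < δ by
      linarith [Metric.mem_closedBall.1 hv, min_le_right (R₁ / 2) (δ / 3)]) g hgS
  exact ⟨hmaps, fun v hv w hw => hb g v (htgt hv) w (htgt hw) (hmaps v hv) (hmaps w hw)⟩

/-- Lowering the exponent of a power by a tangent bound. -/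
theorem rpow_le_of_le {x lam : ℝ} {q q' : ℝ} (hx : 0 ≤ x) (hlam : 0 < lam) (hq' : 0 ≤ q')
    (hqq : q' ≤ q) : x ^ q' ≤ lam ^ (q' - q) * x ^ q + lam ^ q' := by
  rcases le_or_gt x lam with h | h
  · refine le_add_of_nonneg_of_le (by positivity) (Real.rpow_le_rpow hx h hq')
  · refine le_add_of_le_of_nonneg ?_ (by positivity)
    have hx0 : 0 < x := hlam.trans h
    rw [show q' = (q' - q) + q by ring, Real.rpow_add hx0, show q' - q + q - q = q' - q by ring]
    refine mul_le_mul_of_nonneg_right ?_ (by positivity)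
    exact Real.rpow_le_rpow_of_nonpos hlam h.le (by linarith)

variable {n : ℕ} {G M : Type*} [TopologicalSpace M] [SMul G M]
  {φ : OpenPartialHomeomorph M (Fin n → ℝ)}

/-- A Nikolskii bound gives a chart bound for a group acting through elements that keep the
centre close. -/
theorem exists_chartBound {x : M} {R s q : ℝ} {C : ℝ≥0} (hx : x ∈ φ.source) (hR : 0 < R)
    (hq : 1 ≤ q) (hs : (n : ℝ) - 1 < s * min q ((n : ℝ) + 1))
    (htgt : Metric.closedBall (φ x) (2 * R) ⊆ φ.target)
    (hg : ∀ g : G, g • x ∈ φ.source → dist (φ (g • x)) (φ x) ≤ R →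
      (∀ v ∈ Metric.closedBall (φ x) (2 * R), g • φ.symm v ∈ φ.source) ∧
      ∀ h : Fin n → ℝ, ‖h‖ ≤ R →
        ∫⁻ v in Metric.closedBall (φ x) R,
          edist (φ (g • φ.symm (v + h))) (φ (g • φ.symm v)) ^ q ≤
            C * ENNReal.ofReal (‖h‖ ^ (s * q))) :
    ∃ (a q' : ℝ) (C' : ℝ≥0∞), ∀ (H : Type) [SMul H M] (π : H → G),
      (∀ (b : H) (y : M), b • y = π b • y) →
      (∀ b : H, π b • x ∈ φ.source ∧ dist (φ (π b • x)) (φ x) ≤ R) →
        ChartBound φ H (φ x) (R / 6) a q' C' := by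
  set q' := min q ((n : ℝ) + 1) with hq'
  set B := Metric.closedBall (φ x) R with hB
  have hBf : volume B < ⊤ := measure_closedBall_lt_top
  have hq'1 : 1 ≤ q' := le_min hq (by simp)
  refine ⟨s * q', q', (C : ℝ≥0∞) + volume B, fun H _ π hπ hclose => ⟨by positivity,
    ENNReal.add_ne_top.2 ⟨ENNReal.coe_ne_top, hBf.ne⟩, hq'1, min_le_right _ _, hs,
    (Metric.closedBall_subset_closedBall (by linarith)).trans htgt, fun b v hv => ?_,
    fun b l h hh => ?_⟩⟩
  · rw [hπ]
    exact (hg (π b) (hclose b).1 (hclose b).2).1 v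
      (Metric.closedBall_subset_closedBall (by linarith) hv)
  obtain ⟨hmap, hb⟩ := hg (π b) (hclose b).1 (hclose b).2
  simp only [hπ]
  have hsub : Metric.closedBall (φ x) (6 * (R / 6)) = B := by rw [hB]; congr 1; ring
  rw [hsub]
  rcases hh.1.eq_or_lt with h0 | h0
  · subst h0
    simp [ENNReal.zero_rpow_of_pos (by linarith : 0 < q')]
  have hnorm : ‖(Pi.single l h : Fin n → ℝ)‖ = h := by rw [Pi.norm_single, Real.norm_eq_abs, abs_of_pos h0]
  have hb' := hb (Pi.single l h) (by rw [hnorm]; linarith [hh.2])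
  rw [hnorm] at hb'
  set lam := h ^ s with hlam
  have hlam0 : 0 < lam := by positivity
  calc ∫⁻ v in B, edist (φ (π b • φ.symm (v + Pi.single l h))) (φ (π b • φ.symm v)) ^ q'
      ≤ ∫⁻ v in B, (ENNReal.ofReal (lam ^ (q' - q)) *
          edist (φ (π b • φ.symm (v + Pi.single l h))) (φ (π b • φ.symm v)) ^ q +
          ENNReal.ofReal (lam ^ q')) := by
        refine lintegral_mono fun v => ?_
        rw [edist_dist, ENNReal.ofReal_rpow_of_nonneg dist_nonneg (by linarith),
          ENNReal.ofReal_rpow_of_nonneg dist_nonneg (by linarith),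
          ← ENNReal.ofReal_mul (by positivity), ← ENNReal.ofReal_add (by positivity) (by positivity)]
        exact ENNReal.ofReal_le_ofReal
          (rpow_le_of_le dist_nonneg hlam0 (by linarith) (min_le_left _ _))
    _ = ENNReal.ofReal (lam ^ (q' - q)) *
          (∫⁻ v in B, edist (φ (π b • φ.symm (v + Pi.single l h))) (φ (π b • φ.symm v)) ^ q) +
          ENNReal.ofReal (lam ^ q') * volume B := by
        rw [lintegral_add_right _ measurable_const, lintegral_const_mul' _ _ ENNReal.ofReal_ne_top,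
          setLIntegral_const]
    _ ≤ ENNReal.ofReal (lam ^ (q' - q)) * (C * ENNReal.ofReal (h ^ (s * q))) +
          ENNReal.ofReal (lam ^ q') * volume B := by gcongr
    _ = ((C : ℝ≥0∞) + volume B) * ENNReal.ofReal (h ^ (s * q')) := by
        have e1 : lam ^ (q' - q) * h ^ (s * q) = h ^ (s * q') := by
          rw [hlam, ← Real.rpow_mul h0.le, ← Real.rpow_add h0]; ring_nf
        have e2 : lam ^ q' = h ^ (s * q') := by rw [hlam, ← Real.rpow_mul h0.le]
        rw [e2, mul_left_comm, ← ENNReal.ofReal_mul (by positivity), e1]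
        ring

end

end Vale.Agent.P228.HS
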