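import Vale.Agent.P228.HS.Padic
import Vale.Agent.P228.HS.Regular

/-!
# P228: no faithful regular action of `ℤ_p` on a connected manifold
-/

namespace Vale.Agent.P228.HS

open Set MeasureTheory Filter
open scoped Topology NNReal ENNReal

noncomputable section

variable {n : ℕ} {G : Type} {M : Type*} [CommGroup G] [TopologicalSpace G] [IsTopologicalGroup G]
  [CompactSpace G] [T2Space G] [SecondCountableTopology G] [MeasurableSpace G] [BorelSpace G]
  [TopologicalSpace M] [T2Space M] [MulAction G M] [ContinuousSMul G M]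
  {p : ℕ} {g : G} {χ : G →* ℂ} {φ : OpenPartialHomeomorph M (Fin n → ℝ)} {R a q : ℝ} {C : ℝ≥0∞}

/-- **The fixed open set is closed.** -/
theorem fixed_closed (P : PadicLike G p g χ) (μ : Measure G) [IsProbabilityMeasure μ]
    [μ.IsMulLeftInvariant] {x : M} (hx : x ∈ φ.source) (hb : ChartBound φ G (φ x) R a q C)
    (hcl : x ∈ closure (interior {y : M | ∀ b : G, b • y = y})) :
    x ∈ interior {y : M | ∀ b : G, b • y = y} := by
  classical
  set F := {y : M | ∀ b : G, b • y = y} with hF
  have hFc : IsClosed F := by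
    simp only [hF, Set.setOf_forall]
    exact isClosed_iInter fun b => isClosed_eq (continuous_const_smul b) continuous_id
  have hxF : x ∈ F := closure_minimal interior_subset hFc hcl
  set c₀ := φ x with hc₀
  have hR := hb.rPos
  obtain ⟨ρ, hρ, hρR, hρmap⟩ := exists_radius φ hx hxF (show (0 : ℝ) < R / 4 by positivity)
  set O' := φ.target ∩ φ.symm ⁻¹' interior F with hO'
  have hO'o : IsOpen O' := φ.continuousOn_symm.isOpen_inter_preimage φ.open_target isOpen_interior
  by_contra hxO
  have htgt : Metric.closedBall c₀ ρ ⊆ φ.target := fun v hv => (hρmap v hv 1).1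
  have hc₀O : c₀ ∉ O' := fun h => hxO (by
    have := h.2
    rwa [mem_preimage, hc₀, φ.left_inv hx] at this)
  -- a point of `O'` very close to the centre
  set N := (n : ℝ) + 1 with hN
  have hN1 : 1 ≤ N := by simp [hN]
  obtain ⟨y, hyO, hy⟩ : ∃ y ∈ O', dist y c₀ < ρ / (4 * N) := by
    have hnb : φ.source ∩ φ ⁻¹' Metric.ball c₀ (ρ / (4 * N)) ∈ 𝓝 x :=
      inter_mem (φ.open_source.mem_nhds hx)
        ((φ.continuousAt hx).preimage_mem_nhds (Metric.ball_mem_nhds _ (by positivity)))
    obtain ⟨w, hw1, hw2⟩ := mem_closure_iff_nhds.1 hcl _ hnb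
    exact ⟨φ w, ⟨φ.map_source hw1.1, by rw [mem_preimage, φ.left_inv hw1.1]; exact hw2⟩, hw1.2⟩
  -- the nearest point outside `O'`
  set D : (Fin n → ℝ) → ℝ := fun v => ∑ i, (v i - y i) ^ 2 with hD
  have hDc : Continuous D := by fun_prop
  have hS : IsCompact (Metric.closedBall c₀ ρ \ O') := (isCompact_closedBall _ _).diff hO'o
  obtain ⟨v, hv, hmin⟩ := hS.exists_isMinOn ⟨c₀, Metric.mem_closedBall_self hρ.le, hc₀O⟩
    hDc.continuousOn
  set δ := ρ / (4 * N) with hδ
  have hδ0 : 0 < δ := by positivity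
  have hDv : D v ≤ N * δ ^ 2 := by
    refine (isMinOn_iff.1 hmin c₀ ⟨Metric.mem_closedBall_self hρ.le, hc₀O⟩).trans ?_
    refine (Finset.sum_le_sum fun i _ => show (c₀ i - y i) ^ 2 ≤ δ ^ 2 from ?_).trans ?_
    · rw [← sq_abs]
      refine pow_le_pow_left₀ (abs_nonneg _) ?_ 2
      rw [← Real.dist_eq, dist_comm]
      exact (dist_le_pi_dist y c₀ i).trans hy.le
    · rw [Finset.sum_const, Finset.card_univ, Fintype.card_fin, nsmul_eq_mul, hN]
      nlinarith [sq_nonneg δ]
  have hclose : ∀ w, D w ≤ D v → w ∈ Metric.ball c₀ (ρ / 2) := by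
    intro w hw
    have h1 : dist w y ≤ N * δ := by
      rw [dist_pi_le_iff (by positivity)]
      intro i
      have h2 : (w i - y i) ^ 2 ≤ (N * δ) ^ 2 := by
        refine (Finset.single_le_sum (f := fun i => (w i - y i) ^ 2) (fun _ _ => sq_nonneg _)
          (Finset.mem_univ i)).trans ((hw.trans hDv).trans ?_)
        rw [mul_pow]
        exact mul_le_mul_of_nonneg_right (by nlinarith) (sq_nonneg δ)
      rw [Real.dist_eq]
      exact abs_le_of_sq_le_sq h2 (by positivity)
    have h3 : N * δ = ρ / 4 := by rw [hδ]; field_simp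
    have h4 : δ ≤ ρ / 4 := by
      rw [hδ]
      exact div_le_div_of_nonneg_left hρ.le (by norm_num) (by linarith)
    rw [Metric.mem_ball]
    linarith [dist_triangle w y c₀]
  have hball : ∀ w, D w < D v → w ∈ O' := fun w hw => by
    by_contra h
    exact absurd (isMinOn_iff.1 hmin w ⟨Metric.ball_subset_closedBall
      (Metric.ball_subset_ball (by linarith) (hclose w hw.le)), h⟩) (not_le.2 hw)
  have hvρ : v ∈ Metric.closedBall c₀ ρ := hv.1
  have hvne : v - y ≠ 0 := sub_ne_zero.2 fun h => hv.2 (h ▸ hyO)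
  obtain ⟨i₀, hi₀⟩ : ∃ i, (v - y) i ≠ 0 := by
    by_contra h
    exact hvne (funext fun i => not_not.1 fun h' => h ⟨i, h'⟩)
  set y₀ := φ.symm v with hy₀
  have hy₀s : y₀ ∈ φ.source := φ.map_target (htgt hvρ)
  have hy₀v : φ y₀ = v := φ.right_inv (htgt hvρ)
  -- `y₀` is fixed: it is a limit of points of `O'`
  have hy₀F : y₀ ∈ F := by
    have hseq : Tendsto (fun k : ℕ => v + (1 / ((k : ℝ) + 1)) • (y - v)) atTop (𝓝 v) := by
      simpa using ((tendsto_one_div_add_atTop_nhds_zero_nat (𝕜 := ℝ)).smul_const (y - v)).const_add v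
    have hin : ∀ k : ℕ, v + (1 / ((k : ℝ) + 1)) • (y - v) ∈ O' := fun k => hball _ (by
      have ht0 : 0 < 1 / ((k : ℝ) + 1) := by positivity
      have ht1 : 1 / ((k : ℝ) + 1) ≤ 1 := by
        rw [div_le_one (by positivity)]; simp
      have e : D (v + (1 / ((k : ℝ) + 1)) • (y - v)) = (1 - 1 / ((k : ℝ) + 1)) ^ 2 * D v := by
        simp only [hD, Finset.mul_sum, Pi.add_apply, Pi.smul_apply, Pi.sub_apply, smul_eq_mul]
        exact Finset.sum_congr rfl fun i _ => by ring
      rw [e]
      have hDpos : 0 < D v := by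
        refine lt_of_lt_of_le (sq_pos_of_ne_zero hi₀) ?_
        exact Finset.single_le_sum (f := fun i => (v i - y i) ^ 2) (fun _ _ => sq_nonneg _)
          (Finset.mem_univ i₀)
      refine mul_lt_of_lt_one_left hDpos ?_
      nlinarith)
    refine hFc.mem_of_tendsto ((φ.continuousAt_symm (htgt hvρ)).tendsto.comp hseq)
      (Eventually.of_forall fun k => interior_subset (hin k).2)
  obtain ⟨Cs, ρ', hρ', -, hshear⟩ := exists_shear_param i₀ (v - y) hi₀
  set ψ := shear i₀ (v - y) hi₀ v Cs with hψ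
  obtain ⟨K, hK⟩ := shear_lipschitz i₀ (v - y) hi₀ v Cs
  have hψv : ψ v = 0 := shear_self _ _ _ _ _
  -- a small ball in the sheared coordinates
  have hψinv : ψ.symm 0 = v := by rw [← hψv, Homeomorph.symm_apply_apply]
  obtain ⟨r₃, hr₃, hr₃'⟩ : ∃ r₃ > 0, ∀ w ∈ Metric.closedBall (0 : Fin n → ℝ) r₃,
      ψ.symm w ∈ Metric.closedBall c₀ ρ ∧ ‖ψ.symm w - v‖ ≤ ρ' := by
    have h1 : ∀ᶠ w in 𝓝 (0 : Fin n → ℝ),
        ψ.symm w ∈ Metric.ball c₀ ρ ∧ dist (ψ.symm w) v < ρ' := by
      have hc := (ψ.symm.continuous.tendsto 0)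
      rw [hψinv] at hc
      exact (hc.eventually (Metric.isOpen_ball.mem_nhds
        (Metric.ball_subset_ball (by linarith) (hclose v le_rfl)))).and
        (hc.eventually (Metric.ball_mem_nhds _ hρ'))
    obtain ⟨r, hr, hr'⟩ := Metric.eventually_nhds_iff.1 h1
    refine ⟨r / 2, by positivity, fun w hw => ?_⟩
    obtain ⟨h1, h2⟩ := hr' (show dist w 0 < r by
      have := Metric.mem_closedBall.1 hw; linarith)
    exact ⟨Metric.ball_subset_closedBall h1, by rw [← dist_eq_norm]; exact h2.le⟩
  have hhalf : ∀ w ∈ Metric.closedBall (0 : Fin n → ℝ) r₃, w i₀ ≤ 0 → ∀ b : G,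
      b • (φ.transHomeomorph ψ).symm w = (φ.transHomeomorph ψ).symm w := by
    intro w hw hle b
    change b • φ.symm (ψ.symm w) = φ.symm (ψ.symm w)
    set u := ψ.symm w with hu
    by_cases huv : u = v
    · rw [huv]; exact hy₀F b
    · have hwu : ψ u = w := ψ.apply_symm_apply w
      rw [← hwu, hψ, shear_apply, Function.update_self] at hle
      have h1 := hshear (u - v) (hr₃' w hw).2 (sub_ne_zero.2 huv) hle
      refine interior_subset (hball u ?_).2 b
      have e : D u = D v + (∑ i, (u - v) i ^ 2 + 2 * ∑ i, (v - y) i * (u - v) i) := by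
        simp only [hD, Pi.sub_apply, Finset.mul_sum, ← Finset.sum_add_distrib]
        exact Finset.sum_congr rfl fun i _ => by ring
      linarith
  have hnear := fixed_near_of_half P hb μ ψ hK hy₀s (by rw [hy₀v, hψv]) hy₀F i₀ hr₃
    (fun w hw => htgt (hr₃' w hw).1)
    (fun w hw => Metric.closedBall_subset_closedBall (by linarith) (hr₃' w hw).1) hhalf
  exact hv.2 ⟨htgt hvρ, mem_interior_iff_mem_nhds.2 hnear⟩

variable {M : Type*} [TopologicalSpace M] [T2Space M] [ConnectedSpace M]

/-- **No faithful Nikolskii-regular action of `ℤ_p` on a connected manifold.** -/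
theorem not_faithful_of_nikolskii (p : ℕ) [Fact p.Prime] [MulAction (Multiplicative ℤ_[p]) M]
    [ContinuousSMul (Multiplicative ℤ_[p]) M] [FaithfulSMul (Multiplicative ℤ_[p]) M] {n : ℕ}
    (h : NikolskiiRegular (Multiplicative ℤ_[p]) n M) : False := by
  set G := Multiplicative ℤ_[p] with hG
  haveI : CompactSpace G := inferInstanceAs (CompactSpace ℤ_[p])
  haveI : T2Space G := inferInstanceAs (T2Space ℤ_[p])
  haveI : SecondCountableTopology G := inferInstanceAs (SecondCountableTopology ℤ_[p])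
  letI : MeasurableSpace G := borel G
  haveI : BorelSpace G := ⟨rfl⟩
  set μ : Measure G := Measure.haarMeasure ⊤ with hμ
  haveI : IsProbabilityMeasure μ := ⟨by
    rw [hμ, ← TopologicalSpace.PositiveCompacts.coe_top]
    exact Measure.haarMeasure_self⟩
  haveI : μ.IsMulLeftInvariant := Measure.isMulLeftInvariant_haarMeasure _
  have hP := padicLike p
  obtain ⟨x₀⟩ := ‹ConnectedSpace M›.toNonempty
  obtain ⟨φ, R, s, q, C, hx, hR, hq, hs, htgt, hg⟩ := h x₀
  obtain ⟨a, q', C', hcb⟩ := exists_chartBound hx hR hq hs htgt hg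
  set c₀ := φ x₀ with hc₀
  have hev : ∀ᶠ b in 𝓝 (1 : G), ∀ v ∈ Metric.closedBall c₀ R,
      b • φ.symm v ∈ φ.source ∧ dist (φ (b • φ.symm v)) v < R / 120 := by
    refine (isCompact_closedBall c₀ R).eventually_forall_of_forall_eventually fun v hv => ?_
    have hvt : v ∈ φ.target := htgt (Metric.closedBall_subset_closedBall (by linarith) hv)
    have hc : ContinuousAt (fun z : G × (Fin n → ℝ) => z.1 • φ.symm z.2) (1, v) :=
      continuous_smul.continuousAt.comp₂ continuous_fst.continuousAt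
        ((φ.continuousAt_symm hvt).comp_of_eq continuous_snd.continuousAt rfl)
    have hval : (1 : G) • φ.symm v = φ.symm v := one_smul G _
    have h2 : ∀ᶠ z : G × (Fin n → ℝ) in 𝓝 (1, v), z.1 • φ.symm z.2 ∈ φ.source :=
      hc.eventually_mem (φ.open_source.mem_nhds (show (1 : G) • φ.symm v ∈ φ.source by
        rw [hval]; exact φ.map_target hvt))
    have hc' : ContinuousAt (fun z : G × (Fin n → ℝ) => dist (φ (z.1 • φ.symm z.2)) z.2) (1, v) :=
      ((φ.continuousAt (φ.map_target hvt)).comp_of_eq hc hval).dist continuous_snd.continuousAt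
    have h3 : ∀ᶠ z : G × (Fin n → ℝ) in 𝓝 (1, v), dist (φ (z.1 • φ.symm z.2)) z.2 < R / 120 :=
      hc'.tendsto.eventually (eventually_lt_nhds (by
        simp only [hval, φ.right_inv hvt, dist_self]; positivity))
    exact h2.and h3
  obtain ⟨k, hk⟩ := exists_pow_mem p hev
  let π : G →* G := powMonoidHom (p ^ k)
  have hπc : Continuous π := continuous_pow (p ^ k)
  have hact : @ContinuousSMul G M (MulAction.compHom M π).toSMul _ _ :=
    @ContinuousSMul.mk G M (MulAction.compHom M π).toSMul _ _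
      ((hπc.comp continuous_fst).smul continuous_snd)
  set F := {y : M | ∀ b : G, π b • y = y} with hF
  set O := interior F with hO
  have hx₀O : x₀ ∈ O := by
    have hcl : ∀ b : G, π b • x₀ ∈ φ.source ∧ dist (φ (π b • x₀)) (φ x₀) ≤ R := fun b => by
      obtain ⟨h1, h2⟩ := hk b c₀ (Metric.mem_closedBall_self hR.le)
      rw [hc₀, φ.left_inv hx] at h1 h2
      exact ⟨h1, by change dist (φ (b ^ p ^ k • x₀)) (φ x₀) ≤ R; linarith⟩
    have hb := @hcb G (MulAction.compHom M π).toSMul π (fun _ _ => rfl) hcl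
    have hfix := @fixed_near_of_small n G M _ _ _ _ _ _ _ _ _ _ (MulAction.compHom M π) hact p _ _ φ c₀ (R / 6) a q' C'
      hP hb μ _ _ (fun b v hv => by
        obtain ⟨-, h2⟩ := hk b v (Metric.closedBall_subset_closedBall (by linarith) hv)
        change dist (φ (b ^ p ^ k • φ.symm v)) v ≤ R / 6 / 20
        linarith)
    refine mem_interior_iff_mem_nhds.2 ?_
    filter_upwards [φ.open_source.mem_nhds hx,
      (φ.continuousAt hx).preimage_mem_nhds (Metric.ball_mem_nhds c₀ (show 0 < R / 6 / 20 by positivity))]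
      with y hy hy' b
    have := hfix (φ y) hy' b
    rwa [φ.left_inv hy] at this
  have hclosed : IsClosed O := by
    refine isClosed_of_closure_subset fun x hxc => ?_
    obtain ⟨φ, R, s, q, C, hx, hR, hq, hs, htgt, hg⟩ := h x
    obtain ⟨a, q', C', hcb⟩ := exists_chartBound hx hR hq hs htgt hg
    have hFc : IsClosed F := by
      simp only [hF, Set.setOf_forall]
      exact isClosed_iInter fun b => isClosed_eq (continuous_const_smul _) continuous_id
    have hxF : x ∈ F := closure_minimal interior_subset hFc hxc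
    have hcl : ∀ b : G, π b • x ∈ φ.source ∧ dist (φ (π b • x)) (φ x) ≤ R := fun b => by
      rw [hxF b]
      exact ⟨hx, by simp [hR.le]⟩
    have hb := @hcb G (MulAction.compHom M π).toSMul π (fun _ _ => rfl) hcl
    exact @fixed_closed n G M _ _ _ _ _ _ _ _ _ _ (MulAction.compHom M π) hact p _ _ φ (R / 6) a q' C' hP μ _ _ x hx hb hxc
  have huniv : O = univ := IsClopen.eq_univ ⟨hclosed, isOpen_interior⟩ ⟨x₀, hx₀O⟩
  have hg1 : (Multiplicative.ofAdd (1 : ℤ_[p])) ^ p ^ k = 1 := by
    refine FaithfulSMul.eq_of_smul_eq_smul (α := M) fun y => ?_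
    rw [one_smul]
    exact interior_subset (show y ∈ O from huniv ▸ mem_univ y) (Multiplicative.ofAdd (1 : ℤ_[p]))
  rw [← ofAdd_nsmul, ofAdd_eq_one, nsmul_one, Nat.cast_pow] at hg1
  exact pow_ne_zero k (Nat.cast_ne_zero.2 (Fact.out : p.Prime).ne_zero) hg1

end

end Vale.Agent.P228.HS
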