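import Vale.Agent.P228.HS.Fixed

/-!
# P228: `ℤ_p` as a group with generator and character; powers
-/

namespace Vale.Agent.P228.HS

open Filter
open scoped Topology

noncomputable section

variable (p : ℕ) [Fact p.Prime]

/-- The character `a ↦ exp (2πi (a mod p) / p)`. -/
def padicChar : Multiplicative ℤ_[p] →* ℂ where
  toFun a := ((ZMod.toCircle (PadicInt.toZMod a.toAdd) : Circle) : ℂ)
  map_one' := by simp
  map_mul' a b := by
    rw [toAdd_mul, map_add, AddChar.map_add_eq_mul, Circle.coe_mul]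

theorem isOpen_toZMod_preimage (t : Set (ZMod p)) :
    IsOpen ((fun x : ℤ_[p] => PadicInt.toZMod x) ⁻¹' t) := by
  refine Metric.isOpen_iff.2 fun x hx => ⟨1, one_pos, fun y hy => ?_⟩
  have h : y - x ∈ RingHom.ker (PadicInt.toZMod : ℤ_[p] →+* ZMod p) := by
    rw [PadicInt.ker_toZMod, IsLocalRing.mem_maximalIdeal, mem_nonunits_iff, PadicInt.isUnit_iff]
    rw [Metric.mem_ball, dist_eq_norm] at hy
    exact hy.ne
  rw [RingHom.mem_ker, map_sub, sub_eq_zero] at h
  simp only [Set.mem_preimage, h] at hx ⊢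
  exact hx

theorem padicChar_continuous : Continuous (padicChar p) := by
  have h : IsLocallyConstant (fun x : ℤ_[p] => PadicInt.toZMod x) := isOpen_toZMod_preimage p
  exact ((h.comp fun j : ZMod p => ((ZMod.toCircle j : Circle) : ℂ)).continuous).comp continuous_toAdd

theorem padicLike : PadicLike (Multiplicative ℤ_[p]) p (Multiplicative.ofAdd 1) (padicChar p) := by
  refine ⟨(Fact.out : p.Prime).two_le, padicChar_continuous p, ?_, fun a => ?_, ?_, fun a ha => ?_⟩
  · show ((ZMod.toCircle (PadicInt.toZMod (1 : ℤ_[p])) : Circle) : ℂ) = _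
    rw [map_one, ← Nat.cast_one, ZMod.toCircle_natCast]
    congr 1
    push_cast
    ring_nf
  · show ((ZMod.toCircle (PadicInt.toZMod a.toAdd) : Circle) : ℂ) ^ p = 1
    rw [← Circle.coe_pow, ← AddChar.map_nsmul_eq_pow]
    simp
  · have h : Tendsto (fun k : ℕ => ((p : ℤ_[p]) ^ k)) atTop (𝓝 0) := by
      refine tendsto_pow_atTop_nhds_zero_of_norm_lt_one ?_
      rw [PadicInt.norm_p]
      exact inv_lt_one_of_one_lt₀ (by exact_mod_cast (Fact.out : p.Prime).one_lt)
    refine (((continuous_ofAdd (X := ℤ_[p])).tendsto 0).comp h).congr fun k => ?_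
    show Multiplicative.ofAdd ((p : ℤ_[p]) ^ k) = Multiplicative.ofAdd (1 : ℤ_[p]) ^ p ^ k
    rw [← ofAdd_nsmul, nsmul_one, Nat.cast_pow]
  · have hu : IsUnit a.toAdd := by
      by_contra hu
      refine ha ?_
      show ((ZMod.toCircle (PadicInt.toZMod a.toAdd) : Circle) : ℂ) = 1
      rw [show PadicInt.toZMod a.toAdd = 0 from RingHom.mem_ker.1 (by
        rw [PadicInt.ker_toZMod, IsLocalRing.mem_maximalIdeal, mem_nonunits_iff]; exact hu)]
      simp
    obtain ⟨u, hu'⟩ := hu
    have hsurj : Function.Surjective fun x : ℤ_[p] => x * a.toAdd := fun y =>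
      ⟨y * (↑u⁻¹ : ℤ_[p]), by simp [← hu', mul_assoc]⟩
    have hd := hsurj.denseRange.comp PadicInt.denseRange_natCast
      (continuous_mul_const a.toAdd)
    have he : (fun m : ℕ => a ^ m) = Multiplicative.ofAdd ∘ (fun m : ℕ => (m : ℤ_[p]) * a.toAdd) := by
      funext m
      simp [← nsmul_eq_mul]
    rw [he]
    exact (Multiplicative.ofAdd (α := ℤ_[p])).surjective.denseRange.comp hd continuous_ofAdd

/-- Small powers lie in a given neighbourhood of `1`. -/
theorem exists_pow_mem {W : Set (Multiplicative ℤ_[p])} (hW : W ∈ 𝓝 1) :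
    ∃ k : ℕ, ∀ a : Multiplicative ℤ_[p], a ^ p ^ k ∈ W := by
  have hW' : Multiplicative.ofAdd ⁻¹' W ∈ 𝓝 (0 : ℤ_[p]) :=
    continuous_ofAdd.continuousAt.preimage_mem_nhds hW
  obtain ⟨r, hr, hball⟩ := Metric.mem_nhds_iff.1 hW'
  obtain ⟨k, hk⟩ := PadicInt.exists_pow_neg_lt p hr
  refine ⟨k, fun a => ?_⟩
  have : Multiplicative.toAdd (a ^ p ^ k) ∈ Metric.ball (0 : ℤ_[p]) r := by
    rw [mem_ball_zero_iff, toAdd_pow, nsmul_eq_mul, Nat.cast_pow, norm_mul, PadicInt.norm_p_pow]
    refine lt_of_le_of_lt (mul_le_of_le_one_right ?_ (PadicInt.norm_le_one _)) hk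
    exact zpow_nonneg (Nat.cast_nonneg p) _
  exact hball this

end

end Vale.Agent.P228.HS
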