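import Mathlib

/-!
# P228: images of hyperplane slices under maps in a Nikolskii class

If `F : ℝⁿ → ℝᵐ` is continuous and `∫ |F (x + h eₗ) - F x|^q ≤ C h^a` with `a > n - 1` and `q ≤ m`,
then almost every translated dyadic grid chains well, so a dense set of hyperplane slices has
null image.
-/

namespace Vale.Agent.P228.HS

open Set MeasureTheory Filter
open scoped Topology ENNReal

noncomputable section

variable {n m : ℕ}

/-- A grid point of generation `j`. -/
def gpt (ρ : ℝ) (j : ℕ) (x₀ : Fin n → ℝ) (a : Fin n → ℕ) : Fin n → ℝ :=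
  x₀ + fun l => ρ / 2 ^ j * (a l : ℝ)

/-- The sum of the powers of the increments along the edges leaving a grid point. -/
def edgeSum (F : (Fin n → ℝ) → Fin m → ℝ) (q ρ : ℝ) (j : ℕ) (a : Fin n → ℕ) (x₀ : Fin n → ℝ) :
    ℝ≥0∞ :=
  ∑ l, edist (F (gpt ρ j x₀ a + Pi.single l (ρ / 2 ^ j))) (F (gpt ρ j x₀ a)) ^ q

/-- The grid indices of generation `j` of the slice orthogonal to `i`. -/
def gset (i : Fin n) (j : ℕ) : Finset (Fin n → ℕ) :=
  Fintype.piFinset fun l => if l = i then {0} else Finset.range (2 ^ j + 1)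

theorem mem_gset {i : Fin n} {j : ℕ} {a : Fin n → ℕ} :
    a ∈ gset i j ↔ a i = 0 ∧ ∀ l, a l ≤ 2 ^ j := by
  simp only [gset, Fintype.mem_piFinset]
  constructor
  · refine fun h => ⟨by simpa using h i, fun l => ?_⟩
    have h' := h l
    by_cases hl : l = i
    · rw [if_pos hl, Finset.mem_singleton] at h'; rw [h']; exact Nat.zero_le _
    · rw [if_neg hl, Finset.mem_range] at h'; omega
  · rintro ⟨hi, h⟩ l
    split_ifs with hl
    · simp [hl, hi]
    · simpa [Nat.lt_succ_iff] using h l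

theorem card_gset_le {i : Fin n} (j : ℕ) : ((gset i j).card : ℝ) ≤ 2 ^ ((j + 1) * (n - 1)) := by
  have h : (gset i j).card ≤ (2 ^ (j + 1)) ^ (n - 1) := by
    rw [gset, Fintype.card_piFinset, ← Finset.mul_prod_erase _ _ (Finset.mem_univ i)]
    simp only [if_pos, Finset.card_singleton, one_mul]
    calc ∏ l ∈ Finset.univ.erase i, (if l = i then ({0} : Finset ℕ) else Finset.range (2 ^ j + 1)).card
        ≤ ∏ l ∈ Finset.univ.erase i, 2 ^ (j + 1) := by
          refine Finset.prod_le_prod' fun l hl => ?_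
          rw [if_neg (Finset.ne_of_mem_erase hl), Finset.card_range, pow_succ]
          have := Nat.one_le_two_pow (n := j)
          omega
      _ = (2 ^ (j + 1)) ^ (n - 1) := by
          rw [Finset.prod_const, Finset.card_erase_of_mem (Finset.mem_univ i), Finset.card_univ,
            Fintype.card_fin]
  rw [pow_mul]
  exact_mod_cast h

/-- The weight `2^(k ε)`. -/
def wt (ε : ℝ) (k : ℕ) : ℝ≥0∞ := ENNReal.ofReal ((2 : ℝ) ^ ((k : ℝ) * ε))

theorem wt_add (ε : ℝ) (j k : ℕ) : wt ε (j + k) = wt ε j * wt ε k := by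
  rw [wt, wt, wt, ← ENNReal.ofReal_mul (by positivity), ← Real.rpow_add two_pos]
  push_cast
  ring_nf

theorem wt_ne_zero (ε : ℝ) (k : ℕ) : wt ε k ≠ 0 := (ENNReal.ofReal_pos.2 (by positivity)).ne'

theorem wt_ne_top (ε : ℝ) (k : ℕ) : wt ε k ≠ ⊤ := ENNReal.ofReal_ne_top

theorem wt_eq_pow (ε : ℝ) (k : ℕ) : wt ε k = wt ε 1 ^ k := by
  induction k with
  | zero => simp [wt]
  | succ k ih => rw [wt_add, ih, pow_succ]

theorem one_lt_wt_one {ε : ℝ} (hε : 0 < ε) : 1 < wt ε 1 := by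
  rw [wt, ← ENNReal.ofReal_one]
  refine (ENNReal.ofReal_lt_ofReal_iff (by positivity)).2 ?_
  simpa using Real.one_lt_rpow one_lt_two hε

theorem edgeSum_lintegral_le {F : (Fin n → ℝ) → Fin m → ℝ} (hF : Continuous F) {c : Fin n → ℝ}
    {R a q : ℝ} {C : ℝ≥0∞} (hR : 0 < R)
    (hb : ∀ l, ∀ h ∈ Icc (0 : ℝ) (4 * R), ∫⁻ x in Metric.closedBall c (6 * R),
      edist (F (x + Pi.single l h)) (F x) ^ q ≤ C * ENNReal.ofReal (h ^ a))
    (j : ℕ) (b : Fin n → ℕ) (hb' : ∀ l, b l ≤ 2 ^ j) (B₀ : Set (Fin n → ℝ))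
    (hB₀ : ∀ x ∈ B₀, ∀ l, x l ∈ Icc (c l - 2 * R) (c l + R)) :
    ∫⁻ x₀ in B₀, edgeSum F q (4 * R) j b x₀ ≤ n * (C * ENNReal.ofReal ((4 * R / 2 ^ j) ^ a)) := by
  set d : ℝ := 4 * R / 2 ^ j with hd
  set w : Fin n → ℝ := fun l => d * (b l : ℝ) with hw
  have hgw : ∀ x, gpt (4 * R) j x b = x + w := fun x => rfl
  simp only [edgeSum, hgw]
  rw [lintegral_finsetSum _ fun l _ => (Continuous.measurable (by fun_prop)).pow_const q]
  refine (Finset.sum_le_sum fun l _ => ?_).trans_eq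
    (by rw [Finset.sum_const, Finset.card_univ, Fintype.card_fin, nsmul_eq_mul])
  have h0 : d ∈ Icc (0 : ℝ) (4 * R) :=
    ⟨by positivity, div_le_self (by linarith) (one_le_pow₀ one_le_two)⟩
  refine le_trans ?_ (hb l _ h0)
  have hmp : MeasurePreserving (fun x : Fin n → ℝ => x + w) volume volume :=
    measurePreserving_add_right volume w
  have e := hmp.setLIntegral_comp_preimage_emb (MeasurableEquiv.addRight w).measurableEmbedding
    (fun x => edist (F (x + Pi.single l d)) (F x) ^ q) (Metric.closedBall c (6 * R))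
  rw [← e]
  refine lintegral_mono_set fun x hx => ?_
  rw [mem_preimage, Metric.mem_closedBall, dist_pi_le_iff (by linarith)]
  intro l'
  have hwl : w l' ∈ Icc (0 : ℝ) (4 * R) := by
    refine ⟨by positivity, ?_⟩
    calc d * (b l' : ℝ) ≤ d * 2 ^ j :=
          mul_le_mul_of_nonneg_left (by exact_mod_cast hb' l') h0.1
      _ = 4 * R := by rw [hd]; field_simp
  have hx' := hB₀ x hx l'
  rw [Real.dist_eq, abs_le, Pi.add_apply]
  constructor <;> linarith [hwl.1, hwl.2, hx'.1, hx'.2]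

/-- Almost every translated dyadic grid has a finite weighted edge energy. -/
theorem exists_good_base {F : (Fin n → ℝ) → Fin m → ℝ} (hF : Continuous F) {c : Fin n → ℝ}
    {R a q ε : ℝ} {C : ℝ≥0∞} (hC : C ≠ ⊤) (hR : 0 < R) (ha : 0 ≤ a) (hq : 0 ≤ q)
    (hε : (n : ℝ) - 1 + ε < a)
    (hb : ∀ l, ∀ h ∈ Icc (0 : ℝ) (4 * R), ∫⁻ x in Metric.closedBall c (6 * R),
      edist (F (x + Pi.single l h)) (F x) ^ q ≤ C * ENNReal.ofReal (h ^ a))
    (i : Fin n) {t t' : ℝ} (ht : t < t') (ht1 : c i - R ≤ t) (ht2 : t' ≤ c i + R) :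
    ∃ x₀ : Fin n → ℝ, x₀ i ∈ Ioo t t' ∧ (∀ l, l ≠ i → x₀ l ∈ Icc (c l - 2 * R) (c l - R)) ∧
      ∑' j, wt ε j * ∑ b ∈ gset i j, edgeSum F q (4 * R) j b x₀ ≠ ⊤ := by
  classical
  set B₀ : Set (Fin n → ℝ) := pi univ fun l => if l = i then Ioo t t'
    else Ioo (c l - 2 * R) (c l - R) with hB₀
  have hB₀m : MeasurableSet B₀ :=
    MeasurableSet.univ_pi fun l => by split_ifs <;> exact measurableSet_Ioo
  have hB₀v : 0 < volume B₀ := by
    refine IsOpen.measure_pos _ (isOpen_set_pi finite_univ fun l _ => by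
      split_ifs <;> exact isOpen_Ioo) (univ_pi_nonempty_iff.2 fun l => ?_)
    split_ifs
    · exact nonempty_Ioo.2 ht
    · exact nonempty_Ioo.2 (by linarith)
  have hmeas : ∀ j b l, Measurable fun x₀ =>
      edist (F (gpt (4 * R) j x₀ b + Pi.single l (4 * R / 2 ^ j))) (F (gpt (4 * R) j x₀ b)) ^ q := by
    intro j b l
    refine (Continuous.measurable ?_).pow_const q
    unfold gpt
    fun_prop
  have hterm : ∀ j b, b ∈ gset i j → ∫⁻ x₀ in B₀, edgeSum F q (4 * R) j b x₀ ≤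
      n * (C * ENNReal.ofReal ((4 * R / 2 ^ j) ^ a)) := fun j b hb' => by
    refine edgeSum_lintegral_le hF hR hb j b (mem_gset.1 hb').2 B₀ fun x hx l => ?_
    have hx' := hx l (mem_univ _)
    by_cases hl : l = i
    · subst hl
      simp only [if_true, mem_Ioo] at hx'
      constructor <;> linarith
    · simp only [if_neg hl, mem_Ioo] at hx'
      constructor <;> linarith
  set K : ℝ := 2 ^ (n - 1) * (4 * R) ^ a with hK
  set σ : ℝ := 2 ^ (((n - 1 : ℕ) : ℝ) + ε - a) with hσ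
  have hn : 1 ≤ n := i.pos
  have hσ1 : σ < 1 := Real.rpow_lt_one_of_one_lt_of_neg one_lt_two (by
    rw [Nat.cast_sub hn, Nat.cast_one]; linarith)
  have hj : ∀ j, wt ε j * ∑ b ∈ gset i j, (n : ℝ≥0∞) * (C * ENNReal.ofReal ((4 * R / 2 ^ j) ^ a))
      ≤ n * C * ENNReal.ofReal K * ENNReal.ofReal σ ^ j := by
    intro j
    rw [Finset.sum_const, nsmul_eq_mul]
    calc wt ε j * ((gset i j).card * ((n : ℝ≥0∞) * (C * ENNReal.ofReal ((4 * R / 2 ^ j) ^ a))))
        = n * C * (wt ε j * (gset i j).card * ENNReal.ofReal ((4 * R / 2 ^ j) ^ a)) := by ring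
      _ ≤ n * C * (ENNReal.ofReal K * ENNReal.ofReal σ ^ j) := by
          refine mul_le_mul' le_rfl ?_
          rw [wt, ← ENNReal.ofReal_natCast (gset i j).card, ← ENNReal.ofReal_mul (by positivity),
            ← ENNReal.ofReal_mul (by positivity), ← ENNReal.ofReal_pow (by positivity),
            ← ENNReal.ofReal_mul (by positivity)]
          refine ENNReal.ofReal_le_ofReal ?_
          have e : σ ^ j = (2 : ℝ) ^ ((j : ℝ) * ((n - 1 : ℕ) : ℝ)) * 2 ^ ((j : ℝ) * ε) /
              ((2 : ℝ) ^ j) ^ a := by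
            rw [hσ, ← Real.rpow_natCast (2 ^ _), ← Real.rpow_mul two_pos.le,
              ← Real.rpow_natCast 2 j, ← Real.rpow_mul two_pos.le, ← Real.rpow_add two_pos,
              ← Real.rpow_sub two_pos]
            ring_nf
          rw [Real.div_rpow (by positivity) (by positivity), e, hK]
          calc (2 : ℝ) ^ ((j : ℝ) * ε) * ((gset i j).card : ℝ) * ((4 * R) ^ a / ((2 : ℝ) ^ j) ^ a)
              ≤ (2 : ℝ) ^ ((j : ℝ) * ε) * (2 ^ ((j + 1) * (n - 1))) *
                ((4 * R) ^ a / ((2 : ℝ) ^ j) ^ a) := by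
                gcongr
                exact card_gset_le j
            _ = _ := by
              have e2 : (2 : ℝ) ^ ((j : ℝ) * ((n - 1 : ℕ) : ℝ)) = 2 ^ (j * (n - 1)) := by
                rw [← Nat.cast_mul, Real.rpow_natCast]
              rw [e2, add_mul, one_mul, pow_add]
              ring
      _ = _ := by ring
  have hint : ∫⁻ x₀ in B₀, ∑' j, wt ε j * ∑ b ∈ gset i j, edgeSum F q (4 * R) j b x₀ ≠ ⊤ := by
    have hm : ∀ j, Measurable fun x₀ => ∑ b ∈ gset i j, edgeSum F q (4 * R) j b x₀ := fun j =>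
      Finset.measurable_sum _ fun b _ => Finset.measurable_sum _ fun l _ => hmeas j b l
    rw [lintegral_tsum fun j => ((hm j).const_mul _).aemeasurable]
    refine ne_top_of_le_ne_top ?_ (ENNReal.tsum_le_tsum fun j => ?_)
      (b := ∑' j, n * C * ENNReal.ofReal K * ENNReal.ofReal σ ^ j)
    · rw [ENNReal.tsum_mul_left, ENNReal.tsum_geometric]
      refine ENNReal.mul_ne_top (ENNReal.mul_ne_top (ENNReal.mul_ne_top (ENNReal.natCast_ne_top n) hC)
        ENNReal.ofReal_ne_top) (ENNReal.inv_ne_top.2 ?_)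
      exact (tsub_pos_of_lt (ENNReal.ofReal_lt_one.2 hσ1)).ne'
    · rw [lintegral_const_mul _ (hm j), lintegral_finsetSum _ fun b _ =>
        show Measurable fun x₀ => edgeSum F q (4 * R) j b x₀ from
          Finset.measurable_sum _ fun l _ => hmeas j b l]
      exact le_trans (mul_le_mul' le_rfl (Finset.sum_le_sum fun b hb' => hterm j b hb')) (hj j)
  have hae := ae_lt_top (Measurable.ennreal_tsum fun j => (Finset.measurable_sum _ fun b _ =>
    (Finset.measurable_sum _ fun l _ => hmeas j b l)).const_mul _) hint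
  haveI : NeBot (ae (volume.restrict B₀)) :=
    ae_neBot.2 fun h => hB₀v.ne' (Measure.restrict_eq_zero.1 h)
  obtain ⟨x₀, hx₀, hlt⟩ := ((ae_restrict_mem hB₀m).and hae).exists
  refine ⟨x₀, ?_, fun l hl => ?_, hlt.ne⟩
  · simpa using hx₀ i (mem_univ i)
  · have := hx₀ l (mem_univ l)
    simp only [if_neg hl] at this
    exact Ioo_subset_Icc_self this

/-- The total weighted energy below a grid index. -/
def cellSum (F : (Fin n → ℝ) → Fin m → ℝ) (q ρ ε : ℝ) (i : Fin n) (x₀ : Fin n → ℝ) (j : ℕ)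
    (b : Fin n → ℕ) : ℝ≥0∞ :=
  ∑' k, wt ε k * ∑ a ∈ (gset i (j + k)).filter (fun a => (fun l => a l / 2 ^ k) = b),
    edgeSum F q ρ (j + k) a x₀

theorem sum_cellSum_le {F : (Fin n → ℝ) → Fin m → ℝ} {q ρ ε : ℝ} {i : Fin n} {x₀ : Fin n → ℝ}
    (j : ℕ) : wt ε j * ∑ b ∈ gset i j, cellSum F q ρ ε i x₀ j b ≤
      ∑' k, wt ε k * ∑ b ∈ gset i k, edgeSum F q ρ k b x₀ := by
  unfold cellSum
  rw [← Summable.tsum_finsetSum fun b _ => ENNReal.summable, ← ENNReal.tsum_mul_left]
  refine le_trans (le_of_eq (tsum_congr fun k => ?_))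
    (ENNReal.tsum_comp_le_tsum_of_injective (f := fun k => j + k) (fun a b h => by simpa using h)
      (fun k => wt ε k * ∑ b ∈ gset i k, edgeSum F q ρ k b x₀))
  rw [← Finset.mul_sum, ← mul_assoc, ← wt_add, Finset.sum_fiberwise_of_maps_to]
  intro a ha
  rw [mem_gset] at ha ⊢
  refine ⟨by simp [ha.1], fun l => Nat.div_le_of_le_mul ?_⟩
  rw [← pow_add, add_comm k j]
  exact ha.2 l

/-- The dyadic index of a point of the unit cube. -/
def gidx (y : Fin n → ℝ) (k : ℕ) : Fin n → ℕ := fun l => ⌊(2 : ℝ) ^ k * y l⌋₊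

theorem gidx_div (y : Fin n → ℝ) (j k : ℕ) (l : Fin n) : gidx y (j + k) l / 2 ^ k = gidx y j l := by
  rw [gidx, gidx, ← Nat.floor_div_natCast]
  congr 1
  rw [pow_add]
  push_cast
  field_simp

theorem gidx_mem {i : Fin n} {y : Fin n → ℝ} (hy : ∀ l, y l ∈ Icc (0 : ℝ) 1) (hi : y i = 0)
    (k : ℕ) : gidx y k ∈ gset i k := by
  refine mem_gset.2 ⟨by simp [gidx, hi], fun l => Nat.floor_le_of_le ?_⟩
  push_cast
  exact mul_le_of_le_one_right (by positivity) (hy l).2

theorem path_bound {Y : Type*} [PseudoEMetricSpace Y] (f : (Fin n → ℕ) → Y) {A A' : Fin n → ℕ}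
    (hA : ∀ l, A' l / 2 = A l) {B : ℝ≥0∞}
    (hB : ∀ u : Fin n → ℕ, (∀ l, 2 * A l ≤ u l ∧ u l ≤ A' l) →
      ∀ l, edist (f (u + Pi.single l 1)) (f u) ≤ B) :
    edist (f fun l => 2 * A l) (f A') ≤ n * B := by
  set w : ℕ → Fin n → ℕ := fun L l => if (l : ℕ) < L then A' l else 2 * A l with hw
  have hw0 : w 0 = fun l => 2 * A l := funext fun l => if_neg (Nat.not_lt_zero _)
  have hwn : w n = A' := funext fun l => if_pos l.2
  have hwb : ∀ L l, 2 * A l ≤ w L l ∧ w L l ≤ A' l := fun L l => by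
    have := hA l
    simp only [hw]
    split_ifs <;> omega
  have hstep : ∀ L, edist (f (w L)) (f (w (L + 1))) ≤ B := by
    intro L
    by_cases hsame : w (L + 1) = w L
    · simp [hsame]
    obtain ⟨l, hl⟩ : ∃ l, w (L + 1) l ≠ w L l := by
      by_contra h
      exact hsame (funext fun l => not_not.1 fun h' => h ⟨l, h'⟩)
    have he : w (L + 1) = w L + Pi.single l 1 := by
      funext l'
      have := hA l'
      have hlL : (l : ℕ) = L := by
        by_contra h
        refine hl ?_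
        simp only [hw]
        split_ifs <;> omega
      rw [Pi.add_apply]
      by_cases hll : l' = l
      · subst hll
        rw [Pi.single_eq_same]
        simp only [hw] at hl ⊢
        split_ifs at * <;> omega
      · rw [Pi.single_eq_of_ne hll, add_zero]
        have : (l' : ℕ) ≠ L := fun h => hll (Fin.ext (h.trans hlL.symm))
        simp only [hw]
        split_ifs <;> omega
    rw [he, edist_comm]
    exact hB _ (hwb L) l
  rw [← hw0, ← hwn]
  refine (edist_le_range_sum_edist (fun L => f (w L)) n).trans ?_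
  refine (Finset.sum_le_sum fun L _ => hstep L).trans (le_of_eq ?_)
  rw [Finset.sum_const, Finset.card_range, nsmul_eq_mul]

theorem edge_le (F : (Fin n → ℝ) → Fin m → ℝ) (q ρ : ℝ) (K : ℕ) (u : Fin n → ℕ) (x₀ : Fin n → ℝ)
    (l : Fin n) :
    edist (F (gpt ρ K x₀ u + Pi.single l (ρ / 2 ^ K))) (F (gpt ρ K x₀ u)) ^ q ≤
      edgeSum F q ρ K u x₀ := by
  unfold edgeSum
  refine Finset.single_le_sum (s := Finset.univ) (a := l) ?_ (Finset.mem_univ l) |>.trans_eq' ?_
  · exact fun _ _ => bot_le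
  · rfl

attribute [local irreducible] gidx gpt

theorem chain_bound {F : (Fin n → ℝ) → Fin m → ℝ} {q ρ ε : ℝ} (hq : 0 < q)
    {i : Fin n} {x₀ y : Fin n → ℝ} (hy : ∀ l, y l ∈ Icc (0 : ℝ) 1) (hi : y i = 0) (j k : ℕ) :
    edist (F (gpt ρ (j + k) x₀ (gidx y (j + k))))
        (F (gpt ρ (j + (k + 1)) x₀ (gidx y (j + (k + 1))))) ≤
      n * ((wt ε (k + 1))⁻¹ * cellSum F q ρ ε i x₀ j (gidx y j)) ^ (1 / q) := by
  have hzero : gpt ρ (j + k) x₀ (gidx y (j + k)) =
      gpt ρ (j + (k + 1)) x₀ fun l => 2 * gidx y (j + k) l := by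
    funext l
    simp only [gpt, Pi.add_apply, ← add_assoc, pow_succ]
    push_cast
    field_simp
  rw [hzero]
  refine path_bound (fun u => F (gpt ρ (j + (k + 1)) x₀ u))
    (fun l => by simpa [← add_assoc] using gidx_div y (j + k) 1 l) fun u hu l => ?_
  have hA'm := mem_gset.1 (gidx_mem hy hi (j + (k + 1)))
  have hmem : u ∈ (gset i (j + (k + 1))).filter
      (fun a => (fun l => a l / 2 ^ (k + 1)) = gidx y j) := by
    refine Finset.mem_filter.2 ⟨mem_gset.2 ⟨?_, fun l => (hu l).2.trans (hA'm.2 l)⟩, ?_⟩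
    · have := (hu i).2
      rw [hA'm.1] at this
      omega
    · funext l
      refine le_antisymm ?_ ?_
      · calc u l / 2 ^ (k + 1) ≤ gidx y (j + (k + 1)) l / 2 ^ (k + 1) :=
              Nat.div_le_div_right (hu l).2
          _ = gidx y j l := gidx_div y j (k + 1) l
      · calc gidx y j l = gidx y (j + k) l / 2 ^ k := (gidx_div y j k l).symm
          _ = 2 * gidx y (j + k) l / 2 ^ (k + 1) := by
              rw [pow_succ', Nat.mul_div_mul_left _ _ two_pos]
          _ ≤ u l / 2 ^ (k + 1) := Nat.div_le_div_right (hu l).1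
  have hbound : edgeSum F q ρ (j + (k + 1)) u x₀ ≤
      (wt ε (k + 1))⁻¹ * cellSum F q ρ ε i x₀ j (gidx y j) := by
    rw [mul_comm, ← div_eq_mul_inv,
      ENNReal.le_div_iff_mul_le (Or.inl (wt_ne_zero _ _)) (Or.inl (wt_ne_top _ _)), mul_comm]
    refine le_trans ?_ (ENNReal.le_tsum (k + 1))
    exact mul_le_mul' le_rfl (Finset.single_le_sum
      (f := fun a => edgeSum F q ρ (j + (k + 1)) a x₀) (fun a _ => bot_le) hmem)
  have he : gpt ρ (j + (k + 1)) x₀ (u + Pi.single l 1) =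
      gpt ρ (j + (k + 1)) x₀ u + Pi.single l (ρ / 2 ^ (j + (k + 1))) := by
    funext l'
    simp only [gpt, Pi.add_apply]
    rw [add_assoc, add_right_inj]
    by_cases hll : l' = l
    · subst hll
      rw [Pi.single_eq_same, Pi.single_eq_same]
      push_cast
      ring
    · rw [Pi.single_eq_of_ne hll, Pi.single_eq_of_ne hll]
      simp
  rw [he, one_div, ENNReal.le_rpow_inv_iff hq]
  exact (edge_le F q ρ (j + (k + 1)) u x₀ l).trans hbound

theorem edist_limit_le {F : (Fin n → ℝ) → Fin m → ℝ} (hF : Continuous F) {q ρ ε : ℝ} (hq : 0 < q)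
    {i : Fin n} {x₀ y : Fin n → ℝ} (hy : ∀ l, y l ∈ Icc (0 : ℝ) 1) (hi : y i = 0) (j : ℕ) :
    edist (F (x₀ + ρ • y)) (F (gpt ρ j x₀ (gidx y j))) ≤
      (n * (1 - (wt ε 1)⁻¹ ^ (1 / q))⁻¹) * cellSum F q ρ ε i x₀ j (gidx y j) ^ (1 / q) := by
  set T := cellSum F q ρ ε i x₀ j (gidx y j) with hT
  set θ := (wt ε 1)⁻¹ ^ (1 / q) with hθ
  set z : ℕ → Fin m → ℝ := fun k => F (gpt ρ (j + k) x₀ (gidx y (j + k))) with hz
  have hlim : Tendsto z atTop (𝓝 (F (x₀ + ρ • y))) := by
    refine (hF.tendsto _).comp (tendsto_pi_nhds.2 fun l => ?_)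
    have h1 : Tendsto (fun k : ℕ => (⌊y l * (2 : ℝ) ^ (j + k)⌋₊ : ℝ) / 2 ^ (j + k)) atTop
        (𝓝 (y l)) :=
      (tendsto_nat_floor_mul_div_atTop (hy l).1).comp
        ((tendsto_pow_atTop_atTop_of_one_lt one_lt_two).comp (tendsto_atTop_mono
          (fun k => Nat.le_add_left k j) tendsto_id))
    have h2 := (h1.const_mul ρ).const_add (x₀ l)
    simp only [Pi.add_apply, Pi.smul_apply, smul_eq_mul, gpt, gidx]
    refine h2.congr fun k => ?_
    rw [mul_comm (y l)]
    ring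
  have hK : ∀ k, edist (z 0) (z k) ≤ (n * (1 - θ)⁻¹) * T ^ (1 / q) := by
    intro k
    refine (edist_le_range_sum_edist z k).trans ?_
    refine (Finset.sum_le_sum fun l _ => chain_bound (ε := ε) hq hy hi j l).trans ?_
    calc ∑ l ∈ Finset.range k, (n : ℝ≥0∞) * ((wt ε (l + 1))⁻¹ * T) ^ (1 / q)
        = ∑ l ∈ Finset.range k, (n * T ^ (1 / q)) * θ ^ (l + 1) := by
          refine Finset.sum_congr rfl fun l _ => ?_
          rw [ENNReal.mul_rpow_of_nonneg _ _ (by positivity), wt_eq_pow ε (l + 1),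
            ENNReal.inv_pow, ← ENNReal.rpow_natCast _ (l + 1), ← ENNReal.rpow_mul, mul_comm
              ((l + 1 : ℕ) : ℝ) (1 / q), ENNReal.rpow_mul, ENNReal.rpow_natCast]
          ring
      _ ≤ (n * T ^ (1 / q)) * ∑' l, θ ^ l := by
          rw [← Finset.mul_sum]
          gcongr
          refine le_trans (ENNReal.sum_le_tsum _) ?_
          exact ENNReal.tsum_comp_le_tsum_of_injective (add_left_injective 1) _
      _ = _ := by rw [ENNReal.tsum_geometric]; ring
  rw [edist_comm]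
  refine le_of_tendsto' ((continuous_const.edist continuous_id).tendsto _ |>.comp hlim) fun k => ?_
  simpa [hz] using hK k

theorem volume_closedEBall_le (x : Fin m → ℝ) {r : ℝ≥0∞} (hr : r ≠ ⊤) :
    volume {z : Fin m → ℝ | edist z x ≤ r} ≤ (2 * r) ^ m := by
  have : {z : Fin m → ℝ | edist z x ≤ r} = Metric.closedBall x r.toReal := by
    ext z
    rw [mem_ofPred_eq, Metric.mem_closedBall, edist_dist]
    exact ENNReal.ofReal_le_iff_le_toReal hr
  rw [this, Real.volume_pi_closedBall x ENNReal.toReal_nonneg, Fintype.card_fin,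
    ENNReal.ofReal_pow (by positivity), ENNReal.ofReal_mul (by positivity),
    ENNReal.ofReal_toReal hr, ENNReal.ofReal_ofNat]

/-- **Null slices.** A dense set of hyperplane slices has null image. -/
theorem exists_null_slice {F : (Fin n → ℝ) → Fin m → ℝ} (hF : Continuous F) {c : Fin n → ℝ}
    {R a q : ℝ} {C : ℝ≥0∞} (hC : C ≠ ⊤) (hR : 0 < R) (ha : (n : ℝ) - 1 < a) (hq : 0 < q)
    (hqm : q ≤ m)
    (hb : ∀ l, ∀ h ∈ Icc (0 : ℝ) (4 * R), ∫⁻ x in Metric.closedBall c (6 * R),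
      edist (F (x + Pi.single l h)) (F x) ^ q ≤ C * ENNReal.ofReal (h ^ a))
    (i : Fin n) {t t' : ℝ} (ht : t < t') (ht1 : c i - R ≤ t) (ht2 : t' ≤ c i + R) :
    ∃ τ ∈ Ioo t t', volume (F '' ({x | x i = τ} ∩ Metric.closedBall c R)) = 0 := by
  classical
  have hn : (1 : ℝ) ≤ n := by exact_mod_cast i.pos
  set ε := (a - ((n : ℝ) - 1)) / 2 with hεdef
  have hε : 0 < ε := by linarith
  obtain ⟨x₀, hx₀i, hx₀l, hS⟩ := exists_good_base (ε := ε) hF hC hR (by linarith) hq.le
    (by linarith) hb i ht ht1 ht2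
  refine ⟨x₀ i, hx₀i, ?_⟩
  set S := ∑' j, wt ε j * ∑ b ∈ gset i j, edgeSum F q (4 * R) j b x₀ with hSdef
  set G : ℝ≥0∞ := n * (1 - (wt ε 1)⁻¹ ^ (1 / q))⁻¹ with hG
  have hG' : G ≠ ⊤ := by
    refine ENNReal.mul_ne_top (ENNReal.natCast_ne_top n) (ENNReal.inv_ne_top.2 ?_)
    exact (tsub_pos_of_lt (ENNReal.rpow_lt_one (ENNReal.inv_lt_one.2 (one_lt_wt_one hε))
      (by positivity))).ne'
  set T : ℕ → (Fin n → ℕ) → ℝ≥0∞ := fun j b => cellSum F q (4 * R) ε i x₀ j b with hT
  have hTle : ∀ j, ∀ b ∈ gset i j, T j b ≤ (wt ε j)⁻¹ * S := by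
    intro j b hb'
    rw [mul_comm _ S, ← div_eq_mul_inv,
      ENNReal.le_div_iff_mul_le (Or.inl (wt_ne_zero _ _)) (Or.inl (wt_ne_top _ _)), mul_comm]
    exact le_trans (by gcongr; exact Finset.single_le_sum (fun _ _ => bot_le) hb')
      (sum_cellSum_le j)
  have hsmall : Tendsto (fun j => (wt ε j)⁻¹ * S) atTop (𝓝 0) := by
    have h1 : Tendsto (fun j => (wt ε 1)⁻¹ ^ j) atTop (𝓝 0) :=
      ENNReal.tendsto_pow_atTop_nhds_zero_of_lt_one (ENNReal.inv_lt_one.2 (one_lt_wt_one hε))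
    have := ENNReal.Tendsto.mul_const h1 (b := S) (Or.inr hS)
    simpa [← ENNReal.inv_pow, ← wt_eq_pow] using this
  have hle : ∀ j, (wt ε j)⁻¹ * S ≤ 1 → volume (F '' ({x | x i = x₀ i} ∩ Metric.closedBall c R)) ≤
      (2 * G) ^ m * ((wt ε j)⁻¹ * S) := by
    intro j hj
    have hsub : F '' ({x | x i = x₀ i} ∩ Metric.closedBall c R) ⊆ ⋃ b ∈ gset i j,
        {z | edist z (F (gpt (4 * R) j x₀ b)) ≤ G * T j b ^ (1 / q)} := by
      rintro _ ⟨x, ⟨hxi, hxc⟩, rfl⟩
      set y : Fin n → ℝ := (4 * R)⁻¹ • (x - x₀) with hy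
      have hyi : y i = 0 := by
        simp only [mem_ofPred_eq] at hxi
        simp [hy, hxi]
      have hyI : ∀ l, y l ∈ Icc (0 : ℝ) 1 := by
        intro l
        by_cases hl : l = i
        · simp [hl, hyi]
        have h1 := hx₀l l hl
        have h2 := abs_le.1 ((Real.dist_eq _ _).symm.trans_le
          ((dist_le_pi_dist x c l).trans (Metric.mem_closedBall.1 hxc)))
        simp only [hy, Pi.smul_apply, Pi.sub_apply, smul_eq_mul, mem_Icc]
        refine ⟨mul_nonneg (by positivity) (by linarith [h1.2]), ?_⟩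
        rw [inv_mul_le_iff₀ (by positivity), mul_one]
        linarith [h1.1]
      have hxy : x = x₀ + (4 * R) • y := by
        rw [hy, smul_inv_smul₀ (by positivity), add_sub_cancel]
      refine mem_iUnion₂.2 ⟨gidx y j, gidx_mem hyI hyi j, ?_⟩
      rw [mem_ofPred_eq, hxy]
      exact edist_limit_le hF hq hyI hyi j
    refine (measure_mono hsub).trans ((measure_biUnion_finset_le _ _).trans ?_)
    have hone : ∀ b ∈ gset i j, volume {z : Fin m → ℝ | edist z (F (gpt (4 * R) j x₀ b)) ≤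
        G * T j b ^ (1 / q)} ≤ (2 * G) ^ m * T j b := by
      intro b hb'
      have hT1 : T j b ≤ 1 := (hTle j b hb').trans hj
      refine (volume_closedEBall_le _ (ENNReal.mul_ne_top hG'
        (ENNReal.rpow_ne_top_of_nonneg (by positivity) (hT1.trans_lt ENNReal.one_lt_top).ne))).trans ?_
      rw [← mul_assoc, mul_pow]
      gcongr
      rw [← ENNReal.rpow_natCast, ← ENNReal.rpow_mul]
      calc T j b ^ (1 / q * (m : ℝ)) ≤ T j b ^ (1 : ℝ) :=
            ENNReal.rpow_le_rpow_of_exponent_ge hT1 (by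
              rw [one_div_mul_eq_div, le_div_iff₀ hq]; linarith)
        _ = T j b := ENNReal.rpow_one _
    refine (Finset.sum_le_sum hone).trans ?_
    rw [← Finset.mul_sum]
    gcongr
    rw [mul_comm _ S, ← div_eq_mul_inv,
      ENNReal.le_div_iff_mul_le (Or.inl (wt_ne_zero _ _)) (Or.inl (wt_ne_top _ _)), mul_comm]
    exact sum_cellSum_le j
  have h2 : Tendsto (fun j => (2 * G) ^ m * ((wt ε j)⁻¹ * S)) atTop (𝓝 0) := by
    simpa using ENNReal.Tendsto.const_mul hsmall
      (Or.inr (ENNReal.pow_ne_top (ENNReal.mul_ne_top ENNReal.ofNat_ne_top hG')))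
  refine le_antisymm (ge_of_tendsto h2 ?_) bot_le
  filter_upwards [hsmall.eventually (eventually_le_nhds zero_lt_one)] with j hj
  exact hle j hj

end

end Vale.Agent.P228.HS
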